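import Vale.Agent.P134B.Spec2

/-!
# P134B: the stability of a pair of layers
-/

open MeasureTheory Metric Filter Topology Set
open scoped ContDiff RealInnerProductSpace
open Vale.Agent.P366.Stmt (E)
open Vale.Agent.P366W (Fr adj dvg trc)

noncomputable section

namespace Vale.Agent.P134B

namespace Gain

variable {m : ℕ} {z e : E (m + 1)} {L : E m →ₗᵢ[ℝ] E (m + 1)} {h η : E m → ℝ} {T : ℝ}

theorem adj_pt (hF : Fr e L) (y : E m) (t : ℝ) : adj L (pt z e L y t - z) = y := by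
  rw [pt, add_assoc, add_sub_cancel_left, hF.adj_pt]

theorem e_pt (hF : Fr e L) (y : E m) (t : ℝ) : ⟪e, pt z e L y t - z⟫ = t := by
  rw [pt, add_assoc, add_sub_cancel_left, hF.e_pt]

/-- the test function -/
def ze (z e : E (m + 1)) (L : E m →ₗᵢ[ℝ] E (m + 1)) (h η : E m → ℝ) (T : ℝ) (x : E (m + 1)) : ℝ :=
  η (adj L (x - z)) * cut z e L h (T / 2) x

theorem cut_pt (hF : Fr e L) (y : E m) (t : ℝ) :
    cut z e L h T (pt z e L y (h y + t)) = kp (t / T) := by
  rw [cut, adj_pt hF, e_pt hF, add_sub_cancel_left]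

theorem c1_a : ContDiff ℝ 1 fun x : E (m + 1) => adj L (x - z) :=
  (adj L).contDiff.comp (contDiff_id.sub contDiff_const)

theorem c1_s (hh : ContDiff ℝ 1 h) :
    ContDiff ℝ 1 fun x : E (m + 1) => (⟪e, x - z⟫ - h (adj L (x - z))) / T :=
  ((contDiff_const.inner ℝ (contDiff_id.sub contDiff_const)).sub (hh.comp c1_a)).div_const _

theorem c1_cut (hh : ContDiff ℝ 1 h) : ContDiff ℝ 1 (cut z e L h T) :=
  (kp.contDiff (n := 1)).comp (c1_s hh)

theorem c1_ze (hh : ContDiff ℝ 1 h) (hη : ContDiff ℝ 1 η) : ContDiff ℝ 1 (ze z e L h η T) :=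
  (hη.comp c1_a).mul (c1_cut hh)

theorem kp_bd : ∃ k ≥ (0 : ℝ), ∀ s, |deriv kp s| ≤ k ∧ (|s| < 1 / 2 → deriv kp s = 0) := by
  obtain ⟨k, hk⟩ := ((kp.contDiff (n := 1)).continuous_deriv le_rfl).bounded_above_of_compact_support
    kp.hasCompactSupport.deriv
  refine ⟨k, (norm_nonneg _).trans (hk 0), fun s => ⟨hk s, fun hs => ?_⟩⟩
  have : (kp : ℝ → ℝ) =ᶠ[𝓝 s] 1 := kp.eventuallyEq_one_of_mem_ball (by simpa [kp] using hs)
  rw [this.deriv_eq]
  simp

theorem norm_adj (hF : Fr e L) : ‖adj L‖ ≤ 1 :=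
  ContinuousLinearMap.opNorm_le_bound _ zero_le_one fun x => by simpa using hF.norm_adj x

theorem grad_ze (hF : Fr e L) (hh : ContDiff ℝ 1 h) (hη : ContDiff ℝ 1 η) (hT : 1 ≤ T) (y : E m)
    (t : ℝ) (hy : ‖gradient h y‖ ≤ 1) :
    ‖gradient (ze z e L h η T) (pt z e L y (h y + t))‖ ≤
      ‖gradient η y‖ + |η y| * (4 * |deriv kp (t / (T / 2))|) := by
  obtain ⟨x, hx⟩ : ∃ x, x = pt z e L y (h y + t) := ⟨_, rfl⟩
  rw [← hx]
  have a0 : adj L (x - z) = y := by rw [hx]; exact adj_pt hF y _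
  have a1 : HasFDerivAt (fun x : E (m + 1) => adj L (x - z)) (adj L) x := by
    simpa only [map_sub] using (adj L).hasFDerivAt.sub_const (adj L z)
  have a2 : HasFDerivAt (fun x : E (m + 1) => η (adj L (x - z))) (fderiv ℝ η y ∘L adj L) x :=
    HasFDerivAt.comp x (by rw [a0]; exact (hη.differentiable one_ne_zero _).hasFDerivAt) a1
  have a3 : HasFDerivAt (fun x : E (m + 1) => h (adj L (x - z))) (fderiv ℝ h y ∘L adj L) x :=
    HasFDerivAt.comp x (by rw [a0]; exact (hh.differentiable one_ne_zero _).hasFDerivAt) a1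
  have a4 : HasFDerivAt (fun x : E (m + 1) => ⟪e, x - z⟫) (innerSL ℝ e) x := by
    simp only [inner_sub_right]
    exact (innerSL ℝ e).hasFDerivAt.sub_const ⟪e, z⟫
  have a5 := (a4.sub a3).mul_const (T / 2)⁻¹
  have s0 : (⟪e, x - z⟫ - h (adj L (x - z))) * (T / 2)⁻¹ = t / (T / 2) := by
    rw [a0, hx, e_pt hF, add_sub_cancel_left, div_eq_mul_inv t]
  have a6 : HasDerivAt kp (deriv kp (t / (T / 2)))
      ((⟪e, x - z⟫ - h (adj L (x - z))) * (T / 2)⁻¹) := by
    rw [s0]; exact ((kp.contDiff (n := 1)).differentiable one_ne_zero _).hasDerivAt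
  have a7 : HasFDerivAt (cut z e L h (T / 2)) (deriv kp (t / (T / 2)) •
      ((T / 2)⁻¹ • (innerSL ℝ e - fderiv ℝ h y ∘L adj L))) x := by
    have : cut z e L h (T / 2) = fun x => kp ((⟪e, x - z⟫ - h (adj L (x - z))) * (T / 2)⁻¹) :=
      funext fun x => by rw [cut, div_eq_mul_inv _ (T / 2)]
    rw [this]
    exact HasDerivAt.comp_hasFDerivAt (h₂ := kp)
      (f := fun x => (⟪e, x - z⟫ - h (adj L (x - z))) * (T / 2)⁻¹) x a6 a5
  have a8 := (a2.mul a7).fderiv
  have n1 : ∀ D : E m →L[ℝ] ℝ, ‖D ∘L adj L‖ ≤ ‖D‖ := fun D =>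
    (ContinuousLinearMap.opNorm_comp_le _ _).trans
      (mul_le_of_le_one_right (norm_nonneg _) (norm_adj hF))
  have n2 : ‖innerSL ℝ e - fderiv ℝ h y ∘L adj L‖ ≤ 2 := by
    have b1 := n1 (fderiv ℝ h y)
    have b2 := norm_sub_le (innerSL ℝ e) (fderiv ℝ h y ∘L adj L)
    rw [innerSL_apply_norm, hF.one] at b2
    rw [P366W.norm_gradient] at hy
    linarith
  have n3 : |(T / 2)⁻¹| ≤ 2 := by
    rw [abs_of_pos (by positivity), inv_le_comm₀ (by positivity) two_pos]; linarith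
  have n4 : |cut z e L h (T / 2) x| ≤ 1 := by
    rw [cut, abs_of_nonneg kp.nonneg]; exact kp.le_one
  rw [P366W.norm_gradient, P366W.norm_gradient]
  change ‖fderiv ℝ ((fun x => η (adj L (x - z))) * cut z e L h (T / 2)) x‖ ≤ _
  rw [a8, add_comm ‖fderiv ℝ η y‖]
  refine (norm_add_le _ _).trans (add_le_add ?_ ?_)
  · simp only [norm_smul, Real.norm_eq_abs, a0]
    refine mul_le_mul_of_nonneg_left ?_ (abs_nonneg _)
    rw [mul_comm 4]
    refine mul_le_mul_of_nonneg_left ?_ (abs_nonneg _)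
    nlinarith [abs_nonneg (T / 2)⁻¹, norm_nonneg (innerSL ℝ e - fderiv ℝ h y ∘L adj L)]
  · rw [norm_smul, Real.norm_eq_abs]
    exact (mul_le_of_le_one_left (norm_nonneg _) n4).trans (n1 _)

theorem fub (hF : Fr e L) (hh : Continuous h) {F : E (m + 1) → ℝ} (hi : Integrable F) :
    Integrable (fun y => ∫ t, F (pt z e L y (h y + t))) ∧
      ∫ x, F x = ∫ y, ∫ t, F (pt z e L y (h y + t)) := by
  have mp := hF.mp z hh.measurable
  have me := (hF.sh z hh).measurableEmbedding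
  have i1 := (mp.integrable_comp_emb me).2 hi
  exact ⟨i1.integral_prod_left, (mp.integral_comp me F).symm.trans (integral_prod _ i1)⟩

theorem col {F g : ℝ → ℝ} {a b A B : ℝ} (F0 : ∀ t, 0 ≤ F t) (c1 : Integrable g) (c2 : ∫ t, g t ≤ A)
    (c3 : ∫ t in {t : ℝ | T / 4 ≤ |t|}, g t ≤ B) (a0 : 0 ≤ a) (b0 : 0 ≤ b)
    (h1 : ∀ t, |t| < T / 4 → F t ≤ a * g t) (h2 : ∀ t, T / 4 ≤ |t| → F t ≤ (a + b) * g t) :
    ∫ t, F t ≤ a * A + b * B := by
  have ms : MeasurableSet {t : ℝ | T / 4 ≤ |t|} :=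
    (isClosed_le continuous_const continuous_abs).measurableSet
  calc _ ≤ ∫ t, (a * g t + b * {t : ℝ | T / 4 ≤ |t|}.indicator g t) := by
        refine integral_mono_of_nonneg (.of_forall F0)
          ((c1.const_mul _).add ((c1.indicator ms).const_mul _)) (.of_forall fun t => ?_)
        beta_reduce
        by_cases ht : T / 4 ≤ |t|
        · rw [indicator_of_mem (show t ∈ {t : ℝ | T / 4 ≤ |t|} from ht), ← add_mul]
          exact h2 t ht
        · rw [indicator_of_notMem (show t ∉ {t : ℝ | T / 4 ≤ |t|} from ht), mul_zero, add_zero]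
          exact h1 t (not_le.1 ht)
    _ ≤ _ := by
        rw [integral_add (c1.const_mul _) ((c1.indicator ms).const_mul _), integral_const_mul,
          integral_const_mul, integral_indicator ms]
        gcongr

theorem sqb {d a n k : ℝ} (d0 : 0 ≤ d) (h : d ≤ a + |n| * (4 * k)) :
    d ^ 2 ≤ a ^ 2 + (1 + 32 * k ^ 2) * (a ^ 2 + n ^ 2) := by
  refine (pow_le_pow_left₀ d0 h 2).trans ?_
  rw [← sq_abs n]
  nlinarith [sq_nonneg (a - |n| * (4 * k)), sq_nonneg (k * a), sq_nonneg |n|]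

theorem fin {K1 K2 K' ε τ x s A B I : ℝ} (k1 : 0 ≤ K1) (k2 : 0 ≤ K2) (k3 : 1 ≤ K') (τ0 : 0 ≤ τ)
    (x0 : 0 ≤ x) (p1 : 0 ≤ A) (p2 : 0 ≤ B)
    (h : I - K1 * (τ * ε ^ 2) * B ≤ (s + K2 * ε ^ 2 + K' * (K2 * x)) * A + K' * (K2 * x) * B) :
    I ≤ (s + (K1 + K' * K2) * (ε ^ 2 + x)) * A + (K1 + K' * K2) * (τ * ε ^ 2 + x) * B := by
  have q1 : K2 * ε ^ 2 ≤ K' * K2 * ε ^ 2 := by
    rw [mul_assoc]; exact le_mul_of_one_le_left (by positivity) k3
  have q2 := mul_le_mul_of_nonneg_right (show s + K2 * ε ^ 2 + K' * (K2 * x)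
    ≤ s + (K1 + K' * K2) * (ε ^ 2 + x) by
      nlinarith [mul_nonneg k1 (sq_nonneg ε), mul_nonneg k1 x0]) p1
  have q3 := mul_le_mul_of_nonneg_right (show K1 * (τ * ε ^ 2) + K' * (K2 * x)
    ≤ (K1 + K' * K2) * (τ * ε ^ 2 + x) by
      nlinarith [mul_nonneg k1 x0, show 0 ≤ K' * K2 * (τ * ε ^ 2) by positivity]) p2
  linarith

end Gain

open Gain in
theorem gain : rGAIN := by
  intro jac gd reg eg loc gc1 gc2 m C B
  obtain ⟨_, -, eg⟩ := eg m C B
  obtain ⟨_, -, loc⟩ := loc m C B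
  obtain ⟨K1, k1, gc1⟩ := gc1 m C B
  obtain ⟨K2, k2, gc2⟩ := gc2 m C B
  obtain ⟨k, k0, hk⟩ := kp_bd
  set K' := 1 + 32 * k ^ 2 with hK'
  have k3 : 1 ≤ K' := by rw [hK']; nlinarith
  refine ⟨K1 + K' * K2, by positivity, ?_⟩
  intro ε δ r T τ u z e L h₀ h₁ β Λ χ χ' hP τ0 hp st η hη
  replace eg := (eg ε δ r T τ u z e L h₀ h₁ β Λ χ χ' hP τ0 hp).1
  replace loc := loc ε δ r T τ u z e L h₀ h₁ β Λ χ χ' hP τ0 hp
  replace gc1 := gc1 ε δ r T τ u z e L h₀ h₁ β Λ χ χ' hP τ0 hp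
  replace gc2 := gc2 ε δ r T τ u z e L h₀ h₁ β Λ χ χ' hP τ0 hp
  have ok := hP.l0.ok
  have hF := hP.l0.gr.fr
  have T1 := hP.l0.T1
  have hh : ContDiff ℝ 1 h₀ := hP.l0.gr.sm.of_le (by simp)
  have o0 : MeasurableSet (W0 u z e L r h₀ T) :=
    (reg m C ε δ r T _ u z e L h₀ hP.l0 le_rfl (by norm_num)).2.1.measurableSet
  have o1 : MeasurableSet (W1 u z e L r h₁ T) :=
    (reg m C ε δ r T _ u z (-e) L _ hP.l1 le_rfl (by norm_num)).2.1.measurableSet
  set ζ := ze z e L h₀ η T with hζ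
  set M := MM u z e L r h₀ h₁ T β Λ
  have ζ1 : ContDiff ℝ 1 ζ := c1_ze hh hη.c1
  set Φ := hF.sh z hh.continuous
  have Φe : ∀ y t, Φ (y, t) = pt z e L y (h₀ y + t) := fun _ _ => rfl
  set K := Φ '' (tsupport η ×ˢ Icc (-(3 / 8 * T)) (3 / 8 * T)) with hK
  have Kc : IsCompact K := (hη.cs.isCompact.prod isCompact_Icc).image Φ.continuous
  have ζe : ∀ y t, ζ (pt z e L y (h₀ y + t)) = η y * kp (t / (T / 2)) := fun y t => by
    rw [hζ, ze, adj_pt hF, cut_pt hF]
  have ζK : ∀ x ∉ K, ζ x = 0 := fun x hx => by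
    obtain ⟨⟨y, t⟩, rfl⟩ := Φ.surjective x
    rw [Φe, ζe]
    by_contra h0
    obtain ⟨b1, b2⟩ := mul_ne_zero_iff.1 h0
    have b3 : t / (T / 2) ∈ ball (0 : ℝ) kp.rOut := kp.support_eq ▸ b2
    rw [mem_ball_zero_iff, Real.norm_eq_abs, abs_div, abs_of_pos (show 0 < T / 2 by linarith),
      div_lt_iff₀ (by linarith)] at b3
    exact hx ⟨(y, t), ⟨subset_tsupport _ b1, abs_le.1 (by simp only [kp] at b3; linarith)⟩, rfl⟩
  have ζK' : ∀ x ∉ K, ζ =ᶠ[𝓝 x] 0 := fun x hx =>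
    mem_of_superset (Kc.isClosed.isOpen_compl.mem_nhds hx) ζK
  have ζc : HasCompactSupport ζ := HasCompactSupport.intro Kc ζK
  have KW : ∀ x ∈ K, x ∈ Wn z e L r h₀ T ∩ Wn z (-e) L r (fun y => -h₁ y) T := by
    rintro _ ⟨⟨y, t⟩, ⟨b1, b2, b3⟩, rfl⟩
    obtain ⟨b4, b5⟩ := hη.su b1
    have b6 := hP.lt y b4
    simp only [Φe, Wn, mem_inter_iff, mem_ofPred_eq, adj_pt hF, inner_neg_left, e_pt hF, abs_lt]
    exact ⟨⟨mem_ball_zero_iff.1 b4, by linarith, by linarith⟩, mem_ball_zero_iff.1 b4,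
      by linarith, by linarith⟩
  obtain ⟨j1, j2, j3⟩ := jac _ C u ζ M ok st ζc.mul_right fun x => by
    by_cases hx : x ∈ K
    · exact .inl ⟨ζ1.contDiffAt, (loc x (KW x hx)).1⟩
    · exact .inr (.inl (ζK' x hx))
  have cu := ok.sm.continuous
  have cf : Continuous (ff u) := by unfold ff; fun_prop
  have sp := P366W.smooth_gradient ok.smp
  have cp : Continuous (pp u) := sp.continuous
  have cS : Continuous (SS u) := sp.continuous_fderiv (by simp)
  have cq : Continuous (qq u) := by unfold qq; fun_prop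
  have cP : Continuous (PP u) := by unfold PP; fun_prop
  have ce : Continuous (pe u e) := by unfold pe; fun_prop
  have cχ := hp.ch.ct
  have cζ := ζ1.continuous
  have ig : ∀ g : E (m + 1) → ℝ, Continuous g → Integrable fun x => ff u x ^ 2 * ζ x ^ 2 * g x :=
    fun g hg => Continuous.integrable_of_hasCompactSupport (by fun_prop)
      (HasCompactSupport.intro Kc fun x hx => by simp [ζK x hx])
  have iG : Integrable fun x => ff u x ^ 2 * ζ x ^ 2 * GG u z e L r h₀ h₁ T τ χ' x := by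
    refine (((ig (fun x => 3 / 2 * χ' (pe u e x) * ‖SS u x e‖ ^ 2) (by fun_prop)).indicator
      (o0.inter o1)).sub ((((ig _ cP).indicator o0).add ((ig _ cP).indicator o1)).const_mul
        τ)).congr (.of_forall fun x => ?_)
    simp only [GG, Pi.sub_apply, Pi.add_apply, indicator_mul_right]
    ring
  have iη : Integrable fun y => η y ^ 2 :=
    (hη.c1.continuous.pow 2).integrable_of_hasCompactSupport
      (hη.cs.mono fun y hy h0 => hy (by simp [h0]))
  have gη : ∀ y ∉ tsupport η, gradient η y = 0 := fun y hy => by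
    rw [← norm_eq_zero, P366W.norm_gradient, norm_eq_zero]
    exact image_eq_zero_of_notMem_tsupport fun h => hy (tsupport_fderiv_subset ℝ h)
  have iD : Integrable fun y => ‖gradient η y‖ ^ 2 :=
    ((P366W.contDiff_gradient (k := 0) (by simpa using hη.c1)).continuous.norm.pow
      2).integrable_of_hasCompactSupport
      (HasCompactSupport.intro hη.cs.isCompact fun y hy => by simp [gη y hy])
  have iE : Integrable fun y => η y ^ 2 * Eg u z e L h₀ h₁ χ' y :=
    ((hη.c1.continuous.pow 2).mul eg).integrable_of_hasCompactSupport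
      (hη.cs.mono fun y hy h0 => hy (by simp [h0]))
  -- the lower bound
  have l1 : ∫ x, ff u x ^ 2 * ζ x ^ 2 * GG u z e L r h₀ h₁ T τ χ' x ≤
      ∫ x, ff u x ^ 2 * ζ x ^ 2 * (M x * (Lf u M x + PP u x * M x)) :=
    integral_mono iG j1 fun x => by
      by_cases hx : x ∈ K
      · exact mul_le_mul_of_nonneg_left (loc x (KW x hx)).2.1 (by positivity)
      · simp [ζK x hx]
  obtain ⟨f1, f2⟩ := fub (z := z) hF hh.continuous iG
  have l2 : 2 * (∫ y, η y ^ 2 * Eg u z e L h₀ h₁ χ' y) - K1 * (τ * ε ^ 2) * ∫ y, η y ^ 2 ≤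
      ∫ x, ff u x ^ 2 * ζ x ^ 2 * GG u z e L r h₀ h₁ T τ χ' x := by
    rw [f2, ← integral_const_mul, ← integral_const_mul,
      ← integral_sub (iE.const_mul _) (iη.const_mul _)]
    refine integral_mono ((iE.const_mul _).sub (iη.const_mul _)) f1 fun y => ?_
    by_cases hy : η y = 0
    · simp [ζe, hy]
    obtain ⟨b4, b5⟩ := hη.su (subset_tsupport _ hy)
    have b6 := mul_le_mul_of_nonneg_left (gc1 y b4 b5.le) (sq_nonneg (η y))
    rw [← integral_const_mul] at b6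
    simp only [ζe, cut_pt hF] at b6 ⊢
    refine le_trans (le_of_eq (by ring)) (b6.trans (le_of_eq ?_))
    congr 1
    funext t
    ring
  -- the upper bound
  obtain ⟨-, f3⟩ := fub (z := z) hF hh.continuous j2
  have H0 : ∀ x, 0 ≤ HH u z e L r h₀ h₁ T x := fun x =>
    add_nonneg (add_nonneg (indicator_nonneg (fun _ _ => le_max_right _ _) _)
      (indicator_nonneg (fun _ _ => le_max_right _ _) _)) (indicator_nonneg (fun _ _ => zero_le_one) _)
  have l3 : ∫ x, ff u x ^ 2 * M x ^ 2 * ‖gradient ζ x‖ ^ 2 ≤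
      (2 * sg + K2 * ε ^ 2 + K' * (K2 * Real.exp (-(T / 4)))) * (∫ y, ‖gradient η y‖ ^ 2) +
        K' * (K2 * Real.exp (-(T / 4))) * ∫ y, η y ^ 2 := by
    rw [f3, ← integral_const_mul, ← integral_const_mul,
      ← integral_add (iD.const_mul _) (iη.const_mul _)]
    refine integral_mono_of_nonneg (.of_forall fun y => integral_nonneg fun t => by positivity)
      ((iD.const_mul _).add (iη.const_mul _)) (.of_forall fun y => ?_)
    have z0 : ∀ x ∉ K, gradient ζ x = 0 := fun x hx => by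
      rw [← norm_eq_zero, P366W.norm_gradient, (ζK' x hx).fderiv_eq]; simp
    by_cases hy : y ∈ tsupport η
    swap
    · have : ∀ t, gradient ζ (pt z e L y (h₀ y + t)) = 0 := fun t => z0 _ fun ⟨p, p1, p2⟩ =>
        hy (by rw [← Φe] at p2; rw [Φ.injective p2] at p1; exact p1.1)
      simp [this, gη y hy, image_eq_zero_of_notMem_tsupport hy]
    obtain ⟨b4, b5⟩ := hη.su hy
    obtain ⟨c1, c2, c3⟩ := gc2 y b4 b5.le
    have b7 : ‖gradient h₀ y‖ ≤ 1 := by
      have := (gd m C δ r u z e L h₀ ok hP.l0.gr (by linarith [hP.l0.d1]) y b4).2.2.1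
      linarith [hP.l0.d1]
    have d0 : ∀ t c, 0 ≤ c → ‖gradient ζ (pt z e L y (h₀ y + t))‖ ^ 2 ≤ c →
        ff u (pt z e L y (h₀ y + t)) ^ 2 * M (pt z e L y (h₀ y + t)) ^ 2 *
          ‖gradient ζ (pt z e L y (h₀ y + t))‖ ^ 2 ≤ c * (ff u (pt z e L y (h₀ y + t)) ^ 2 *
            HH u z e L r h₀ h₁ T (pt z e L y (h₀ y + t))) := fun t c c0 hc => by
      have g1 := mul_nonneg (sq_nonneg (ff u (pt z e L y (h₀ y + t)))) (H0 (pt z e L y (h₀ y + t)))
      by_cases hx : pt z e L y (h₀ y + t) ∈ K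
      · rw [mul_comm c]
        exact mul_le_mul (mul_le_mul_of_nonneg_left (loc _ (KW _ hx)).2.2 (sq_nonneg _)) hc
          (sq_nonneg _) g1
      · rw [z0 _ hx, norm_zero, zero_pow two_ne_zero, mul_zero]
        exact mul_nonneg c0 g1
    refine (col (a := ‖gradient η y‖ ^ 2) (b := K' * (‖gradient η y‖ ^ 2 + η y ^ 2))
      (fun t => by positivity) c1 c2 c3 (sq_nonneg _) (by positivity)
      (fun t ht => d0 t _ (sq_nonneg _) ?_) fun t _ => d0 t _ (by positivity) ?_).trans_eq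
      (by ring)
    · have d1 := grad_ze (z := z) hF hh hη.c1 T1 y t b7
      rw [(hk _).2 (by
        rw [abs_div, abs_of_pos (show 0 < T / 2 by linarith), div_lt_iff₀ (by linarith)]
        linarith), abs_zero, mul_zero, mul_zero, add_zero] at d1
      exact pow_le_pow_left₀ (norm_nonneg _) d1 2
    · exact sqb (norm_nonneg _) ((grad_ze (z := z) hF hh hη.c1 T1 y t b7).trans
        (by gcongr; exact (hk _).1))
  exact fin k1 k2 k3 τ0 (Real.exp_pos _).le (integral_nonneg fun _ => sq_nonneg _)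
    (integral_nonneg fun _ => sq_nonneg _) (l2.trans (l1.trans (j3.trans l3)))

end Vale.Agent.P134B
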