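import Vale.Agent.P134B.Spec

/-!
# P134B: the rows of the blow-up, the interaction of two layers
-/

set_option linter.unusedVariables false

open MeasureTheory Metric Filter Topology Set
open scoped ContDiff RealInnerProductSpace
open Vale.Agent.P366.Stmt (E)
open Vale.Agent.P366W (Fr adj dvg trc)

noncomputable section

namespace Vale.Agent.P134B

variable {n m : ℕ}

/-! ## The stress tensor -/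

/-- the stress tensor applied to `e` -/
def Te (u : E n → ℝ) (e x : E n) : E n :=
  ff u x ^ 2 • (pe u e x • pp u x - (1 - qq u x / 2) • e)

section

variable (u : E (m + 1) → ℝ) (z e : E (m + 1)) (L : E m →ₗᵢ[ℝ] E (m + 1)) (r : ℝ) (h : E m → ℝ)
  (T : ℝ)

/-- the horizontal flux of a column -/
def Jc (χ : ℝ → ℝ) (y : E m) : E m := ∫ t : ℝ, (Wr u z e L r h T (-(19 / 20))).indicator
  (fun x => (cut z e L h T x * χ (pe u e x)) • adj L (Te u e x)) (pt z e L y (h y + t))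

/-- the flux through the cut in the height -/
def F1 (χ : ℝ → ℝ) (y : E m) : ℝ := ∫ t : ℝ, (Wr u z e L r h T (-(19 / 20))).indicator
  (fun x => χ (pe u e x) * ⟪gradient (cut z e L h T) x, Te u e x⟫) (pt z e L y (h y + t))

/-- the flux through the ridges -/
def F2 (χ' : ℝ → ℝ) (y : E m) : ℝ := ∫ t : ℝ, (Wr u z e L r h T (-(19 / 20))).indicator
  (fun x => cut z e L h T x * χ' (pe u e x) * ⟪SS u x e, Te u e x⟫) (pt z e L y (h y + t))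

end

/-- **DIVT** -/
def DIVT : Prop := ∀ (n : ℕ) (C : ℝ) (u : E n → ℝ) (e : E n), Ok C u →
  ContDiff ℝ 1 (Te u e) ∧ ∀ x, dvg (Te u e) x = 0

/-- quantification over the layers -/
def ForLay (P : ∀ (m : ℕ) (K ε δ r T : ℝ) (u : E (m + 1) → ℝ) (z e : E (m + 1))
    (L : E m →ₗᵢ[ℝ] E (m + 1)) (h : E m → ℝ) (χ χ' : ℝ → ℝ), Prop) : Prop :=
  ∀ (m : ℕ) (C B : ℝ), ∃ K ≥ (0 : ℝ), ∀ (ε δ r T : ℝ) (u : E (m + 1) → ℝ) (z e : E (m + 1))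
    (L : E m →ₗᵢ[ℝ] E (m + 1)) (h : E m → ℝ) (χ χ' : ℝ → ℝ), Lay C ε δ u z e L r h T →
    Chi B χ χ' → P m K ε δ r T u z e L h χ χ'

/-- **ST1**: the identity -/
def ST1 : Prop := ForLay fun _ _ _ _ r T u z e L h χ χ' => ∀ Ψ, Tf (ball 0 r) Ψ →
  Integrable (fun y => ⟪gradient Ψ y, Jc u z e L r h T χ y⟫) ∧
  Integrable (fun y => Ψ y * F1 u z e L r h T χ y) ∧
  Integrable (fun y => Ψ y * F2 u z e L r h T χ' y) ∧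
  (∫ y, ⟪gradient Ψ y, Jc u z e L r h T χ y⟫) + (∫ y, Ψ y * F1 u z e L r h T χ y) +
    ∫ y, Ψ y * F2 u z e L r h T χ' y = 0

/-- **ST2**: the horizontal flux -/
def ST2 : Prop := ForLay fun _ K ε δ r T u z e L h χ _ => ∀ y ∈ ball 0 r,
  ‖Jc u z e L r h T χ y + sg • Nn (gradient h y)‖ ≤ K * (δ * ε + ε ^ 2 * T + Real.exp (-T))

/-- **ST3**: the vertical fluxes -/
def ST3 : Prop := ForLay fun _ K ε δ r T u z e L h χ χ' => ∀ y ∈ ball 0 r,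
  F1 u z e L r h T χ y ≤ K * Real.exp (-T) ∧
  F2 u z e L r h T χ' y ≤ Eup u z e L r h T χ' y / 2 + K * (δ * ε ^ 2)

/-- **STR**: the equation of a sheet -/
def STR : Prop := ForLay fun _ K ε δ r T u z e L h _ χ' => ∀ Ψ F, Tf (ball 0 r) Ψ →
  (∀ y, 0 ≤ Ψ y) → Continuous F → (∀ y, Ψ y ≠ 0 → Eup u z e L r h T χ' y ≤ F y) →
  sg * ∫ y, ⟪gradient Ψ y, Nn (gradient h y)⟫ ≤ (∫ y, Ψ y * F y) / 2 +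
    K * (δ * ε + ε ^ 2 * T + Real.exp (-T)) * (∫ y, ‖gradient Ψ y‖) +
    K * (δ * ε ^ 2 + Real.exp (-T)) * ∫ y, Ψ y

def rST1 : Prop := DIVT → REG → ST1
def rST2 : Prop := LN → GD → CS → CJ → ST2
def rST3 : Prop := SYM → LN → GD → COL → CS → ST3
def rSTR : Prop := ST1 → ST2 → ST3 → STR

/-! ## The stability of a pair -/

/-- **JAC**: the stability inequality for a product -/
def JAC : Prop := ∀ (n : ℕ) (C : ℝ) (u ζ M : E n → ℝ), Ok C u → Stab u →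
  HasCompactSupport (fun x => ζ x * M x) →
  (∀ x, (ContDiffAt ℝ 1 ζ x ∧ ContDiffAt ℝ 2 M x) ∨ ζ =ᶠ[𝓝 x] 0 ∨ M =ᶠ[𝓝 x] 0) →
  Integrable (fun x => ff u x ^ 2 * ζ x ^ 2 * (M x * (Lf u M x + PP u x * M x))) ∧
  Integrable (fun x => ff u x ^ 2 * M x ^ 2 * ‖gradient ζ x‖ ^ 2) ∧
  ∫ x, ff u x ^ 2 * ζ x ^ 2 * (M x * (Lf u M x + PP u x * M x)) ≤
    ∫ x, ff u x ^ 2 * M x ^ 2 * ‖gradient ζ x‖ ^ 2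

/-- **PRF**: the profiles exist -/
def PRF : Prop := ∃ B, ∀ τ : ℝ, 0 < τ → τ ≤ 1 / 100 → ∃ β Λ χ χ', Prf τ B β Λ χ χ'

/-- **CV**: convex functions of a component of the gradient -/
def CV : Prop := ∀ (n : ℕ) (C τ : ℝ) (u M : E n → ℝ) (e x : E n) (β : ℝ → ℝ), Ok C u → 0 ≤ τ →
  Cv τ β → (M =ᶠ[𝓝 x] fun y => β (pe u e y)) → β (pe u e x) ≤ 1 → ContDiffAt ℝ 2 M x ∧
    β (pe u e x) * deriv (deriv β) (pe u e x) * ‖SS u x e‖ ^ 2 - τ * PP u x ≤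
      M x * (Lf u M x + PP u x * M x)

section

variable (u : E (m + 1) → ℝ) (z e : E (m + 1)) (L : E m →ₗᵢ[ℝ] E (m + 1)) (r : ℝ)
  (h₀ h₁ : E m → ℝ) (T : ℝ)

/-- the region of the lower layer -/
def W0 : Set (E (m + 1)) := Wr u z e L r h₀ T (-(19 / 20))

/-- the region of the upper layer -/
def W1 : Set (E (m + 1)) := Wr u z (-e) L r (fun y => -h₁ y) T (-(19 / 20))

/-- the profile of the test function -/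
def MM (β Λ : ℝ → ℝ) (x : E (m + 1)) : ℝ :=
  (W0 u z e L r h₀ T).indicator (fun x => β (pe u e x)) x +
  (W1 u z e L r h₁ T).indicator (fun x => β (-pe u e x)) x +
  (W0 u z e L r h₀ T ∩ W1 u z e L r h₁ T).indicator
    (fun x => Λ (pe u e x) - β (pe u e x) - β (-pe u e x)) x

/-- the lower bound for the gain -/
def GG (τ : ℝ) (χ' : ℝ → ℝ) (x : E (m + 1)) : ℝ :=
  (W0 u z e L r h₀ T ∩ W1 u z e L r h₁ T).indicator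
    (fun x => 3 / 2 * χ' (pe u e x) * ‖SS u x e‖ ^ 2) x -
  τ * ((W0 u z e L r h₀ T).indicator (PP u) x + (W1 u z e L r h₁ T).indicator (PP u) x)

/-- the upper bound for the square of the profile -/
def HH (x : E (m + 1)) : ℝ :=
  (W0 u z e L r h₀ T).indicator (fun x => max (pe u e x) 0) x +
  (W1 u z e L r h₁ T).indicator (fun x => max (-pe u e x) 0) x +
  (W0 u z e L r h₀ T ∩ {x | pe u e x ≤ 9 / 10}).indicator (fun _ => 1) x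

end

/-- quantification over the pairs -/
def ForPair (P : ∀ (m : ℕ) (K ε r T τ : ℝ) (u : E (m + 1) → ℝ) (z e : E (m + 1))
    (L : E m →ₗᵢ[ℝ] E (m + 1)) (h₀ h₁ : E m → ℝ) (β Λ χ' : ℝ → ℝ), Prop) : Prop :=
  ∀ (m : ℕ) (C B : ℝ), ∃ K ≥ (0 : ℝ), ∀ (ε δ r T τ : ℝ) (u : E (m + 1) → ℝ) (z e : E (m + 1))
    (L : E m →ₗᵢ[ℝ] E (m + 1)) (h₀ h₁ : E m → ℝ) (β Λ χ χ' : ℝ → ℝ),
    Pair C ε δ u z e L r h₀ h₁ T → 0 ≤ τ → Prf τ B β Λ χ χ' →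
    P m K ε r T τ u z e L h₀ h₁ β Λ χ'

/-- **EG**: the flux through the gap -/
def EG : Prop := ForPair fun _ _ ε r T _ u z e L h₀ h₁ _ _ χ' =>
  Continuous (Eg u z e L h₀ h₁ χ') ∧ ∀ y ∈ ball 0 r, h₁ y - h₀ y ≤ T / 8 →
    Eup u z e L r h₀ T χ' y ≤ Eg u z e L h₀ h₁ χ' y ∧
    Eup u z (-e) L r (fun y => -h₁ y) T χ' y ≤ Eg u z e L h₀ h₁ χ' y ∧
    Eg u z e L h₀ h₁ χ' y ≤ ε ^ 2 ∧
    1 / 40 * Real.exp (-(√2 * (h₁ y - h₀ y))) ≤ Eg u z e L h₀ h₁ χ' y ∧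
    ∀ t ∈ Ioo (h₀ y) (h₁ y), 0 < u (pt z e L y t) ∧ (|pe u e (pt z e L y t)| ≤ 9 / 10 →
      pt z e L y t ∈ W0 u z e L r h₀ T ∩ W1 u z e L r h₁ T)

/-- **LOC**: the profile in the window -/
def LOC : Prop := ForPair fun _ _ _ r T τ u z e L h₀ h₁ β Λ χ' =>
  ∀ x ∈ Wn z e L r h₀ T ∩ Wn z (-e) L r (fun y => -h₁ y) T,
    ContDiffAt ℝ 2 (MM u z e L r h₀ h₁ T β Λ) x ∧
    GG u z e L r h₀ h₁ T τ χ' x ≤ MM u z e L r h₀ h₁ T β Λ x *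
      (Lf u (MM u z e L r h₀ h₁ T β Λ) x + PP u x * MM u z e L r h₀ h₁ T β Λ x) ∧
    MM u z e L r h₀ h₁ T β Λ x ^ 2 ≤ HH u z e L r h₀ h₁ T x

/-- **GC1**: the gain of a column -/
def GC1 : Prop := ForPair fun _ K ε r T τ u z e L h₀ h₁ _ _ χ' => ∀ y ∈ ball 0 r,
  h₁ y - h₀ y ≤ T / 8 → 2 * Eg u z e L h₀ h₁ χ' y - K * (τ * ε ^ 2) ≤
    ∫ t : ℝ, (fun x => ff u x ^ 2 * cut z e L h₀ (T / 2) x ^ 2 * GG u z e L r h₀ h₁ T τ χ' x)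
      (pt z e L y (h₀ y + t))

/-- **GC2**: the mass of a column -/
def GC2 : Prop := ForPair fun _ K ε r T _ u z e L h₀ h₁ _ _ _ => ∀ y ∈ ball 0 r,
  h₁ y - h₀ y ≤ T / 8 →
  Integrable (fun t : ℝ => (fun x => ff u x ^ 2 * HH u z e L r h₀ h₁ T x) (pt z e L y (h₀ y + t))) ∧
  (∫ t : ℝ, (fun x => ff u x ^ 2 * HH u z e L r h₀ h₁ T x) (pt z e L y (h₀ y + t))) ≤
    2 * sg + K * ε ^ 2 ∧
  (∫ t in {t : ℝ | T / 4 ≤ |t|}, (fun x => ff u x ^ 2 * HH u z e L r h₀ h₁ T x)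
    (pt z e L y (h₀ y + t))) ≤ K * Real.exp (-(T / 4))

/-- **GAIN**: the stability of a pair -/
def GAIN : Prop := ForPair fun _ K ε r T τ u z e L h₀ h₁ _ _ χ' => Stab u →
  ∀ η, Tf {y | y ∈ ball 0 r ∧ h₁ y - h₀ y < T / 8} η →
  2 * ∫ y, η y ^ 2 * Eg u z e L h₀ h₁ χ' y ≤
    (2 * sg + K * (ε ^ 2 + Real.exp (-(T / 4)))) * (∫ y, ‖gradient η y‖ ^ 2) +
    K * (τ * ε ^ 2 + Real.exp (-(T / 4))) * ∫ y, η y ^ 2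

def rEG : Prop := SYM → LN → COL → EG
def rLOC : Prop := REG → CV → LOC
def rGC1 : Prop := LN → COL → CS → REG → EG → GC1
def rGC2 : Prop := LN → CS → REG → GC2
def rGAIN : Prop := JAC → GD → REG → EG → LOC → GC1 → GC2 → GAIN

/-! ## The argument of Farina -/

/-- **NMON** -/
def NMON : Prop := ∀ (m : ℕ) (a b : E m) (ρ : ℝ), ‖a‖ ≤ ρ → ‖b‖ ≤ ρ →
  (1 - 2 * ρ ^ 2) * ‖a - b‖ ^ 2 ≤ ⟪Nn a - Nn b, a - b⟫ ∧ ‖Nn a - Nn b‖ ≤ ‖a - b‖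

/-- **HAR**: the inequality of Harnack for the gap -/
def HAR : Prop := ∀ (m : ℕ) (K : ℝ), 1 ≤ m → ∃ r₀ > (0 : ℝ), r₀ ≤ 1 ∧ ∃ K', ∀ (ε a : ℝ)
  (h₀ h₁ : E m → ℝ), 0 < ε → ContDiff ℝ ∞ h₀ → ContDiff ℝ ∞ h₁ →
  (∀ y ∈ ball (0 : E m) (1 / ε), ‖gradient h₀ y‖ ≤ 1 ∧ ‖gradient h₁ y‖ ≤ 1 ∧
    ‖fderiv ℝ (gradient h₀) y‖ ≤ K * ε ∧ ‖fderiv ℝ (gradient h₁) y‖ ≤ K * ε ∧
    |mc h₀ y| ≤ K * ε ^ 2 ∧ |mc h₁ y| ≤ K * ε ^ 2 ∧ a ≤ h₁ y - h₀ y) →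
  h₁ 0 - h₀ 0 ≤ a + K → ∀ y ∈ ball (0 : E m) (r₀ / ε), h₁ y - h₀ y ≤ a + K'

/-- the system of the two inequalities on `U` -/
structure Sys (U : Set (E m)) (ε δ : ℝ) (φ V : E m → ℝ) (A : E m → E m) : Prop where
  c1 : ContDiff ℝ 1 φ
  cV : Continuous V
  cA : Continuous A
  el : ∀ y ∈ U, (1 - δ) * ‖gradient φ y‖ ^ 2 ≤ ⟪A y, gradient φ y⟫ ∧ ‖A y‖ ≤ ‖gradient φ y‖ ∧
    ‖gradient φ y‖ ≤ 1 ∧ 0 ≤ V y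
  eq : ∀ Ψ, Tf U Ψ → (∀ y, 0 ≤ Ψ y) → -(sg * ∫ y, ⟪gradient Ψ y, A y⟫) ≤
    (∫ y, Ψ y * V y) + δ * ε * (∫ y, ‖gradient Ψ y‖) + δ * ε ^ 2 * ∫ y, Ψ y
  st : ∀ η, Tf U η → 2 * ∫ y, η y ^ 2 * V y ≤
    (2 * sg + δ) * (∫ y, ‖gradient η y‖ ^ 2) + δ * ε ^ 2 * ∫ y, η y ^ 2

/-- **FA**: the energy estimate -/
def FA : Prop := ∃ δ₀ > (0 : ℝ), ∃ K ≥ (0 : ℝ), ∀ (m : ℕ) (U : Set (E m)) (ε δ θ : ℝ)
  (φ V ζ : E m → ℝ) (A : E m → E m) (g g' : ℝ → ℝ), 0 ≤ ε → 0 ≤ δ → δ ≤ δ₀ → 0 ≤ θ →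
  Sys U ε δ φ V A → ContDiff ℝ 1 ζ → HasCompactSupport ζ → (∀ s, HasDerivAt g (g' s) s) →
  Continuous g' → (∀ s, 0 ≤ g s ∧ g' s ≤ -(5 * √2 / 4 * g s) ∧ |g' s| ≤ 5 * √2 / 4 * g s + θ) →
  tsupport (fun y => ζ y * g (φ y)) ⊆ U →
  ∫ y, (ζ y * g (φ y)) ^ 2 * V y ≤ K * ((∫ y, g (φ y) ^ 2 * ‖gradient ζ y‖ ^ 2) +
    δ * ε ^ 2 * (∫ y, (ζ y * g (φ y)) ^ 2) + θ ^ 2 * ∫ y, ζ y ^ 2)

/-- **FAR**: the system has no solution -/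
def FAR : Prop := ∀ (m : ℕ) (K r₀ : ℝ), m ≤ 6 → 0 < r₀ → r₀ ≤ 1 → ∃ R ≥ (1 : ℝ), ∃ δ > (0 : ℝ),
  ∃ ε₀ > (0 : ℝ), ∀ (ε : ℝ) (φ V : E m → ℝ) (A : E m → E m), 0 < ε → ε ≤ ε₀ →
  Sys {y | y ∈ ball 0 (R / ε) ∧ φ y < 4 * lg ε} ε δ φ V A →
  (∀ y ∈ ball (0 : E m) (R / ε), φ y < 4 * lg ε →
    1 / 40 * Real.exp (-(√2 * φ y)) ≤ V y ∧ V y ≤ ε ^ 2) →
  (∀ y ∈ ball (0 : E m) (r₀ / ε), φ y ≤ √2 * lg ε + K) → False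

def rFAR : Prop := FA → FAR

/-! ## The base point -/

/-- the adjoint drift -/
def La (u φ : E n → ℝ) (x : E n) : ℝ := lap φ x + 2 * √2 * u x * ⟪pp u x, gradient φ x⟫

/-- **MP1**: the barriers for the deficit -/
def MP1 : Prop := ∀ (n : ℕ) (C : ℝ) (u : E n → ℝ) (x₀ : E n), Ok C u →
  ContDiff ℝ 2 (fun y => ff u y * ch (1 / 2) x₀ y) ∧ ContDiff ℝ 2 (fun y => (ff u y)⁻¹) ∧
  ContDiff ℝ 2 (EE u) ∧ ch (1 / 2) x₀ x₀ = n ∧ ∀ x, (n : ℝ) ≤ ch (1 / 2) x₀ x ∧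
    Real.exp (‖x - x₀‖ / (2 * (n + 1))) / 2 - 1 ≤ ch (1 / 2) x₀ x ∧
    -(2 * n * ff u x ^ 2 * ‖SS u x‖ ^ 2) ≤ La u (EE u) x ∧ (qq u x ≤ 1 / 6 →
      La u (fun y => ff u y * ch (1 / 2) x₀ y) x ≤ -(ff u x * ch (1 / 2) x₀ x / 4) ∧
      (ff u x)⁻¹ / 2 ≤ La u (fun y => (ff u y)⁻¹) x)

/-- **MP2**: the Hessian below the ridges -/
def MP2 : Prop := ∀ (n : ℕ) (C κ : ℝ), 0 < κ → ∃ K ≥ (0 : ℝ), ∃ a₀ > (0 : ℝ), ∃ ε₀ > (0 : ℝ),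
  ∀ (u : E n → ℝ) (ε a l : ℝ) (x : E n), Ok C u → 0 < ε → ε ≤ ε₀ → 0 < a → a ≤ a₀ →
  Gd u ε x (3 * lg ε) → Fl u l x (3 * lg ε) →
  (∀ y ∈ ball x (3 * lg ε), κ * ε ^ 2 < ff u y ^ 2 → qq u y ≤ a ^ 4) → κ * ε ^ 2 < ff u x ^ 2 →
  ‖SS u x‖ ≤ l + K * a * √(ε / ff u x) ^ 3

/-- **MPE**: there is a high ridge -/
def MPE : Prop := ∀ (m : ℕ) (C : ℝ), ∃ κ > (0 : ℝ), ∃ q₁ > (0 : ℝ), ∃ η > (0 : ℝ), ∃ ε₀ > (0 : ℝ),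
  ∀ (u : E (m + 1) → ℝ) (ε : ℝ) (x₀ : E (m + 1)), Ok C u → 0 < ε → ε ≤ ε₀ → Gd u ε x₀ (1 / ε) →
  Fl u (η * ε) x₀ (1 / ε) → ε ^ 2 / 4 ≤ EE u x₀ →
  ∃ x ∈ ball x₀ (1 / (2 * ε)), q₁ ≤ qq u x ∧ κ * ε ^ 2 ≤ ff u x ^ 2

/-- **NEAR**: the nearest zero -/
def NEAR : Prop := ∀ (n : ℕ) (C r : ℝ) (u : E n → ℝ) (x : E n), Ok C u → 0 ≤ r →
  C * Real.exp (-r) < ff u x → 0 < u x → ∃ (z e : E n) (t : ℝ), 0 < t ∧ t ≤ r ∧ u z = 0 ∧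
    ‖e‖ = 1 ∧ x = z + t • e ∧ pp u z = ‖pp u z‖ • e ∧ ∀ s ∈ Ioc 0 t, 0 < u (z + s • e)

/-- **LN0**: the restriction to a line -/
def LN0 : Prop := ∀ (n : ℕ) (C ε δ T : ℝ) (u : E n → ℝ) (z e : E n), Ok C u → 0 < ε → ε ≤ 1 →
  0 < δ → δ ≤ 1 / 1000 → 1 ≤ T → ‖e‖ = 1 → u z = 0 → ‖pp u z - e‖ ≤ δ →
  (∀ t, |t| ≤ T → Zn δ u e (z + t • e) ∧ EE u (z + t • e) ≤ ε ^ 2) →
  Ln ε δ T (fun t => ps u (z + t • e)) (fun t => pe u e (z + t • e))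
    (fun t => ⟪SS u (z + t • e) e, e⟫) (fun t => qq u (z + t • e)) (fun t => u (z + t • e))
    fun t => ff u (z + t • e)

/-- **ODE**: the next zero behind a high ridge -/
def ODE : Prop := ∀ κ q₁ : ℝ, 0 < κ → 0 < q₁ → ∃ K, ∃ δ₀ > (0 : ℝ), ∃ ε₀ > (0 : ℝ),
  ∀ (ε δ t₁ : ℝ) (ψ s d q u f : ℝ → ℝ), Ln ε δ (10 * lg ε) ψ s d q u f → ε ≤ ε₀ →
  δ * lg ε ≤ δ₀ → 0 < t₁ → t₁ ≤ 2 * lg ε → (∀ t ∈ Ioc 0 t₁, 0 < u t) → q₁ ≤ q t₁ →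
  κ * ε ^ 2 ≤ f t₁ ^ 2 → ∃ t, 0 < t ∧ t ≤ √2 * lg ε + K ∧ u t = 0 ∧ ∀ t' ∈ Ioo 0 t, u t' ≠ 0

/-- a zero and the next zero on its normal line -/
structure Nx (u : E n → ℝ) (z : E n) (t : ℝ) : Prop where
  z0 : u z = 0
  t0 : 0 < t
  z1 : u (z + t • ‖pp u z‖⁻¹ • pp u z) = 0
  ne : ∀ s ∈ Ioo 0 t, u (z + s • ‖pp u z‖⁻¹ • pp u z) ≠ 0

/-- **BASE**: two close sheets -/
def BASE : Prop := ∀ (m : ℕ) (C : ℝ), ∃ η > (0 : ℝ), ∃ K, ∃ ε₀ > (0 : ℝ),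
  ∀ (u : E (m + 1) → ℝ) (ε : ℝ) (x₀ : E (m + 1)), Ok C u → 0 < ε → ε ≤ ε₀ → Gd u ε x₀ (2 / ε) →
  Fl u (η * ε) x₀ (2 / ε) → ε ^ 2 / 4 ≤ EE u x₀ →
  ∃ z t, ‖z - x₀‖ ≤ 1 / ε ∧ t ≤ √2 * lg ε + K ∧ (Nx u z t ∨ Nx (-u) z t)

def rMPE : Prop := MAX → MP1 → MP2 → MPE
def rBASE : Prop := SYM → TL → MPE → NEAR → LN0 → ODE → BASE

/-- **ORD**: there is no third sheet in the gap -/
def ORD : Prop := ∀ (m : ℕ) (C : ℝ), ∃ ε₀ > (0 : ℝ), ∀ (ε δ r T l : ℝ) (u : E (m + 1) → ℝ)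
  (z e : E (m + 1)) (L : E m →ₗᵢ[ℝ] E (m + 1)) (h₀ h₁ : E m → ℝ), ε ≤ ε₀ → 0 ≤ l →
  l * r ≤ 1 / 100 → Lay C ε δ u z e L r h₀ T → Lay C ε δ u z (-e) L r (fun y => -h₁ y) T →
  h₀ 0 = 0 → Gd u ε z (8 * r + T + 3) → Fl u l z (8 * r + T + 3) →
  (∀ t ∈ Ioo 0 (h₁ 0), u (pt z e L 0 t) ≠ 0) →
  ∀ y ∈ ball (0 : E m) r, h₁ y - h₀ y ≤ T / 8 → ∀ t ∈ Ioo (h₀ y) (h₁ y), u (pt z e L y t) ≠ 0

/-- **PX**: the pair of layers -/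
def PX : Prop := ∀ (m : ℕ) (C K δ R : ℝ), 0 < δ → δ ≤ 1 / 1000 → 1 ≤ R → ∃ η > (0 : ℝ),
  ∃ ε₀ > (0 : ℝ), ∀ (u : E (m + 1) → ℝ) (ε t : ℝ) (z : E (m + 1)), Ok C u → 0 < ε → ε ≤ ε₀ →
  Gd u ε z (10 * R / ε) → Fl u (η * ε) z (10 * R / ε) → Nx u z t → t ≤ √2 * lg ε + K →
  ∃ e L h₀ h₁, h₀ 0 = 0 ∧ h₁ 0 = t ∧ Pair C ε δ u z e L (R / ε) h₀ h₁ (32 * lg ε)

def rORD : Prop := GR → GD → NC → ORD
def rPX : Prop := TL → GR → NC → LAY → ORD → PX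

/-! ## The assembly -/

/-- **SYS**: a pair of layers solves the system -/
def SYS : Prop := ∀ (m : ℕ) (C δ' : ℝ), 0 < δ' → ∃ δ > (0 : ℝ), δ ≤ 1 / 1000 ∧ ∃ ε₀ > (0 : ℝ),
  ∀ (ε r : ℝ) (u : E (m + 1) → ℝ) (z e : E (m + 1)) (L : E m →ₗᵢ[ℝ] E (m + 1))
    (h₀ h₁ : E m → ℝ), ε ≤ ε₀ → Stab u → Pair C ε δ u z e L r h₀ h₁ (32 * lg ε) →
    ∃ V A, Sys {y | y ∈ ball 0 r ∧ h₁ y - h₀ y < 4 * lg ε} ε δ' (fun y => h₁ y - h₀ y) V A ∧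
      ∀ y ∈ ball (0 : E m) r, h₁ y - h₀ y ≤ 4 * lg ε →
        1 / 40 * Real.exp (-(√2 * (h₁ y - h₀ y))) ≤ V y ∧ V y ≤ ε ^ 2

/-- **TODA**: flat layers do not interact -/
def TODA (m : ℕ) : Prop := ∀ C : ℝ, ∃ η > (0 : ℝ), ∃ R > (0 : ℝ), ∃ ε₀ > (0 : ℝ),
  ∀ (u : E (m + 1) → ℝ) (ε : ℝ) (x₀ : E (m + 1)), Ok C u → Stab u → 0 < ε → ε ≤ ε₀ →
  Gd u ε x₀ (R / ε) → Fl u (η * ε) x₀ (R / ε) → EE u x₀ < ε ^ 2 / 4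

/-- **LEAF**: the layers are flat -/
def LEAF (m : ℕ) : Prop := ∀ C η : ℝ, 0 < η → ∃ R > (0 : ℝ), ∃ ε₀ > (0 : ℝ),
  ∀ (u : E (m + 1) → ℝ) (ε : ℝ) (z : E (m + 1)), Ok C u → Stab u → 0 < ε → ε ≤ ε₀ →
  Gd u ε z (R / ε) → u z = 0 → ‖SS u z‖ ≤ η * ε

def rSYS : Prop := PRF → GD → NMON → STR → EG → GAIN → SYS
def rTODA : Prop := SYM → GD → BASE → PX → SYS → HAR → FAR → ∀ m, 1 ≤ m → m ≤ 6 → TODA m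
def rPICK : Prop := KK → ∀ m, TODA m → LEAF m → P134Y.RATE (m + 1)

end Vale.Agent.P134B
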