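import Vale.Agent.P134B.Toda6
import Vale.Agent.P134B.GAIN
import Vale.Agent.P134G.All
import Vale.Agent.P134U.Main

/-!
# P134B: the decay of the deficit from the flatness of stable minimal leaves
-/

namespace Vale.Agent.P134B

/-- **block (Ib)** -/
theorem rate {m : ℕ} (h4 : 4 ≤ m) (h6 : m ≤ 6) (h : P134L.BERN m) : P134Y.RATE (m + 1) :=
  pick kk' m (toda_of gain m (by omega) h6) (P134G.leaf gr tl' (P134U.ulim h4 h))

end Vale.Agent.P134B
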