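import Vale.Agent.P134B.Spec

/-!
# P134B: the barrier for the tilt
-/

set_option linter.all false

open MeasureTheory Metric Filter Topology Set
open scoped ContDiff RealInnerProductSpace
open Vale.Agent.P366.Stmt (E)
open Vale.Agent.P366W

noncomputable section

namespace Vale.Agent.P134B

variable {n : ℕ}

/-! ### the weight `ch` -/

theorem hasFDerivAt_lin (l : ℝ) (x₀ x : E n) (i : Fin n) :
    HasFDerivAt (fun y : E n => l * (y i - x₀ i))
      (l • (EuclideanSpace.proj i : E n →L[ℝ] ℝ)) x :=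
  ((EuclideanSpace.proj i : E n →L[ℝ] ℝ).hasFDerivAt.sub_const (x₀ i)).const_mul l

theorem lin_smooth (l : ℝ) (x₀ : E n) (i : Fin n) :
    ContDiff ℝ ∞ fun y : E n => l * (y i - x₀ i) :=
  contDiff_const.mul ((EuclideanSpace.proj i : E n →L[ℝ] ℝ).contDiff.sub contDiff_const)

theorem ch_smooth (l : ℝ) (x₀ : E n) : ContDiff ℝ ∞ (ch l x₀) :=
  ContDiff.sum fun i _ => (lin_smooth l x₀ i).cosh

theorem ch_nonneg (l : ℝ) (x₀ x : E n) : 0 ≤ ch l x₀ x :=
  Finset.sum_nonneg fun _ _ => (Real.cosh_pos _).le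

theorem ch_self (l : ℝ) (x₀ : E n) : ch l x₀ x₀ = n := by simp [ch]

theorem le_ch (l : ℝ) (x₀ x : E n) : (n : ℝ) ≤ ch l x₀ x := by
  have := Finset.sum_le_sum (s := Finset.univ) fun (i : Fin n) _ =>
    Real.one_le_cosh (l * (x i - x₀ i))
  simpa [ch] using this

theorem ch_le (l : ℝ) (x₀ x : E n) : ch l x₀ x ≤ n * Real.cosh (l * ‖x - x₀‖) := by
  have h : ∀ i : Fin n, Real.cosh (l * (x i - x₀ i)) ≤ Real.cosh (l * ‖x - x₀‖) := fun i => by
    rw [Real.cosh_le_cosh, abs_mul, abs_mul, abs_norm]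
    exact mul_le_mul_of_nonneg_left (PiLp.norm_apply_le (x - x₀) i) (abs_nonneg _)
  have := Finset.sum_le_sum (s := Finset.univ) fun (i : Fin n) _ => h i
  simpa [ch] using this

theorem cosh_le_ch (hn : 0 < n) (l : ℝ) (x₀ x : E n) :
    Real.cosh (l * ‖x - x₀‖ / √n) ≤ ch l x₀ x := by
  have : Nonempty (Fin n) := ⟨⟨0, hn⟩⟩
  have hn' : (0 : ℝ) < n := by exact_mod_cast hn
  obtain ⟨i, -, hi⟩ := Finset.exists_max_image Finset.univ (fun i => (x i - x₀ i) ^ 2)
    Finset.univ_nonempty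
  have h1 : ‖x - x₀‖ ^ 2 ≤ n * (x i - x₀ i) ^ 2 := by
    rw [EuclideanSpace.real_norm_sq_eq]
    have := Finset.sum_le_sum (s := Finset.univ) hi
    simpa using this
  have h2 : ‖x - x₀‖ / √n ≤ |x i - x₀ i| := by
    rw [div_le_iff₀ (Real.sqrt_pos.2 hn')]
    refine (abs_le_of_sq_le_sq' ?_ (by positivity)).2
    rw [mul_pow, sq_abs, Real.sq_sqrt hn'.le]
    linarith
  refine le_trans ?_ (Finset.single_le_sum (f := fun j => Real.cosh (l * (x j - x₀ j)))
    (fun _ _ => (Real.cosh_pos _).le) (Finset.mem_univ i))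
  rw [Real.cosh_le_cosh, mul_div_assoc, abs_mul, abs_mul,
    abs_of_nonneg (show 0 ≤ ‖x - x₀‖ / √n by positivity)]
  exact mul_le_mul_of_nonneg_left h2 (abs_nonneg _)

theorem exp_le_ch (hn : 0 < n) (l : ℝ) (x₀ x : E n) :
    Real.exp (l * ‖x - x₀‖ / √n) / 2 ≤ ch l x₀ x := by
  refine le_trans ?_ (cosh_le_ch hn l x₀ x)
  rw [Real.cosh_eq]
  linarith [Real.exp_pos (-(l * ‖x - x₀‖ / √n))]

theorem gradient_ch (l : ℝ) (x₀ x : E n) : gradient (ch l x₀) x =
    ∑ i, (l * Real.sinh (l * (x i - x₀ i))) • (EuclideanSpace.single i 1 : E n) := by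
  refine ext_inner_right ℝ fun v => ?_
  have h : fderiv ℝ (ch l x₀) x = _ :=
    (HasFDerivAt.fun_sum fun i (_ : i ∈ Finset.univ) => (hasFDerivAt_lin l x₀ x i).cosh).fderiv
  rw [inner_grad, h, sum_inner]
  simp only [ContinuousLinearMap.sum_apply, ContinuousLinearMap.smul_apply, real_inner_smul_left,
    EuclideanSpace.inner_single_left]
  refine Finset.sum_congr rfl fun i _ => ?_
  simp
  ring

theorem norm_gradient_ch (l : ℝ) (x₀ x : E n) : ‖gradient (ch l x₀) x‖ ≤ |l| * ch l x₀ x := by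
  rw [gradient_ch, ch, Finset.mul_sum]
  refine (norm_sum_le _ _).trans (Finset.sum_le_sum fun i _ => ?_)
  rw [norm_smul, EuclideanSpace.norm_single, norm_one, mul_one, Real.norm_eq_abs, abs_mul,
    Real.abs_sinh, ← Real.cosh_abs]
  exact mul_le_mul_of_nonneg_left (Real.sinh_lt_cosh _).le (abs_nonneg _)

theorem lap_ch (l : ℝ) (x₀ x : E n) : lap (ch l x₀) x = l ^ 2 * ch l x₀ x := by
  have h0 : gradient (ch l x₀) = _ := funext (gradient_ch l x₀)
  have h : fderiv ℝ (fun y : E n => ∑ i, (l * Real.sinh (l * (y i - x₀ i))) •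
      (EuclideanSpace.single i 1 : E n)) x = _ :=
    (HasFDerivAt.fun_sum fun i (_ : i ∈ Finset.univ) =>
      ((hasFDerivAt_lin l x₀ x i).sinh.const_mul l).smul_const _).fderiv
  rw [lap, h0, dvg, h, ch, Finset.mul_sum]
  refine Finset.sum_congr rfl fun i _ => ?_
  simp [Pi.single_apply]
  ring

/-! ### the powers of `ff` -/

variable {C : ℝ} {u : E n → ℝ}

theorem Ok.ff_pos (h : Ok C u) (x : E n) : 0 < ff u x :=
  lt_of_lt_of_le (by positivity) (h.flo x)

theorem Ok.ff_smooth (h : Ok C u) : ContDiff ℝ ∞ (ff u) :=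
  (contDiff_const.sub (h.sm.pow 2)).div_const _

theorem Ok.pp_smooth (h : Ok C u) : ContDiff ℝ ∞ (pp u) := smooth_gradient h.smp

theorem Ok.pow_smooth (h : Ok C u) (γ : ℝ) : ContDiff ℝ ∞ fun y => ff u y ^ (-γ) :=
  h.ff_smooth.rpow_const_of_ne fun x => (h.ff_pos x).ne'

theorem Ok.fderiv_u (h : Ok C u) (x v : E n) : fderiv ℝ u x v = ff u x * ⟪pp u x, v⟫ := by
  rw [← inner_grad, h.gu, real_inner_smul_left]

theorem Ok.fderiv_pow (h : Ok C u) (γ : ℝ) (x v : E n) :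
    fderiv ℝ (fun y => ff u y ^ (-γ)) x v = √2 * γ * u x * ff u x ^ (-γ) * ⟪pp u x, v⟫ := by
  have h1 := ((h.ff_smooth.differentiable (by simp) x).hasFDerivAt.rpow_const (p := -γ)
    (Or.inl (h.ff_pos x).ne')).fderiv
  rw [h1, ContinuousLinearMap.smul_apply, ← inner_grad, h.gf, real_inner_smul_left,
    Real.rpow_sub_one (h.ff_pos x).ne', smul_eq_mul]
  have := (h.ff_pos x).ne'
  field_simp

theorem Ok.sq_eq (h : Ok C u) (x : E n) : u x ^ 2 = 1 - √2 * ff u x := by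
  rw [ff, mul_div_cancel₀ _ (by positivity)]
  ring

theorem Ok.norm_pp (h : Ok C u) (x : E n) : ‖pp u x‖ ≤ 1 := by
  have := h.q0 x
  rw [qq] at this
  exact (abs_le_of_sq_le_sq' (by linarith) zero_le_one).2

/-- the weighted Laplacian of `ff ^ (-γ) * G` -/
theorem Ok.Lf_pow (h : Ok C u) (γ : ℝ) {G : E n → ℝ} (hG : ContDiff ℝ ∞ G) (x : E n) :
    Lf u (fun y => ff u y ^ (-γ) * G y) x = ff u x ^ (-γ) *
      (G x * (√2 * γ * ff u x * (1 - qq u x) + (2 * γ ^ 2 - 4 * γ) * u x ^ 2 * (1 - qq u x) -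
        2 * γ * u x ^ 2 * qq u x) + lap G x -
        2 * √2 * (1 - γ) * u x * ⟪pp u x, gradient G x⟫) := by
  have dF := (h.pow_smooth γ).differentiable (by simp)
  have dG := hG.differentiable (by simp)
  have du := h.sm.differentiable (by simp)
  have dp := h.pp_smooth.differentiable (by simp)
  have dg := (smooth_gradient hG).differentiable (by simp)
  have h1 : gradient (fun y => ff u y ^ (-γ) * G y) = fun y =>
      (√2 * γ * (u y * (ff u y ^ (-γ) * G y))) • pp u y + ff u y ^ (-γ) • gradient G y := by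
    funext y
    refine ext_inner_right ℝ fun v => ?_
    rw [inner_grad, fderiv_fun_mul (dF y) (dG y), inner_add_left, real_inner_smul_left,
      real_inner_smul_left, inner_grad G]
    simp only [ContinuousLinearMap.add_apply, ContinuousLinearMap.smul_apply, smul_eq_mul,
      h.fderiv_pow]
    ring
  have da : DifferentiableAt ℝ (fun y => √2 * γ * (u y * (ff u y ^ (-γ) * G y))) x :=
    ((du x).mul ((dF x).mul (dG x))).const_mul _
  have h2 : fderiv ℝ (fun y => √2 * γ * (u y * (ff u y ^ (-γ) * G y))) x (pp u x) =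
      √2 * γ * (ff u x * ‖pp u x‖ ^ 2 * (ff u x ^ (-γ) * G x) + u x *
        (√2 * γ * u x * ff u x ^ (-γ) * ‖pp u x‖ ^ 2 * G x +
          ff u x ^ (-γ) * ⟪pp u x, gradient G x⟫)) := by
    rw [fderiv_const_mul ((du x).fun_mul ((dF x).fun_mul (dG x))),
      fderiv_fun_mul (du x) ((dF x).fun_mul (dG x)), fderiv_fun_mul (dF x) (dG x)]
    simp only [ContinuousLinearMap.add_apply, ContinuousLinearMap.smul_apply, smul_eq_mul,
      h.fderiv_pow, h.fderiv_u, real_inner_self_eq_norm_sq, ← inner_grad G,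
      real_inner_comm (pp u x)]
    ring
  have h3 : dvg (pp u) x = -(√2 * u x * qq u x) := h.tr x
  have h4 : ‖pp u x‖ ^ 2 = 1 - qq u x := by rw [qq]; ring
  have h5 : (√2 : ℝ) ^ 2 = 2 := Real.sq_sqrt (by norm_num)
  rw [Lf, lap, h1, dvg_add (da.fun_smul (dp x)) ((dF x).fun_smul (dg x)), dvg_smul da (dp x),
    dvg_smul (dF x) (dg x), h2, h3, h.fderiv_pow, inner_add_right, real_inner_smul_right,
    real_inner_smul_right, real_inner_self_eq_norm_sq, h4, lap]
  linear_combination (ff u x ^ (-γ) * G x * u x ^ 2 *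
    (-γ * qq u x + (γ ^ 2 - 2 * γ) * (1 - qq u x))) * h5

theorem Ok.small (h : Ok C u) {η : ℝ} (hη : 0 < η) {x : E n} (hx : -Real.log (η / 4) ≤ |ps u x|) :
    √2 * ff u x ≤ η := by
  have h1 : (1 : ℝ) ≤ √2 := Real.one_le_sqrt.2 (by norm_num)
  have h2 : Real.exp (-(√2 * |ps u x|)) ≤ η / 4 := by
    rw [← Real.le_log_iff_exp_le (by positivity)]
    nlinarith [abs_nonneg (ps u x)]
  calc √2 * ff u x ≤ √2 * (2 * √2 * (η / 4)) := by
        gcongr
        exact (h.fhi x).trans (by gcongr)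
    _ = √2 ^ 2 * (η / 2) := by ring
    _ = η := by rw [Real.sq_sqrt (by norm_num)]; ring

theorem bar : BAR := by
  intro n γ h0 h1
  refine ⟨γ / 20, by positivity, -Real.log (γ / 10 / 4), fun C u x₀ x h hx => ⟨?_, ?_⟩⟩
  · exact ((h.pow_smooth γ).mul (ch_smooth _ _)).of_le (WithTop.coe_le_coe.2 (le_top (a := 2)))
  have hs := h.small (by positivity) hx
  have hF : 0 < ff u x ^ (-γ) := Real.rpow_pos_of_pos (h.ff_pos x) _
  have hG := ch_nonneg (γ / 20) x₀ x
  have hq := h.q0 x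
  have hq1 : 0 ≤ 1 - qq u x := by rw [qq]; nlinarith [sq_nonneg ‖pp u x‖]
  have hs0 : 0 ≤ √2 * ff u x := mul_nonneg (by positivity) (h.ff_pos x).le
  have hu := h.sq_eq x
  have h2 : √2 ≤ 3 / 2 := Real.sqrt_le_iff.2 (by norm_num)
  have h3 : |2 * √2 * (1 - γ) * u x * ⟪pp u x, gradient (ch (γ / 20) x₀) x⟫| ≤
      3 * (γ / 20 * ch (γ / 20) x₀ x) := by
    have h4 : |⟪pp u x, gradient (ch (γ / 20) x₀) x⟫| ≤ 1 * (γ / 20 * ch (γ / 20) x₀ x) := by
      refine (abs_real_inner_le_norm _ _).trans (mul_le_mul (h.norm_pp x) ?_ (norm_nonneg _)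
        zero_le_one)
      simpa [abs_of_pos (show 0 < γ / 20 by positivity)] using norm_gradient_ch (γ / 20) x₀ x
    rw [abs_mul, abs_mul, abs_of_nonneg (mul_nonneg (by positivity) (by linarith))]
    calc _ ≤ 2 * (3 / 2) * 1 * 1 * (1 * (γ / 20 * ch (γ / 20) x₀ x)) := by
          gcongr
          · linarith
          · exact (h.lt x).le
      _ = _ := by ring
  have h5 : √2 * γ * ff u x * (1 - qq u x) + (2 * γ ^ 2 - 4 * γ) * u x ^ 2 * (1 - qq u x) -
      2 * γ * u x ^ 2 * qq u x + (γ / 20) ^ 2 + 3 * (γ / 20) + √2 * ff u x * qq u x ≤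
      -(γ / 2) := by
    have a1 : γ * (√2 * ff u x * (1 - qq u x)) ≤ √2 * ff u x * (1 - qq u x) :=
      mul_le_of_le_one_left (mul_nonneg hs0 hq1) h1
    have a2 : 0 ≤ γ * (1 - γ) * (u x ^ 2 * (1 - qq u x)) :=
      mul_nonneg (mul_nonneg h0.le (by linarith)) (mul_nonneg (sq_nonneg _) hq1)
    have a3 : γ * (9 / 10) ≤ γ * u x ^ 2 := mul_le_mul_of_nonneg_left (by linarith) h0.le
    have a4 : γ * γ ≤ γ := mul_le_of_le_one_left h0.le h1
    nlinarith
  rw [h.Lf_pow γ (ch_smooth _ _), lap_ch, PP]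
  have h6 := mul_le_mul_of_nonneg_left h5 hG
  have h7 := (abs_le.1 h3).1
  have h8 : ch (γ / 20) x₀ x * (√2 * γ * ff u x * (1 - qq u x) +
      (2 * γ ^ 2 - 4 * γ) * u x ^ 2 * (1 - qq u x) - 2 * γ * u x ^ 2 * qq u x) +
      (γ / 20) ^ 2 * ch (γ / 20) x₀ x -
      2 * √2 * (1 - γ) * u x * ⟪pp u x, gradient (ch (γ / 20) x₀) x⟫ +
      √2 * ff u x * qq u x * ch (γ / 20) x₀ x ≤ -(γ / 2) * ch (γ / 20) x₀ x := by
    linarith
  have h9 := mul_le_mul_of_nonneg_left h8 hF.le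
  linarith

end Vale.Agent.P134B
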