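import Vale.Agent.P134B.Spec2

/-!
# P134B, row BASE: two close sheets
-/

set_option linter.all false

open MeasureTheory Metric Filter Topology Set
open scoped ContDiff RealInnerProductSpace
open Vale.Agent.P366.Stmt (E)

namespace Vale.Agent.P134B

namespace Bs

theorem small {a κ q δ : ℝ} (C : ℝ) (ha : 0 < a) (κ0 : 0 < κ) (q0 : 0 < q) (δ0 : 0 < δ) :
    ∃ ε₀ > (0 : ℝ), ∀ ε, 0 < ε → ε ≤ ε₀ → ε ≤ a ∧ 1 ≤ lg ε ∧ 11 * lg ε ≤ 1 / ε ∧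
      (C * Real.exp (-(2 * lg ε))) ^ 2 < κ * ε ^ 2 ∧ 2 * ε ^ 2 < q ∧ 2 * ε ^ 2 ≤ δ / lg ε := by
  have ev : ∀ {f : ℝ → ℝ} {a : ℝ}, Continuous f → f 0 < a → ∀ᶠ ε in 𝓝[>] (0 : ℝ), f ε < a :=
    fun hf h => nhdsWithin_le_nhds (hf.continuousAt.eventually (gt_mem_nhds h))
  obtain ⟨ε₀, e0, hε⟩ := mem_nhdsGT_iff_exists_Ioc_subset.1 (((ev continuous_id ha).and
    (Real.tendsto_log_nhdsGT_zero.eventually_le_atBot (-1))).and
    (((ev (f := fun ε => -(11 * (ε * Real.log ε))) (a := 1)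
      (continuous_const.mul Real.continuous_mul_log).neg (by simp)).and
    (ev (f := fun ε => C ^ 2 * ε ^ 2) (by fun_prop) (by simpa using κ0))).and
    ((ev (f := fun ε => 2 * ε ^ 2) (by fun_prop) (by simpa using q0)).and
    (ev (f := fun ε => 2 * ε) (by fun_prop) (by simpa using δ0)))))
  refine ⟨ε₀, e0, fun ε p0 p1 => ?_⟩
  obtain ⟨⟨a1, a4⟩, ⟨a5, a6⟩, a7, a8⟩ := hε ⟨p0, p1⟩
  have l1 : 1 ≤ lg ε := by rw [lg]; linarith
  have l3 : 11 * (ε * lg ε) ≤ 1 := by rw [lg]; linarith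
  refine ⟨a1.le, l1, by rw [le_div_iff₀ p0]; linarith, ?_, a7, ?_⟩
  · rw [lg, mul_neg, neg_neg, show (2 : ℝ) * Real.log ε = (2 : ℕ) * Real.log ε by simp,
      Real.exp_nat_mul, Real.exp_log p0]
    linarith [mul_lt_mul_of_pos_right a6 (pow_pos p0 2)]
  · rw [le_div_iff₀ (by linarith)]
    nlinarith [mul_le_mul_of_nonneg_left l3 p0.le]

theorem zq {n : ℕ} {u : E n → ℝ} {z : E n} {ε : ℝ} (hz : u z = 0) (h : EE u z ≤ ε ^ 2) :
    qq u z ≤ 2 * ε ^ 2 := by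
  rw [EE, ff, hz, div_pow, Real.sq_sqrt zero_le_two] at h
  linarith

theorem nrm {a b : ℝ} (a0 : 0 ≤ a) (h0 : 0 ≤ 1 - a ^ 2) (h : 1 - a ^ 2 ≤ b) : |a - 1| ≤ b := by
  have : a ≤ 1 := by nlinarith
  rw [abs_sub_comm, abs_of_nonneg (by linarith)]
  nlinarith

end Bs

open Bs in
/-- row BASE -/
theorem base : rBASE := by
  intro sym tl mpe near ln0 ode m C
  obtain ⟨κ, κ0, q₁, q0, η, η0, ε₁, e1, h1⟩ := mpe m C
  obtain ⟨K, δ₀, d0, ε₂, e2, h2⟩ := ode κ q₁ κ0 q0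
  obtain ⟨δ, δ0, δ1, δ2⟩ : ∃ δ > (0 : ℝ), δ ≤ δ₀ ∧ δ ≤ 1 / 1000 :=
    ⟨min δ₀ (1 / 1000), by positivity, min_le_left _ _, min_le_right _ _⟩
  obtain ⟨ε₃, e3, h3⟩ := tl m C 11 δ δ0
  obtain ⟨ε₀, e0, hε⟩ := small C (lt_min (lt_min e1 e2) (lt_min e3 one_pos)) κ0 q0 δ0
  refine ⟨η, η0, K, ε₀, e0, fun u ε x₀ ok p0 p1 gd fl hE => ?_⟩
  obtain ⟨a1, l1, l2, a6, a7, a8⟩ := hε ε p0 p1
  simp only [le_min_iff] at a1
  obtain ⟨⟨a1, a2⟩, a3, a4⟩ := a1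
  have i0 : 0 < 1 / ε := by positivity
  have i1 : 2 / ε = 1 / ε + 1 / ε := by ring
  have i2 : 1 / (2 * ε) = 1 / ε / 2 := by field_simp
  have d1 : δ / lg ε ≤ 1 / 1000 := (div_le_self δ0.le l1).trans δ2
  obtain ⟨x, hx, k1, k2⟩ := h1 u ε x₀ ok p0 a1
    (fun y hy => gd y (ball_subset_ball (by linarith) hy))
    (fun y hy => fl y (ball_subset_ball (by linarith) hy)) hE
  have core : ∀ u : E (m + 1) → ℝ, Ok C u → Gd u ε x₀ (2 / ε) → q₁ ≤ qq u x →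
      κ * ε ^ 2 ≤ ff u x ^ 2 → 0 < u x →
      ∃ z t, ‖z - x₀‖ ≤ 1 / ε ∧ t ≤ √2 * lg ε + K ∧ Nx u z t := by
    intro u ok gd k1 k2 u0
    obtain ⟨z, e, t, t0, t1, z0, n1, rfl, pz, ps⟩ := near _ C (2 * lg ε) u x ok (by linarith)
      (lt_of_pow_lt_pow_left₀ 2 (le_trans (by positivity) (ok.flo x)) (a6.trans_le k2)) u0
    have nz : ‖z - x₀‖ ≤ 1 / ε := by
      have := norm_sub_le (z + t • e - x₀) (t • e)
      rw [norm_smul, n1, Real.norm_of_nonneg t0.le, sub_right_comm, add_sub_cancel_right] at this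
      linarith [mem_ball_iff_norm.1 hx]
    have gz : Gd u ε z (1 / ε) := fun y hy => gd y (ball_subset_ball' (by
      rw [dist_eq_norm]; linarith) hy)
    have n2 := nrm (norm_nonneg _) (ok.q0 z) ((zq z0 (gz z (mem_ball_self i0))).trans a8)
    have ee : ‖pp u z‖⁻¹ • pp u z = e := by
      rw [inv_smul_eq_iff₀ (by linarith [(abs_le.1 n2).1])]
      exact pz
    have mem : ∀ s : ℝ, |s| ≤ 10 * lg ε → z + s • e ∈ ball z (11 * lg ε) := fun s hs => by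
      rw [mem_ball_iff_norm, add_sub_cancel_left, norm_smul, n1, Real.norm_eq_abs]
      linarith
    have ln := ln0 _ C ε (δ / lg ε) (10 * lg ε) u z e ok p0 a4 (by positivity) d1 (by linarith)
      n1 z0 (by
        rw [show pp u z - e = (‖pp u z‖ - 1) • e by rw [sub_smul, ← pz, one_smul], norm_smul, n1,
          mul_one]
        exact n2)
      fun s hs => ⟨by simpa only [ee] using h3 u ε z ok p0 a3 gz z0 _ (mem s hs),
        gz _ (ball_subset_ball l2 (mem s hs))⟩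
    obtain ⟨s, s0, s1, s2, s3⟩ := h2 ε _ t _ _ _ _ _ _ ln a2
      (by rwa [div_mul_cancel₀ _ (by linarith)]) t0 t1 ps k1 k2
    exact ⟨z, s, nz, s1, z0, s0, by rwa [ee], by rwa [ee]⟩
  rcases lt_trichotomy (u x) 0 with h | h | h
  · obtain ⟨⟨-, b1, -, -, b2, b3⟩, b4, -⟩ := sym.1 _ u
    obtain ⟨z, t, c1, c2, c3⟩ := core (-u) (b4 C ok) (by rwa [Gd, b3]) (by rwa [b2]) (by rwa [b1])
      (neg_pos.2 h)
    exact ⟨z, t, c1, c2, .inr c3⟩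
  · linarith [zq h (gd x (ball_subset_ball (by linarith) hx))]
  · obtain ⟨z, t, c1, c2, c3⟩ := core u ok gd k1 k2 h
    exact ⟨z, t, c1, c2, .inl c3⟩

end Vale.Agent.P134B
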