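import Vale.Agent.P134B.Spec
import Vale.Agent.P366W.Graph1

/-!
# P134B: sheets are graphs
-/

open MeasureTheory Metric Filter Topology Set
open scoped ContDiff RealInnerProductSpace
open Vale.Agent.P366.Stmt (E)
open Vale.Agent.P366W (Fr adj dvg trc inner_grad norm_gradient smooth_gradient)

noncomputable section

namespace Vale.Agent.P134B

namespace GRp

variable {n m : ℕ} {C ε l θ a s R : ℝ}

theorem ift {U : Set (E m)} (hU : IsOpen U) {G : E m × ℝ → ℝ}
    (hG : ∀ y ∈ U, ∀ t, ContDiffAt ℝ ∞ G (y, t))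
    (hd : ∀ y ∈ U, ∀ t, |t| ≤ 1 / 2 → 0 < deriv (fun t => G (y, t)) t)
    (h1 : ∀ y ∈ U, G (y, -(1 / 2)) < 0 ∧ 0 < G (y, 1 / 2)) :
    ∃ w, ContDiffOn ℝ ∞ w U ∧ ∀ y ∈ U, |w y| < 1 / 2 ∧ G (y, w y) = 0 ∧
      ∀ t, |t| ≤ 1 / 2 → G (y, t) = 0 → t = w y := by
  have dv : ∀ y ∈ U, ∀ t, HasDerivAt (fun t => G (y, t)) (fderiv ℝ G (y, t) (0, 1)) t :=
    fun y hy t => ((hG y hy t).differentiableAt (by simp)).hasFDerivAt.comp_hasDerivAt t
      ((hasDerivAt_const t y).prodMk (hasDerivAt_id t))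
  have ct : ∀ y ∈ U, ContinuousOn (fun t => G (y, t)) (Icc (-(1 / 2)) (1 / 2)) := fun y hy t _ =>
    (dv y hy t).continuousAt.continuousWithinAt
  have ex : ∀ y ∈ U, ∃ w, |w| < 1 / 2 ∧ G (y, w) = 0 ∧ ∀ t, |t| ≤ 1 / 2 → G (y, t) = 0 → t = w :=
    fun y hy => by
      obtain ⟨w, w1, w2⟩ := intermediate_value_Ioo (by norm_num) (ct y hy) (h1 y hy)
      refine ⟨w, abs_lt.2 w1, w2, fun t ht h0 => ?_⟩
      exact (strictMonoOn_of_deriv_pos (convex_Icc _ _) (ct y hy) fun x hx =>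
        hd y hy x (abs_le.2 (mem_Icc.1 (interior_subset hx)))).injOn (abs_le.1 ht) (Ioo_subset_Icc_self w1)
          (h0.trans w2.symm)
  choose! w hw using ex
  refine ⟨w, fun y hy => ContDiffAt.contDiffWithinAt ?_, hw⟩
  have hF := hG y hy (w y)
  have hi : (fderiv ℝ G (y, w y) ∘L .inr ℝ (E m) ℝ).IsInvertible := by
    have h2 := hd y hy _ (hw y hy).1.le
    rw [(dv y hy _).deriv] at h2
    refine ⟨ContinuousLinearEquiv.unitsEquivAut ℝ (Units.mk0 _ h2.ne'), ?_⟩
    ext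
    simp
  have h3 := hF.contDiffAt_implicitFunction (by simp) hi
  refine h3.congr_of_eventuallyEq ?_
  have h4 : ∀ᶠ x in 𝓝 y, |hF.implicitFunction (by simp) hi x| < 1 / 2 :=
    h3.continuousAt.abs.eventually (gt_mem_nhds (by
      beta_reduce; rw [hF.implicitFunction_apply_self]; exact (hw y hy).1))
  filter_upwards [h4, hF.eventually_apply_implicitFunction (by simp) hi, hU.mem_nhds hy]
    with x x1 x2 x3
  exact ((hw x x3).2.2 _ x1.le (x2.trans (hw y hy).2.1)).symm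

theorem zero_iff {u : E n → ℝ} (hu : Ok C u) (x : E n) : ps u x = 0 ↔ u x = 0 :=
  ⟨fun h => by rw [hu.th, h, zero_div, Real.tanh_zero], fun h => by simp [ps, h]⟩

theorem dps {u : E n → ℝ} (hu : Ok C u) (x : E n) : DifferentiableAt ℝ (ps u) x :=
  hu.smp.differentiable (by simp) x

theorem dpp {u : E n → ℝ} (hu : Ok C u) (x : E n) : HasFDerivAt (pp u) (SS u x) x :=
  ((smooth_gradient hu.smp).differentiable (by simp) x).hasFDerivAt

/-- the lower bound for `ff` on the set where the phase is at most one -/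
def kk : ℝ := Real.exp (-√2) / √2

theorem kk_pos : 0 < kk := by unfold kk; positivity

theorem loc {u : E n → ℝ} (hu : Ok C u) (e0 : 0 < ε) (e1 : ε ≤ kk / (40 * max C 1)) {x₀ : E n}
    (h0 : u x₀ = 0) (hg : Gd u ε x₀ 1) : ∀ x ∈ ball x₀ 1, ‖pp u x - pp u x₀‖ ≤ 1 / 40 := by
  have k0 := kk_pos
  have C1 := hu.C1
  rw [max_eq_left C1, le_div_iff₀ (by positivity)] at e1
  have hx₀ : x₀ ∈ ball x₀ 1 := mem_ball_self one_pos
  have h1 : ∀ x ∈ ball x₀ 1, ‖SS u x‖ ≤ 1 / 40 := fun x hx => by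
    have a1 := (convex_ball x₀ 1).norm_image_sub_le_of_norm_fderiv_le (C := 1)
      (fun y _ => dps hu y) (fun y _ => by
        rw [← norm_gradient]
        have := hu.q0 y
        unfold qq pp at this
        nlinarith [norm_nonneg (gradient (ps u) y)]) hx₀ hx
    rw [(zero_iff hu x₀).2 h0, sub_zero, one_mul, Real.norm_eq_abs] at a1
    have a2 : kk ≤ ff u x := le_trans (by
      have := a1.trans (mem_ball_iff_norm.1 hx).le
      unfold kk
      gcongr
      exact mul_le_of_le_one_right (by positivity) this) (hu.flo x)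
    have a3 : √(qq u x) ≤ ε / kk := Real.sqrt_le_iff.2 ⟨by positivity, by
      rw [div_pow, le_div_iff₀ (by positivity)]
      have := mul_le_mul_of_nonneg_right (pow_le_pow_left₀ k0.le a2 2) (hu.q0 x)
      have := hg x hx
      unfold EE at this
      linarith⟩
    refine (hu.S0 x).trans ((mul_le_mul_of_nonneg_left a3 (by linarith)).trans ?_)
    rw [← mul_div_assoc, div_le_iff₀ k0]
    linarith
  intro x hx
  have := (convex_ball x₀ 1).norm_image_sub_le_of_norm_hasFDerivWithin_le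
    (fun y _ => (dpp hu y).hasFDerivWithinAt) h1 hx₀ hx
  linarith [mem_ball_iff_norm.1 hx]

variable {u : E (m + 1) → ℝ} {z e : E (m + 1)} {L : E m →ₗᵢ[ℝ] E (m + 1)} {g : E m → ℝ}

theorem step (hu : Ok C u) (hL : Fr e L) {U : Set (E m)} (hU : IsOpen U) (hg : ContDiffOn ℝ ∞ g U)
    (h : ∀ y ∈ U, ∃ y₀, ‖y - y₀‖ ≤ 1 / 8 ∧ u (pt z e L y₀ (g y)) = 0 ∧
      ∀ x ∈ ball (pt z e L y₀ (g y)) 1, ‖pp u x - e‖ ≤ 1 / 8) :
    ∃ w, ContDiffOn ℝ ∞ w U ∧ ∀ y ∈ U, u (pt z e L y (w y)) = 0 ∧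
      ‖pp u (pt z e L y (w y)) - e‖ ≤ 1 / 8 ∧ (u (pt z e L y (g y)) = 0 → w y = g y) := by
  have k : ∀ y ∈ U, ∀ t, |t| ≤ 1 / 2 → ‖pp u (pt z e L y (g y + t)) - e‖ ≤ 1 / 8 ∧
      |ps u (pt z e L y (g y + t)) - t| ≤ 1 / 8 := fun y hy t ht => by
    obtain ⟨y₀, h1, h2, h3⟩ := h y hy
    have e1 : pt z e L y (g y + t) - pt z e L y₀ (g y) = L (y - y₀) + t • e := by
      simp only [pt, map_sub, add_smul]; abel
    have e2 : ‖pt z e L y (g y + t) - pt z e L y₀ (g y)‖ < 1 := by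
      rw [e1]; linarith [hL.norm_le (y - y₀) t]
    refine ⟨h3 _ (mem_ball_iff_norm.2 e2), ?_⟩
    have a1 := (convex_ball (pt z e L y₀ (g y)) 1).norm_image_sub_le_of_norm_fderiv_le'
      (C := 1 / 8) (φ := innerSL ℝ e) (fun x _ => dps hu x) (fun x hx =>
        ContinuousLinearMap.opNorm_le_bound _ (by norm_num) fun v => by
          rw [sub_apply, ← inner_grad, innerSL_apply_apply, ← inner_sub_left]
          exact (abs_real_inner_le_norm _ _).trans
            (mul_le_mul_of_nonneg_right (h3 x hx) (norm_nonneg _)))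
      (mem_ball_self one_pos) (mem_ball_iff_norm.2 e2)
    rw [(zero_iff hu _).2 h2, sub_zero, innerSL_apply_apply, Real.norm_eq_abs] at a1
    nth_rewrite 1 [e1] at a1
    rw [hL.e_pt] at a1
    linarith
  obtain ⟨w, w1, w2⟩ := ift hU (G := fun p => ps u (pt z e L p.1 (g p.1 + p.2)))
    (fun y hy t => hu.smp.contDiffAt.comp _ ((contDiffAt_const.add
      (L.contDiff.contDiffAt.comp _ contDiffAt_fst)).add
        ((((hg.contDiffAt (hU.mem_nhds hy)).comp (y, t) contDiffAt_fst).add contDiffAt_snd).smul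
          contDiffAt_const)))
    (fun y hy t ht => by
      have d1 : HasDerivAt (fun t => pt z e L y (g y + t)) e t := by
        simpa [pt] using (((hasDerivAt_id t).const_add (g y)).smul_const e).const_add (z + L y)
      have d2 := ((dps hu _).hasFDerivAt.comp_hasDerivAt t d1).deriv
      refine lt_of_lt_of_eq ?_ d2.symm
      have := (abs_le.1 (hL.tilt (k y hy t ht).1 0 1)).1
      rw [← inner_grad]
      simp only [map_zero, one_smul, zero_add, norm_zero, abs_one, mul_one, pp] at this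
      linarith)
    fun y hy => ⟨by linarith [(abs_le.1 (k y hy (-(1 / 2)) (by norm_num [abs_le])).2).2],
      by linarith [(abs_le.1 (k y hy (1 / 2) (by norm_num [abs_le])).2).1]⟩
  refine ⟨fun y => g y + w y, hg.add w1, fun y hy => ⟨(zero_iff hu _).1 (w2 y hy).2.1,
    (k y hy _ (w2 y hy).1.le).1, fun h0 => ?_⟩⟩
  beta_reduce
  rw [← (w2 y hy).2.2 0 (by norm_num) (by simpa using (zero_iff hu _).2 h0), add_zero]

/-- a sheet over the ball of radius `s` -/
def Good (u : E (m + 1) → ℝ) (z e : E (m + 1)) (L : E m →ₗᵢ[ℝ] E (m + 1)) (a s : ℝ)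
    (g : E m → ℝ) : Prop := ContDiffOn ℝ ∞ g (ball 0 s) ∧ g 0 = a ∧
  ∀ y ∈ ball (0 : E m) s, u (pt z e L y (g y)) = 0 ∧ ‖pp u (pt z e L y (g y)) - e‖ ≤ 1 / 8

theorem apr (hu : Ok C u) (hL : Fr e L) (hg : Good u z e L a s g) (hR : |a| + 2 * s ≤ R)
    (hf : Fl u l z R) (l0 : 0 ≤ l) (ht : ‖pp u (z + a • e) - e‖ ≤ θ) : ∀ y ∈ ball (0 : E m) s,
    ‖pt z e L y (g y) - z‖ < |a| + 2 * s ∧ ‖pp u (pt z e L y (g y)) - e‖ ≤ θ + 2 * l * s := by
  intro y hy
  have h0 : (0 : E m) ∈ ball (0 : E m) s := mem_ball_self (pos_of_mem_ball hy)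
  have d1 : ∀ y ∈ ball (0 : E m) s, HasFDerivAt (fun y => pt z e L y (g y))
      (L.toContinuousLinearMap + (fderiv ℝ g y).smulRight e) y := fun y hy =>
    (L.toContinuousLinearMap.hasFDerivAt.const_add z).add
      (((hg.1.contDiffAt (isOpen_ball.mem_nhds hy)).differentiableAt
        (by simp)).hasFDerivAt.smul_const e)
  have d2 : ∀ y ∈ ball (0 : E m) s, ‖L.toContinuousLinearMap + (fderiv ℝ g y).smulRight e‖ ≤ 2 :=
    fun y hy => ContinuousLinearMap.opNorm_le_bound _ zero_le_two fun v => by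
      have a1 := ((dps hu _).hasFDerivAt.comp y (d1 y hy)).unique
        ((hasFDerivAt_const (0 : ℝ) y).congr_of_eventuallyEq (by
          filter_upwards [isOpen_ball.mem_nhds hy] with x hx
          exact (zero_iff hu _).2 (hg.2.2 x hx).1))
      have a2 : ⟪pp u (pt z e L y (g y)), L v + fderiv ℝ g y v • e⟫ = 0 := by
        rw [pp, inner_grad]
        exact congrArg (fun A => A v) a1
      have a3 := hL.tilt (hg.2.2 y hy).2 v (fderiv ℝ g y v)
      rw [a2, zero_sub, abs_neg] at a3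
      change ‖L v + fderiv ℝ g y v • e‖ ≤ _
      linarith [hL.norm_le v (fderiv ℝ g y v), norm_nonneg v]
  have p0 : pt z e L 0 (g 0) = z + a • e := by simp [pt, hg.2.1]
  have d3 : ∀ y ∈ ball (0 : E m) s, ‖pt z e L y (g y) - z‖ < |a| + 2 * s := fun y hy => by
    have a1 := (convex_ball (0 : E m) s).norm_image_sub_le_of_norm_hasFDerivWithin_le
      (fun y hy => (d1 y hy).hasFDerivWithinAt) d2 h0 hy
    have a2 := norm_sub_le_norm_sub_add_norm_sub (pt z e L y (g y)) (z + a • e) z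
    rw [add_sub_cancel_left, norm_smul, hL.one, Real.norm_eq_abs] at a2
    rw [p0] at a1
    linarith [mem_ball_iff_norm.1 hy]
  refine ⟨d3 y hy, ?_⟩
  have a1 := (convex_ball (0 : E m) s).norm_image_sub_le_of_norm_hasFDerivWithin_le (C := l * 2)
    (fun y hy => ((dpp hu _).comp y (d1 y hy)).hasFDerivWithinAt) (fun y hy =>
      (ContinuousLinearMap.opNorm_comp_le _ _).trans (mul_le_mul
        (hf _ (mem_ball_iff_norm.2 ((d3 y hy).trans_le hR)) (hg.2.2 y hy).1) (d2 y hy)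
        (norm_nonneg _) l0)) h0 hy
  simp only [Function.comp, p0] at a1
  have a2 := mul_le_mul_of_nonneg_left (mem_ball_iff_norm.1 hy).le l0
  linarith [norm_sub_le_norm_sub_add_norm_sub (pp u (pt z e L y (g y))) (pp u (z + a • e)) e]

end GRp

open GRp in
theorem gr : GR := fun m C => by
  have k0 := kk_pos
  refine ⟨kk / (40 * max C 1), by positivity,
    fun u ε a r θ l z e L hu hL e0 e1 r0 l0 hg hf h0 ht hθ => ?_⟩
  have lc : ∀ x₀, ‖x₀ - z‖ ≤ |a| + 2 * r → u x₀ = 0 → ‖pp u x₀ - e‖ ≤ 1 / 10 →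
      ∀ x ∈ ball x₀ 1, ‖pp u x - e‖ ≤ 1 / 8 := fun x₀ h1 h2 h3 x hx => by
    have := loc hu e0 e1 h2 (fun y hy => hg y (ball_subset_ball'
      (by rw [dist_eq_norm]; linarith) hy)) x hx
    linarith [norm_sub_le_norm_sub_add_norm_sub (pp u x) (pp u x₀) e]
  have lr : 0 ≤ l * r := by positivity
  have p0 : pt z e L 0 a = z + a • e := by simp [pt]
  have ind : ∀ k : ℕ, (k : ℝ) / 8 ≤ r → ∃ g, Good u z e L a ((k + 1) / 8) g := fun k => by
    induction k with
    | zero =>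
      intro _
      obtain ⟨w, w1, w2⟩ := step (z := z) (g := fun _ => a) hu hL
        (U := ball 0 ((((0 : ℕ) : ℝ) + 1) / 8)) isOpen_ball contDiffOn_const fun y hy =>
          ⟨0, by linarith [mem_ball_iff_norm.1 hy, Nat.cast_zero (R := ℝ)], p0 ▸ h0, p0 ▸ lc _ (by
            rw [add_sub_cancel_left, norm_smul, hL.one, Real.norm_eq_abs]; linarith) h0
              (by linarith)⟩
      exact ⟨w, w1, (w2 0 (mem_ball_self (by positivity))).2.2 (p0 ▸ h0), fun y hy =>
        ⟨(w2 y hy).1, (w2 y hy).2.1⟩⟩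
    | succ k ih =>
      intro hk
      push_cast at hk ⊢
      obtain ⟨g, hG⟩ := ih (by linarith)
      obtain ⟨s, hs⟩ : ∃ s : ℝ, s = (k + 1) / 8 := ⟨_, rfl⟩
      have s0 : 0 < s := by rw [hs]; positivity
      rw [show ((k : ℝ) + 1 + 1) / 8 = s + 1 / 8 by rw [hs]; ring]
      rw [← hs] at hG hk
      have ap := apr hu hL hG (by linarith) hf l0 ht
      have mm : ∀ y ∈ ball (0 : E m) (s + 1 / 8), (s / (s + 1 / 8)) • y ∈ ball (0 : E m) s :=
        fun y hy => by
          rw [mem_ball_zero_iff] at hy ⊢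
          rw [norm_smul, Real.norm_of_nonneg (by positivity), div_mul_eq_mul_div,
            div_lt_iff₀ (by positivity)]
          exact mul_lt_mul_of_pos_left hy s0
      obtain ⟨w, w1, w2⟩ := step (z := z) (g := fun y => g ((s / (s + 1 / 8)) • y)) hu hL
        isOpen_ball (hG.1.comp (contDiff_id.const_smul _).contDiffOn mm) fun y hy =>
          ⟨_, by
            rw [show y - (s / (s + 1 / 8)) • y = (1 / 8 / (s + 1 / 8)) • y by
              rw [show 1 / 8 / (s + 1 / 8) = 1 - s / (s + 1 / 8) by field_simp; ring, sub_smul,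
                one_smul], norm_smul, Real.norm_of_nonneg (by positivity), div_mul_eq_mul_div,
              div_le_iff₀ (by positivity)]
            linarith [mem_ball_zero_iff.1 hy], (hG.2.2 _ (mm y hy)).1,
          lc _ (by linarith [(ap _ (mm y hy)).1]) (hG.2.2 _ (mm y hy)).1
            (by linarith [(ap _ (mm y hy)).2, mul_le_mul_of_nonneg_left hk l0])⟩
      refine ⟨w, w1, ?_, fun y hy => ⟨(w2 y hy).1, (w2 y hy).2.1⟩⟩
      have := (w2 0 (mem_ball_self (by positivity))).2.2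
      simp only [smul_zero, hG.2.1] at this
      exact this (p0 ▸ h0)
  obtain ⟨g, hG⟩ := ind ⌊8 * r⌋₊ (by linarith [Nat.floor_le (show 0 ≤ 8 * r by positivity)])
  obtain ⟨s, hs⟩ : ∃ s : ℝ, s = (⌊8 * r⌋₊ + 1) / 8 := ⟨_, rfl⟩
  have s1 : r < s := by linarith [Nat.lt_floor_add_one (8 * r)]
  rw [← hs] at hG
  have sb : ball (0 : E m) r ⊆ ball 0 s := ball_subset_ball s1.le
  have ap := apr hu hL (s := r) ⟨hG.1.mono sb, hG.2.1, fun y hy => hG.2.2 y (sb hy)⟩
    (by linarith) hf l0 ht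
  let b : ContDiffBump (0 : E m) := ⟨r, (r + s) / 2, r0, by linarith⟩
  have b1 : ∀ y ∈ ball (0 : E m) r, b y * g y = g y := fun y hy => by
    rw [b.one_of_mem_closedBall (ball_subset_closedBall hy), one_mul]
  refine ⟨fun y => b y * g y, (b1 0 (mem_ball_self r0)).trans hG.2.1, hL,
    contDiff_iff_contDiffAt.2 fun y => ?_, fun y hy => ?_, fun y hy => ?_⟩
  · by_cases hy : y ∈ tsupport b
    · rw [b.tsupport_eq] at hy
      exact b.contDiff.contDiffAt.mul (hG.1.contDiffAt (isOpen_ball.mem_nhds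
        (closedBall_subset_ball (show (r + s) / 2 < s by linarith) hy)))
    · exact (contDiffAt_const (c := (0 : ℝ))).congr_of_eventuallyEq
        ((notMem_tsupport_iff_eventuallyEq.1 hy).mono fun x hx => by simp [hx])
  · rw [b1 y hy]; exact (hG.2.2 y (sb hy)).1
  · rw [b1 y hy]; exact (ap y hy).2

end Vale.Agent.P134B
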