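import Vale.Agent.P134B.Spec2
import Vale.Agent.P134B.GR
import Vale.Agent.P134T.Spec

/-!
# P134B: from two close sheets to a zero and the next zero on its normal line
-/

open MeasureTheory Metric Filter Topology Set
open scoped ContDiff RealInnerProductSpace
open Vale.Agent.P366.Stmt (E)
open Vale.Agent.P366W (inner_grad smooth_gradient)

noncomputable section

namespace Vale.Agent.P134B

namespace BRGp

open GRp (zero_iff dps)

variable {n : ℕ} {C : ℝ} {u : E n → ℝ}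

theorem small {A : ℝ} (hA : 0 < A) : ∃ ε₀ > (0 : ℝ), ∀ ε, 0 < ε → ε ≤ ε₀ →
    1 ≤ lg ε ∧ A * lg ε ≤ 1 / ε := by
  refine ⟨min (Real.exp (-1)) ((1 / (2 * A)) ^ 2), by positivity, fun ε e0 e1 => ⟨?_, ?_⟩⟩
  · have := Real.log_le_log e0 (e1.trans (min_le_left _ _))
    rw [Real.log_exp] at this
    unfold lg; linarith
  have s0 : 0 < √ε := Real.sqrt_pos.2 e0
  have s1 : √ε ≤ 1 / (2 * A) := Real.sqrt_le_iff.2 ⟨by positivity, e1.trans (min_le_right _ _)⟩
  have s2 := Real.log_le_sub_one_of_pos (inv_pos.2 s0)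
  rw [Real.log_inv, Real.log_sqrt e0.le] at s2
  have s3 : lg ε * √ε ≤ 2 := by
    have := mul_le_mul_of_nonneg_right s2 s0.le
    rw [sub_mul, inv_mul_cancel₀ s0.ne'] at this
    unfold lg; linarith
  rw [le_div_iff₀ (by positivity)] at s1
  rw [le_div_iff₀ e0]
  nth_rewrite 2 [← Real.mul_self_sqrt e0.le]
  nlinarith [mul_le_mul_of_nonneg_right s3 (mul_pos hA s0).le]

theorem first {v : ℝ → ℝ} (hv : Continuous v) {d t₁ : ℝ} (hd : HasDerivAt v d 0) (d0 : d ≠ 0)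
    (h1 : v t₁ = 0) (t0 : 0 < t₁) : ∃ t, 0 < t ∧ t ≤ t₁ ∧ v t = 0 ∧ ∀ s ∈ Ioo 0 t, v s ≠ 0 := by
  obtain ⟨c, c0, c1⟩ := (nhdsGT_basis (0 : ℝ)).eventually_iff.1
    ((hd.eventually_ne (c := 0) d0).filter_mono (nhdsGT_le_nhdsNE 0))
  have c2 : c ≤ t₁ := not_lt.1 fun h => c1 ⟨t0, h⟩ h1
  obtain ⟨t, a1, a2⟩ := (isCompact_Icc.inter_right
    (isClosed_eq hv (continuous_const (y := (0 : ℝ))))).exists_isLeast ⟨t₁, ⟨c2, le_rfl⟩, h1⟩
  refine ⟨t, c0.trans_le a1.1.1, a1.1.2, a1.2, fun s hs h => ?_⟩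
  exact (a2 ⟨⟨not_lt.1 fun h' => c1 ⟨hs.1, h'⟩ h, hs.2.le.trans a1.1.2⟩, h⟩).not_gt hs.2

theorem line (hu : Ok C u) (x e : E n) (t : ℝ) :
    HasDerivAt (fun t : ℝ => ps u (x + t • e)) (pe u e (x + t • e)) t := by
  have d : HasDerivAt (fun t : ℝ => x + t • e) e t := by
    simpa using ((hasDerivAt_id t).smul_const e).const_add x
  rw [pe, pp, inner_grad]
  exact (dps hu _).hasFDerivAt.comp_hasDerivAt t d

theorem p_le (hu : Ok C u) (x : E n) : ‖pp u x‖ ≤ 1 ∧ 1 - qq u x ≤ ‖pp u x‖ := by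
  have := hu.q0 x
  unfold qq at this ⊢
  have h : ‖pp u x‖ ≤ 1 := by nlinarith [norm_nonneg (pp u x)]
  exact ⟨h, by nlinarith [norm_nonneg (pp u x)]⟩

theorem nx (hu : Ok C u) {y : E n} (h0 : u y = 0) (hp : pp u y ≠ 0) {t₁ : ℝ} (t0 : 0 < t₁)
    (h1 : u (y + t₁ • ‖pp u y‖⁻¹ • pp u y) = 0) : ∃ t ≤ t₁, Nx u y t := by
  obtain ⟨t, a0, a1, a2, a3⟩ := first (continuous_iff_continuousAt.2 fun t =>
    (line hu y (‖pp u y‖⁻¹ • pp u y) t).continuousAt) (line hu y _ 0) (by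
      rw [zero_smul, add_zero, pe, real_inner_smul_right, real_inner_self_eq_norm_sq]
      have := norm_pos_iff.2 hp
      positivity) ((zero_iff hu _).2 h1) t0
  exact ⟨t, a1, h0, a0, (zero_iff hu _).1 a2, fun s hs h => a3 s hs ((zero_iff hu _).2 h)⟩

theorem cross {g g' : ℝ → ℝ} (hg : ∀ t, HasDerivAt g (g' t) t) (hc : Continuous g')
    (h0 : |g 0| ≤ 1 / 4) (h1 : ∀ t ∈ Icc (-1 : ℝ) 1, 1 / 2 ≤ |g' t|) :
    ∃ t ∈ Icc (-1 : ℝ) 1, g t = 0 := by
  have ct : ∀ S, ContinuousOn g S := fun S t _ => (hg t).continuousAt.continuousWithinAt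
  obtain ⟨a, a1, a2⟩ := exists_hasDerivAt_eq_slope g g' (show (-1 : ℝ) < 0 by norm_num) (ct _)
    fun t _ => hg t
  obtain ⟨b, b1, b2⟩ := exists_hasDerivAt_eq_slope g g' zero_lt_one (ct _) fun t _ => hg t
  have ma : a ∈ Icc (-1 : ℝ) 1 := ⟨a1.1.le, by linarith [a1.2]⟩
  have mb : b ∈ Icc (-1 : ℝ) 1 := ⟨by linarith [b1.1], b1.2.le⟩
  have k : ∀ c ∈ uIcc a b, g' c ≠ 0 := fun c hc h => by
    have := h1 c (uIcc_subset_Icc ma mb hc)
    rw [h, abs_zero] at this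
    linarith
  have k2 : (0 : ℝ) ∉ uIcc (g' a) (g' b) := fun h => by
    obtain ⟨c, c1, c2⟩ := intermediate_value_uIcc hc.continuousOn h
    exact k c c1 c2
  norm_num at a2 b2
  rw [abs_le] at h0
  rw [mem_uIcc] at k2
  rcases le_abs.1 (h1 a ma) with h2 | h2 <;> rcases le_abs.1 (h1 b mb) with h3 | h3
  · exact intermediate_value_Icc (by norm_num) (ct _) ⟨by linarith, by linarith⟩
  · exact absurd (.inr ⟨by linarith, by linarith⟩) k2
  · exact absurd (.inl ⟨by linarith, by linarith⟩) k2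
  · exact intermediate_value_Icc' (by norm_num) (ct _) ⟨by linarith, by linarith⟩

theorem near (hu : Ok C u) {y y' e : E n} {ε ρ δ : ℝ} (he : ‖e‖ = 1) (h0 : u y' = 0)
    (hy : ‖y' - y‖ ≤ ρ) (e0 : 0 < ε) (e1 : ε ≤ Real.exp (-2) / √2 / 2) (d1 : δ ≤ 1 / 4)
    (d2 : δ * (2 * ρ) ≤ 1 / 4) (h : ∀ x, ‖x - y‖ ≤ ρ + 1 → ‖pp u x - pe u e x • e‖ ≤ δ ∧
      EE u x ≤ ε ^ 2) : ∃ t, |t - ⟪y' - y, e⟫| ≤ 1 ∧ u (y + t • e) = 0 := by
  obtain ⟨a, ha⟩ : ∃ a, a = ⟪y' - y, e⟫ := ⟨_, rfl⟩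
  have a1 : |a| ≤ ρ := ha ▸ (abs_real_inner_le_norm _ _).trans (by rwa [he, mul_one])
  have d0 : 0 ≤ δ := (norm_nonneg _).trans (h y' (by linarith)).1
  obtain ⟨v, hv⟩ : ∃ v, v = a • e - (y' - y) := ⟨_, rfl⟩
  have v0 : ⟪e, v⟫ = 0 := by
    rw [hv, inner_sub_right, real_inner_smul_right, real_inner_self_eq_norm_sq, he,
      real_inner_comm, ← ha]
    ring
  have n1 : ∀ t : ℝ, ‖t • e‖ = |t| := fun t => by rw [norm_smul, he, mul_one, Real.norm_eq_abs]
  have v1 : ‖v‖ ≤ 2 * ρ := hv ▸ (norm_sub_le _ _).trans (by rw [n1]; linarith)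
  have g0 := norm_image_sub_le_of_norm_deriv_le_segment_01' (C := 1 / 4)
    (fun t _ => (line hu y' v t).hasDerivWithinAt) fun t ht => by
      have b1 : ‖y' + t • v - y‖ ≤ ρ + 1 := by
        rw [show y' + t • v - y = (1 - t) • (y' - y) + (t * a) • e by rw [hv]; module]
        refine (norm_add_le _ _).trans ?_
        rw [n1, norm_smul, Real.norm_of_nonneg (by linarith [ht.2]), abs_mul, abs_of_nonneg ht.1]
        nlinarith [ht.1, ht.2]
      have b2 := (abs_real_inner_le_norm _ v).trans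
        (mul_le_mul (h _ b1).1 v1 (norm_nonneg _) d0)
      rw [inner_sub_left, real_inner_smul_left, v0, mul_zero, sub_zero] at b2
      exact b2.trans d2
  rw [zero_smul, add_zero, (zero_iff hu _).2 h0, sub_zero, one_smul,
    show y' + v = y + a • e + (0 : ℝ) • e by rw [hv]; module, Real.norm_eq_abs] at g0
  obtain ⟨t, t1, t2⟩ := cross (line hu (y + a • e) e) (((smooth_gradient hu.smp).continuous.comp
    (by fun_prop)).inner continuous_const) g0 fun t ht => by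
      have b0 := abs_le.2 ht
      have b1 : ‖y + a • e + t • e - y‖ ≤ ρ + 1 := by
        rw [add_assoc, add_sub_cancel_left, ← add_smul, n1]
        linarith [abs_add_le a t]
      have b2 := (convex_univ.norm_image_sub_le_of_norm_hasDerivWithin_le (C := 1)
        (fun s _ => (line hu (y + a • e) e s).hasDerivWithinAt) (fun s _ =>
          (abs_real_inner_le_norm _ _).trans (by rw [he, mul_one]; exact (p_le hu _).1))
        (mem_univ 0) (mem_univ t))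
      rw [sub_zero, one_mul, Real.norm_eq_abs, Real.norm_eq_abs] at b2
      generalize y + a • e + t • e = x at *
      have b3 : |ps u x| ≤ 5 / 4 := by
        linarith [abs_sub_abs_le_abs_sub (ps u x) (ps u (y + a • e + (0 : ℝ) • e))]
      have b4 : √2 ≤ 8 / 5 := Real.sqrt_le_iff.2 ⟨by norm_num, by norm_num⟩
      have b5 : Real.exp (-2) / √2 ≤ ff u x := le_trans (by
        gcongr
        nlinarith [abs_nonneg (ps u x), Real.sqrt_nonneg 2]) (hu.flo x)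
      have b6 : qq u x ≤ 1 / 4 := by
        have := (h x b1).2
        unfold EE at this
        have f1 : (2 * ε) ^ 2 ≤ ff u x ^ 2 := pow_le_pow_left₀ (by positivity) (by linarith) 2
        have f2 := mul_le_mul_of_nonneg_right f1 (hu.q0 x)
        nlinarith [sq_pos_of_pos e0]
      have b7 := norm_sub_norm_le (pp u x) (pe u e x • e)
      rw [n1] at b7
      linarith [(h x b1).1, (p_le hu x).2]
  refine ⟨a + t, by rw [← ha, add_sub_cancel_left]; exact abs_le.2 t1, ?_⟩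
  rw [add_smul, ← add_assoc]
  exact (zero_iff hu _).1 t2

end BRGp

open BRGp in
theorem brg (s : SYM) (tl : TL) (_ : GR) (_ : GD) (b : ∀ n, P134T.BASE n) : BASE := fun m C => by
  obtain ⟨C₀, l₀, ε₁, c0, l0, e1, hb⟩ := b (m + 1) C
  obtain ⟨ε₂, e2, ht⟩ := tl m C (C₀ + 2) (1 / (8 * (C₀ + 1))) (by positivity)
  obtain ⟨ε₃, e3, hs⟩ := small (show 0 < C₀ + 2 by positivity)
  refine ⟨l₀, l0, C₀ + 2, min (min ε₁ ε₂) (min (min ε₃ (1 / 2)) (Real.exp (-2) / √2 / 2)),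
    by positivity, fun u ε x₀ hu e0 he hg hf hE => ?_⟩
  simp only [le_min_iff] at he
  obtain ⟨⟨k1, k2⟩, ⟨k3, k4⟩, k5⟩ := he
  obtain ⟨y, y', y0, y0', y1, y2, y3, y4⟩ := hb u ε x₀ hu e0 k1 hg hf hE
  obtain ⟨g1, g2⟩ := hs ε e0 k3
  have hg' : Gd u ε y (1 / ε) := fun x hx => hg x (ball_subset_ball'
    (by rw [dist_eq_norm, div_eq_mul_one_div 2]; linarith) hx)
  have p0 : pp u y ≠ 0 := fun h => by rw [h, inner_zero_right, abs_zero] at y3; linarith
  have p1 := norm_pos_iff.2 p0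
  have he : ‖‖pp u y‖⁻¹ • pp u y‖ = 1 := norm_smul_inv_norm p0
  have d1 : 1 / (8 * (C₀ + 1)) / lg ε * (8 * (C₀ + 1) * lg ε) = 1 := by field_simp
  have d2 : 0 < 1 / (8 * (C₀ + 1)) / lg ε := by positivity
  have d3 : 0 < C₀ * lg ε := by positivity
  obtain ⟨t, t1, t2⟩ := near (δ := 1 / (8 * (C₀ + 1)) / lg ε) hu he y0' y2 e0 k5
    (by nlinarith) (by nlinarith) fun x hx =>
      ⟨(ht u ε y hu e0 k2 hg' y0 x (mem_ball_iff_norm.2 (by linarith))).t0,
        hg' x (mem_ball_iff_norm.2 (by linarith))⟩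
  obtain ⟨a, ha⟩ : ∃ a, a = ⟪y' - y, ‖pp u y‖⁻¹ • pp u y⟫ := ⟨_, rfl⟩
  have a1 : |a| ≤ C₀ * lg ε := ha ▸ (abs_real_inner_le_norm _ _).trans (by rwa [he, mul_one])
  have a2 : |⟪y' - y, pp u y⟫| = ‖pp u y‖ * |a| := by
    rw [ha, real_inner_smul_right, abs_mul, abs_inv, abs_norm, mul_inv_cancel_left₀ p1.ne']
  have a3 : qq u y ≤ 2 * ε ^ 2 := by
    have := hg' y (mem_ball_self (by positivity))
    simp only [EE, ff, y0, div_pow, Real.sq_sqrt zero_le_two] at this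
    linarith
  have a4 : 2 * ε ^ 2 * |a| ≤ 1 := by
    rw [le_div_iff₀ e0] at g2
    nlinarith [mul_le_mul_of_nonneg_left a1 e0.le, mul_pos e0 (zero_lt_one.trans_le g1),
      mul_nonneg e0.le (abs_nonneg a)]
  have a5 := mul_le_mul_of_nonneg_right (p_le hu y).1 (abs_nonneg a)
  have a6 := mul_le_mul_of_nonneg_right ((sub_le_sub_left a3 1).trans (p_le hu y).2) (abs_nonneg a)
  rw [← ha] at t1
  have a7 := abs_sub_abs_le_abs_sub t a
  have a8 := abs_sub_abs_le_abs_sub a t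
  rw [abs_sub_comm] at a8
  rcases lt_trichotomy t 0 with h | h | h
  · have q1 := (s.1 _ u).1.2.2.1
    obtain ⟨t', b1, b2⟩ := nx ((s.1 _ u).2.1 C hu) (y := y) (by simp [y0]) (by simpa [q1] using p0)
      (neg_pos.2 h) (by simpa [q1] using t2)
    exact ⟨y, t', by linarith, by linarith [neg_le_abs t], .inr b2⟩
  · have : |t| = 0 := by rw [h, abs_zero]
    linarith
  · obtain ⟨t', b1, b2⟩ := nx hu y0 p0 h t2
    exact ⟨y, t', by linarith, by linarith [le_abs_self t], .inl b2⟩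

end Vale.Agent.P134B
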