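import Vale.Agent.P134B.Spec

/-!
# P134B: the variation of the gradient over a column (row CJ)
-/

open MeasureTheory Metric Filter Topology Set
open Vale.Agent.P366.Stmt (E)

noncomputable section

namespace Vale.Agent.P134B

namespace Cj

variable {n : ℕ} {C ε δ T c b : ℝ} {ψ s d q u f : ℝ → ℝ} {P P' : ℝ → E n}

theorem fpos (h : Ln ε δ T ψ s d q u f) (t : ℝ) : 0 < f t := lt_of_lt_of_le (by positivity) (h.flo t)

theorem ratio (h : Ln ε δ T ψ s d q u f) (hc : Cl ε T c b ψ s q u f) {r t : ℝ} (h0 : 0 ≤ r) (hr : r ≤ t)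
    (ht : t < b) : f t ≤ 4 * f r * Real.exp (r - t) := by
  have hm := (convex_Icc 0 t).mul_sub_le_image_sub_of_le_deriv (f := ψ) (C := 9 / 10)
    (fun x _ => (h.dψ x).continuousAt.continuousWithinAt)
    (fun x _ => (h.dψ x).differentiableAt.differentiableWithinAt) (fun x hx => by
      rw [interior_Icc] at hx
      rw [(h.dψ x).deriv]
      exact (hc.lo x ⟨hx.1.le, hx.2.trans ht⟩).2.le)
  have h1 := hm 0 ⟨le_rfl, h0.trans hr⟩ r ⟨h0, hr⟩ h0
  have h2 := hm r ⟨h0, hr⟩ t ⟨h0.trans hr, le_rfl⟩ hr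
  rw [h.ψ0] at h1
  have p1 : 0 ≤ ψ r := by linarith
  have p2 : 0 ≤ ψ t := by linarith
  have s2 : (√2 : ℝ) * √2 = 2 := Real.mul_self_sqrt (by norm_num)
  have s0 : (0 : ℝ) < √2 := by positivity
  have s1 : (10 / 9 : ℝ) ≤ √2 := by nlinarith
  have a1 := h.flo r
  have a2 := h.fhi t
  rw [abs_of_nonneg p1, div_le_iff₀ s0] at a1
  rw [abs_of_nonneg p2] at a2
  have a3 : Real.exp (-(√2 * ψ t)) ≤ Real.exp (-(√2 * ψ r)) * Real.exp (r - t) := by
    rw [← Real.exp_add]
    refine Real.exp_le_exp.2 ?_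
    have : 10 / 9 * (9 / 10 * (t - r)) ≤ √2 * (ψ t - ψ r) := mul_le_mul s1 h2 (by linarith) s0.le
    linarith
  calc f t ≤ 2 * √2 * (f r * √2 * Real.exp (r - t)) := by
        refine a2.trans (mul_le_mul_of_nonneg_left (a3.trans ?_) (by positivity))
        exact mul_le_mul_of_nonneg_right a1 (by positivity)
    _ = 2 * (√2 * √2) * f r * Real.exp (r - t) := by ring
    _ = 4 * f r * Real.exp (r - t) := by rw [s2]; ring

theorem low (hC : 1 ≤ C) (h : Ln ε δ T ψ s d q u f) (hc : Cl ε T c b ψ s q u f)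
    (hP : ∀ t, HasDerivAt P (P' t) t ∧ ‖P t‖ ≤ 1 ∧
      (|t| ≤ T → 0 ≤ s t → ‖P' t‖ ≤ 2 * C * q t + 2 * C * δ * √(q t))) {t : ℝ} (h0 : 0 ≤ t) (ht : t < b) :
    f t ^ 2 * ‖P t - P 0‖ ≤ 32 * C * ε ^ 2 + 8 * C * δ * ε * f t := by
  have hF := fpos h t
  have he := h.e0
  have hd := h.d0
  set A := 32 * C * (ε / f t) ^ 2 + 8 * C * δ * (ε / f t) with hA
  have hA0 : 0 ≤ A := by positivity
  have key := image_norm_le_of_norm_deriv_right_le_deriv_boundary (f := fun r => P r - P 0) (f' := P') (a := 0)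
    (b := t) (fun x _ => ((hP x).1.sub_const _).continuousAt.continuousWithinAt)
    (fun x _ => ((hP x).1.sub_const _).hasDerivWithinAt) (B := fun r => A * Real.exp (r - t))
    (B' := fun r => A * Real.exp (r - t)) (by simp only [sub_self, norm_zero]; positivity)
    (fun x => by simpa using (((hasDerivAt_id x).sub_const t).exp.const_mul A)) (fun r hr => by
      have hl := hc.lo r ⟨hr.1, hr.2.trans ht⟩
      have hT : |r| ≤ T := hl.1.1.le
      have hf := fpos h r
      have h1 := ratio h hc hr.1 hr.2.le ht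
      set w := Real.exp (r - t) with hw
      have w0 : 0 < w := Real.exp_pos _
      have w1 : w ≤ 1 := Real.exp_le_one_iff.2 (by linarith [hr.2])
      set y := 4 * (ε / f t) * w with hy
      have y0 : 0 ≤ y := by positivity
      have h2 : ε / f r ≤ y := by
        rw [hy, div_le_iff₀ hf]
        have : 4 * (ε / f t) * w * f r = ε / f t * (4 * f r * w) := by ring
        rw [this]
        calc ε = ε / f t * f t := by field_simp
          _ ≤ _ := mul_le_mul_of_nonneg_left h1 (by positivity)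
      have h3 : q r ≤ y ^ 2 := by
        refine le_trans ?_ (pow_le_pow_left₀ (by positivity) h2 2)
        rw [div_pow, le_div_iff₀ (by positivity), mul_comm]
        exact h.gd r hT
      have h4 : √(q r) ≤ y := Real.sqrt_le_iff.2 ⟨y0, h3⟩
      have h5 : y ^ 2 ≤ 16 * (ε / f t) ^ 2 * w := by
        have : y ^ 2 = 16 * (ε / f t) ^ 2 * (w * w) := by rw [hy]; ring
        rw [this]
        exact mul_le_mul_of_nonneg_left (by nlinarith) (by positivity)
      calc ‖P' r‖ ≤ 2 * C * q r + 2 * C * δ * √(q r) := (hP r).2.2 hT (by linarith [hl.2])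
        _ ≤ 2 * C * (16 * (ε / f t) ^ 2 * w) + 2 * C * δ * y :=
            add_le_add (mul_le_mul_of_nonneg_left (h3.trans h5) (by positivity))
              (mul_le_mul_of_nonneg_left h4 (by positivity))
        _ = A * w := by rw [hA, hy]; ring) ⟨h0, le_rfl⟩
  simp only [sub_self, Real.exp_zero, mul_one] at key
  calc f t ^ 2 * ‖P t - P 0‖ ≤ f t ^ 2 * A := mul_le_mul_of_nonneg_left key (by positivity)
    _ = _ := by rw [hA]; field_simp

theorem half (hcol : COL) (hC : 1 ≤ C) (h : Ln ε δ T ψ s d q u f)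
    (hP : ∀ t, HasDerivAt P (P' t) t ∧ ‖P t‖ ≤ 1 ∧
      (|t| ≤ T → 0 ≤ s t → ‖P' t‖ ≤ 2 * C * q t + 2 * C * δ * √(q t))) {t : ℝ} (h0 : 0 ≤ t)
    (ht : t ∈ Iv s T (-(19 / 20))) :
    f t ^ 2 * ‖P t - P 0‖ ≤ 40 * C * ε ^ 2 + 8 * C * δ * ε * (Real.exp 120 * Real.exp (-t)) := by
  obtain ⟨b, hc⟩ := (hcol ε δ T _ ψ s d q u f h le_rfl (by norm_num)).1
  have he := h.e0
  have hd := h.d0
  have hε : ε ^ 2 ≤ C * ε ^ 2 := le_mul_of_one_le_left (by positivity) hC
  rcases lt_or_ge t b with hb | hb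
  · have h1 := low hC h hc hP h0 hb
    have h2 : 8 * C * δ * ε * f t ≤ 8 * C * δ * ε * (Real.exp 120 * Real.exp (-t)) :=
      mul_le_mul_of_nonneg_left (hc.dc t ht h0) (by positivity)
    nlinarith [sq_nonneg ε]
  · have h1 : ‖P t - P 0‖ ≤ 2 := (norm_sub_le _ _).trans (by linarith [(hP t).2.1, (hP 0).2.1])
    have h2 : f t ^ 2 * ‖P t - P 0‖ ≤ 20 * ε ^ 2 * 2 :=
      mul_le_mul (hc.hi t ht hb).2.2 h1 (norm_nonneg _) (by positivity)
    have h3 : 0 ≤ 8 * C * δ * ε * (Real.exp 120 * Real.exp (-t)) := by positivity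
    linarith

theorem Iv_neg {t : ℝ} (ht : t ∈ Iv s T c) : -t ∈ Iv (fun t => s (-t)) T c := by
  refine ⟨by rw [abs_neg]; exact ht.1, fun t' h' => ht.2 _ ?_⟩
  rw [mem_uIcc] at h' ⊢
  rcases h' with h' | h'
  · right; constructor <;> linarith [h'.1, h'.2]
  · left; constructor <;> linarith [h'.1, h'.2]

theorem Iv_meas (s : ℝ → ℝ) (T c : ℝ) : MeasurableSet (Iv s T c) := by
  refine Set.OrdConnected.measurableSet ⟨fun x hx y hy z hz => ?_⟩
  have key : ∀ w ∈ Iv s T c, z ∈ uIcc 0 w → z ∈ Iv s T c := fun w hw hz' =>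
    ⟨lt_of_le_of_lt (by simpa using abs_sub_left_of_mem_uIcc hz') hw.1,
      fun t' h' => hw.2 _ (uIcc_subset_uIcc left_mem_uIcc hz' h')⟩
  rcases le_total 0 z with h | h
  · exact key y hy (mem_uIcc.2 (Or.inl ⟨h, hz.2⟩))
  · exact key x hx (mem_uIcc.2 (Or.inr ⟨hz.1, h⟩))

theorem exp_le (t : ℝ) : Real.exp (-|t|) ≤ 2 * (1 + t ^ 2)⁻¹ := by
  have h1 := Real.quadratic_le_exp_of_nonneg (abs_nonneg t)
  rw [sq_abs] at h1
  rw [Real.exp_neg, ← div_eq_mul_inv, le_div_iff₀ (by positivity), inv_mul_le_iff₀ (Real.exp_pos _)]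
  linarith [abs_nonneg t]

end Cj

open Cj in
/-- **CJ** -/
theorem cj : rCJ := by
  intro hsym hcol n C hC
  refine ⟨80 * C + 16 * C * Real.exp 120 * Real.pi, fun ε δ T ψ s d q u f P P' h hP => ?_⟩
  have he := h.e0
  have hd := h.d0
  have hT := h.T1
  have hpi := Real.pi_pos
  set a := 40 * C * ε ^ 2 with ha
  set k := 16 * C * δ * ε * Real.exp 120 with hk
  have hpt : ∀ t ∈ Iv s T (-(19 / 20)), f t ^ 2 * ‖P t - P 0‖ ≤ a + k * (1 + t ^ 2)⁻¹ := by
    intro t ht
    have h1 : f t ^ 2 * ‖P t - P 0‖ ≤ 40 * C * ε ^ 2 + 8 * C * δ * ε * (Real.exp 120 * Real.exp (-|t|)) := by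
      rcases le_total 0 t with h0 | h0
      · rw [abs_of_nonneg h0]
        exact half hcol hC h hP h0 ht
      · have h2 := half (P := fun t => P (-t)) (P' := fun t => -P' (-t)) hcol hC (hsym.2 ε δ T ψ s d q u f h)
          (fun t => ⟨by
            have h3 := (hP (-t)).1.scomp t (hasDerivAt_neg t)
            rw [neg_one_smul] at h3
            exact h3, (hP (-t)).2.1, fun h1 h2 => by
            rw [norm_neg]
            exact (hP (-t)).2.2 (by rwa [abs_neg]) h2⟩) (neg_nonneg.2 h0) (Iv_neg ht)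
        rw [abs_of_nonpos h0]
        simpa only [neg_neg, neg_zero] using h2
    refine h1.trans (add_le_add le_rfl ?_)
    calc 8 * C * δ * ε * (Real.exp 120 * Real.exp (-|t|)) ≤ 8 * C * δ * ε * (Real.exp 120 * (2 * (1 + t ^ 2)⁻¹)) :=
          mul_le_mul_of_nonneg_left (mul_le_mul_of_nonneg_left (exp_le t) (by positivity)) (by positivity)
      _ = k * (1 + t ^ 2)⁻¹ := by rw [hk]; ring
  have hm := Iv_meas s T (-(19 / 20))
  have hsub : Iv s T (-(19 / 20)) ⊆ Ioo (-T) T := fun t ht => abs_lt.1 ht.1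
  have hfin : volume (Iv s T (-(19 / 20))) ≠ ⊤ := ((measure_mono hsub).trans_lt measure_Ioo_lt_top).ne
  have hvol : volume.real (Iv s T (-(19 / 20))) ≤ 2 * T := by
    refine (measureReal_mono hsub measure_Ioo_lt_top.ne).trans (le_of_eq ?_)
    rw [Real.volume_real_Ioo_of_le (by linarith)]
    ring
  have i1 : IntegrableOn (fun _ : ℝ => a) (Iv s T (-(19 / 20))) := integrableOn_const hfin
  have i2 : Integrable fun t : ℝ => k * (1 + t ^ 2)⁻¹ := integrable_inv_one_add_sq.const_mul k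
  calc ∫ t in Iv s T (-(19 / 20)), f t ^ 2 * ‖P t - P 0‖
      ≤ ∫ t in Iv s T (-(19 / 20)), (a + k * (1 + t ^ 2)⁻¹) :=
        integral_mono_of_nonneg (Eventually.of_forall fun t => by positivity) (i1.add i2.integrableOn)
          ((ae_restrict_iff' hm).2 (Eventually.of_forall hpt))
    _ ≤ 2 * T * a + k * Real.pi := by
        rw [integral_add i1 i2.integrableOn, setIntegral_const, smul_eq_mul]
        refine add_le_add (mul_le_mul_of_nonneg_right hvol (by positivity)) ?_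
        rw [← integral_univ_inv_one_add_sq, ← integral_const_mul]
        exact setIntegral_le_integral i2 (Eventually.of_forall fun t => by positivity)
    _ ≤ _ := by
        have e1 : 0 ≤ 80 * C * (δ * ε) := by positivity
        have e2 : 0 ≤ 16 * C * Real.exp 120 * Real.pi * (ε ^ 2 * T) := by positivity
        rw [ha, hk]
        nlinarith

end Vale.Agent.P134B
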