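import Vale.Agent.P134B.Spec

/-!
# P134B: the structure of a column
-/

open Metric Filter Topology Set

noncomputable section

namespace Vale.Agent.P134B

namespace Col

theorem up_right {g : ℝ → ℝ} {g' x : ℝ} (h : HasDerivAt g g' x) (h0 : 0 < g') :
    ∀ᶠ y in 𝓝[>] x, g x < g y := by
  have h1 : ∀ᶠ y in 𝓝[>] x, 0 < slope g x y :=
    ((hasDerivAt_iff_tendsto_slope.1 h).mono_left (nhdsGT_le_nhdsNE x)).eventually
      (lt_mem_nhds h0)
  filter_upwards [h1, self_mem_nhdsWithin] with y hy hxy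
  rw [slope_def_field] at hy
  have h2 : 0 < y - x := sub_pos.2 hxy
  have := (div_pos_iff_of_pos_right h2).1 hy
  linarith

theorem up_left {g : ℝ → ℝ} {g' x : ℝ} (h : HasDerivAt g g' x) (h0 : 0 < g') :
    ∀ᶠ y in 𝓝[<] x, g y < g x := by
  have h1 : ∀ᶠ y in 𝓝[<] x, 0 < slope g x y :=
    ((hasDerivAt_iff_tendsto_slope.1 h).mono_left (nhdsLT_le_nhdsNE x)).eventually
      (lt_mem_nhds h0)
  filter_upwards [h1, self_mem_nhdsWithin] with y hy hxy
  rw [slope_def_field] at hy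
  have h2 : y - x < 0 := sub_neg.2 hxy
  rcases div_pos_iff.1 hy with h3 | h3
  · linarith [h3.2]
  · linarith [h3.1]

/-- a barrier: a function which rises whenever it is at the level `c` stays above `c` -/
theorem barrier {g g' : ℝ → ℝ} {a b c : ℝ} (hg : ∀ x, HasDerivAt g (g' x) x) (ha : c ≤ g a)
    (h : ∀ x ∈ Ico a b, g x = c → 0 < g' x) : ∀ x ∈ Icc a b, c ≤ g x := by
  have hc : Continuous g := continuous_iff_continuousAt.2 fun x => (hg x).continuousAt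
  have hS : IsClosed ({x | c ≤ g x} ∩ Icc a b) :=
    (isClosed_le continuous_const hc).inter isClosed_Icc
  refine fun x hx => hS.Icc_subset_of_forall_mem_nhdsWithin ha (fun y hy => ?_) hx
  rcases (show c ≤ g y from hy.1).eq_or_lt with h1 | h1
  · filter_upwards [up_right (hg y) (h y hy.2 h1.symm)] with z hz
    exact h1.le.trans hz.le
  · filter_upwards [nhdsWithin_le_nhds (hc.continuousAt.eventually (lt_mem_nhds h1))] with z hz
    exact hz.le

/-- the first time at which the level `c` is reached -/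
theorem first {g : ℝ → ℝ} {a t c : ℝ} (hc : Continuous g) (hat : a ≤ t) (ha : c < g a)
    (ht : g t ≤ c) : ∃ t₀ ∈ Ioc a t, g t₀ = c ∧ ∀ r ∈ Ico a t₀, c < g r := by
  have hK : IsCompact (Icc a t ∩ {r | g r = c}) :=
    isCompact_Icc.inter_right (isClosed_eq hc continuous_const)
  have iv : ∀ r, a ≤ r → g r ≤ c → ∃ r' ∈ Icc a r, g r' = c := fun r h1 h2 =>
    intermediate_value_Icc' h1 hc.continuousOn ⟨h2, ha.le⟩
  obtain ⟨r0, hr0, e0⟩ := iv t hat ht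
  obtain ⟨t₀, ⟨h1, h2⟩, h3⟩ := hK.exists_isLeast ⟨r0, hr0, e0⟩
  have h2' : g t₀ = c := h2
  refine ⟨t₀, ⟨lt_of_le_of_ne h1.1 (fun e => ?_), h1.2⟩, h2', fun r hr => ?_⟩
  · rw [← e] at h2'
    linarith
  · by_contra h4
    obtain ⟨r', hr', e'⟩ := iv r hr.1 (not_lt.1 h4)
    have := h3 ⟨⟨hr'.1, hr'.2.trans (hr.2.le.trans h1.2)⟩, e'⟩
    linarith [hr'.2, hr.2]

theorem lower {g g' : ℝ → ℝ} {a b k : ℝ} (hg : ∀ x, HasDerivAt g (g' x) x) (hab : a ≤ b)
    (h : ∀ x ∈ Ioo a b, k ≤ g' x) : k * (b - a) ≤ g b - g a := by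
  have hc : Continuous g := continuous_iff_continuousAt.2 fun x => (hg x).continuousAt
  refine (convex_Icc a b).mul_sub_le_image_sub_of_le_deriv hc.continuousOn
    (fun x _ => (hg x).differentiableAt.differentiableWithinAt) (fun x hx => ?_) a
    (left_mem_Icc.2 hab) b (right_mem_Icc.2 hab) hab
  rw [interior_Icc] at hx
  rw [(hg x).deriv]
  exact h x hx

theorem r2 : (141 / 100 : ℝ) ≤ √2 ∧ √2 ≤ (142 / 100 : ℝ) :=
  ⟨Real.le_sqrt_of_sq_le (by norm_num), Real.sqrt_le_iff.2 ⟨by norm_num, by norm_num⟩⟩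

variable {ε δ T c : ℝ} {ψ s d q u f : ℝ → ℝ}

theorem u_pos (h : Ln ε δ T ψ s d q u f) (t : ℝ) : 0 < u t ↔ 0 < ψ t := by
  have := r2.1
  rw [h.th, Real.tanh_eq_sinh_div_cosh, div_pos_iff_of_pos_right (Real.cosh_pos _),
    Real.sinh_pos_iff, div_pos_iff_of_pos_right (by linarith)]

theorem u_zero (h : Ln ε δ T ψ s d q u f) (t : ℝ) : u t = 0 ↔ ψ t = 0 := by
  have := r2.1
  rw [h.th, Real.tanh_eq_sinh_div_cosh, div_eq_zero_iff, Real.sinh_eq_zero, div_eq_zero_iff]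
  have h1 : Real.cosh (ψ t / √2) ≠ 0 := (Real.cosh_pos _).ne'
  have h2 : √2 ≠ (0 : ℝ) := by linarith
  simp only [h1, h2, or_false]

theorem cs (h : Ln ε δ T ψ s d q u f) : Continuous s :=
  continuous_iff_continuousAt.2 fun x => (h.ds x).continuousAt

theorem part2 (h : Ln ε δ T ψ s d q u f) (t : ℝ) (ht : |t| ≤ T) (hs : |s t| ≤ 19 / 20) :
    1 / 20 ≤ q t ∧ f t ^ 2 ≤ 20 * ε ^ 2 ∧ 1 - δ ≤ |u t| ∧
      (0 < u t → (√2 - 25 * δ) * q t ≤ -d t) := by
  have d0 := h.d0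
  have d1 := h.d1
  have a0 := h.t0 t ht
  have a1 : s t ^ 2 ≤ (19 / 20) ^ 2 := sq_le_sq' (abs_le.1 hs).1 (abs_le.1 hs).2
  have hq : 1 / 20 ≤ q t := by nlinarith
  have hu : 1 - δ ≤ |u t| := (h.t3 t ht).resolve_left (by linarith)
  refine ⟨hq, ?_, hu, fun h0 => ?_⟩
  · have := h.gd t ht
    nlinarith [sq_nonneg (f t)]
  · rw [abs_of_pos h0] at hu
    have a2 := (abs_le.1 (h.t2 t ht)).2
    obtain ⟨b1, b2⟩ := r2
    have a3 : √2 * (1 - δ) * q t ≤ √2 * u t * q t := by gcongr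
    have a4 : δ * 1 ≤ δ * ((25 - √2) * q t) := by
      gcongr
      nlinarith
    nlinarith

theorem part5 (h : Ln ε δ T ψ s d q u f) (t : ℝ) (ht : |t| ≤ T) (hu : u t = 0) :
    99 / 100 ≤ |s t| := by
  have d0 := h.d0
  have d1 := h.d1
  have a0 := h.t0 t ht
  have hq : q t ≤ δ := (h.t3 t ht).resolve_right (by rw [hu, abs_zero]; linarith)
  refine (abs_le_of_sq_le_sq' (a := 99 / 100) (b := |s t|) ?_ (abs_nonneg _)).2
  rw [sq_abs]
  nlinarith

theorem dneg (h : Ln ε δ T ψ s d q u f) (t : ℝ) (ht : |t| ≤ T) (hs : |s t| ≤ 19 / 20)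
    (hu : 0 < u t) : 1 / 15 < -d t := by
  obtain ⟨a1, -, -, a2⟩ := part2 h t ht hs
  have a3 := a2 hu
  have := r2.1
  have d1 := h.d1
  nlinarith

/-- the phase is nonnegative as long as the slope is above the threshold -/
theorem nonneg (h : Ln ε δ T ψ s d q u f) (hc : -(19 / 20) ≤ c) {t : ℝ} (hT : t ≤ T)
    (hs : ∀ r ∈ Ico 0 t, c < s r) : ∀ r ∈ Icc 0 t, 0 ≤ ψ r := by
  refine barrier h.dψ h.ψ0.ge fun x hx h0 => ?_
  have a1 := part5 h x (by rw [abs_of_nonneg hx.1]; exact hx.2.le.trans hT) ((u_zero h x).2 h0)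
  have a2 := hs x hx
  rcases le_abs.1 a1 with a3 | a3 <;> linarith

theorem iv_iff {t : ℝ} (ht : 0 ≤ t) : t ∈ Iv s T c ↔ t < T ∧ ∀ r ∈ Icc 0 t, c < s r := by
  simp only [Iv, mem_ofPred_eq, abs_of_nonneg ht, uIcc_of_le ht]

theorem iv_mono {t r : ℝ} (h : t ∈ Iv s T c) (h0 : 0 ≤ r) (h1 : r ≤ t) : r ∈ Iv s T c := by
  rw [iv_iff (h0.trans h1)] at h
  exact (iv_iff h0).2 ⟨h1.trans_lt h.1, fun x hx => h.2 x ⟨hx.1, hx.2.trans h1⟩⟩

theorem pos (h : Ln ε δ T ψ s d q u f) (hc : -(19 / 20) ≤ c) {t : ℝ} (ht : t ∈ Iv s T c)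
    (h0 : 0 < t) : 0 < u t := by
  rw [iv_iff h0.le] at ht
  have a0 := nonneg h hc ht.1.le fun r hr => ht.2 r ⟨hr.1, hr.2.le⟩
  rw [u_pos h]
  refine lt_of_le_of_ne (a0 t ⟨h0.le, le_rfl⟩) fun e => ?_
  have a1 := part5 h t (by rw [abs_of_pos h0]; exact ht.1.le) ((u_zero h t).2 e.symm)
  have a2 := ht.2 t ⟨h0.le, le_rfl⟩
  have a3 : 0 < s t := by rcases le_abs.1 a1 with a3 | a3 <;> linarith
  obtain ⟨y, hy1, hy2⟩ := ((up_left (h.dψ t) a3).and (Ioo_mem_nhdsLT h0)).exists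
  have := a0 y ⟨hy2.1.le, hy2.2.le⟩
  linarith

theorem decay (h : Ln ε δ T ψ s d q u f) {b t : ℝ} (hb : 0 < b)
    (lo : ∀ r ∈ Ico 0 b, 9 / 10 < s r) (h0 : 0 ≤ t) (ht : t ≤ b + 40) :
    f t ≤ Real.exp 120 * Real.exp (-t) := by
  have a1 : ∀ r ∈ Icc 0 b, 9 / 10 * r ≤ ψ r := fun r hr => by
    have := lower h.dψ hr.1 (k := 9 / 10) fun x hx => (lo x ⟨hx.1.le, hx.2.trans_le hr.2⟩).le
    rw [h.ψ0] at this
    linarith
  have a2 : 9 / 10 * t - 76 ≤ ψ t := by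
    rcases le_total t b with h1 | h1
    · linarith [a1 t ⟨h0, h1⟩]
    · have b1 := lower h.dψ h1 (k := -1) fun x _ => by
        have c1 := h.sq x
        have c2 := h.q0 x
        nlinarith
      linarith [a1 b ⟨hb.le, le_rfl⟩]
  obtain ⟨b1, b2⟩ := r2
  have a3 : t - 110 ≤ √2 * |ψ t| := by
    have c1 : √2 * (9 / 10 * t - 76) ≤ √2 * |ψ t| := by
      gcongr
      exact a2.trans (le_abs_self _)
    nlinarith
  have a4 : 2 * √2 ≤ Real.exp 10 := by linarith [Real.add_one_le_exp 10]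
  calc f t ≤ 2 * √2 * Real.exp (-(√2 * |ψ t|)) := h.fhi t
    _ ≤ Real.exp 10 * Real.exp (110 - t) := by
        gcongr
        linarith
    _ = Real.exp 120 * Real.exp (-t) := by
        rw [← Real.exp_add, ← Real.exp_add]
        congr 1
        ring

theorem part1 (h : Ln ε δ T ψ s d q u f) (hc : -(19 / 20) ≤ c) (hc' : c ≤ 1 / 2) :
    ∃ b, Cl ε T c b ψ s q u f := by
  have T1 := h.T1
  have s0 := h.s0
  have d1 := h.d1
  have lo : ∀ b, b ≤ T → (∀ r ∈ Ico 0 b, 9 / 10 < s r) →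
      ∀ t ∈ Ico 0 b, t ∈ Iv s T c ∧ 9 / 10 < s t := fun b hb hs t ht =>
    ⟨(iv_iff ht.1).2 ⟨ht.2.trans_le hb, fun r hr => by
      linarith [hs r ⟨hr.1, hr.2.trans_lt ht.2⟩]⟩, hs t ht⟩
  by_cases hz : ∀ r ∈ Ico 0 T, 9 / 10 < s r
  · refine ⟨T, by linarith, le_rfl, lo T le_rfl hz, fun t ht h1 => ?_, Or.inl rfl,
      fun t ht => pos h hc ht, fun t ht h0 => decay h (b := T) (by linarith) hz h0 ?_⟩
    · exact absurd ((iv_iff (by linarith)).1 ht).1 (not_lt.2 h1)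
    · linarith [((iv_iff h0).1 ht).1]
  · push Not at hz
    obtain ⟨r, hr, hr'⟩ := hz
    obtain ⟨b, hb, e, hs⟩ := first (cs h) hr.1 (by linarith) hr'
    have bT : b ≤ T := hb.2.trans hr.2.le
    have hi : ∀ t ∈ Iv s T c, b ≤ t → s t ≤ 9 / 10 ∧ t ≤ b + 40 ∧ f t ^ 2 ≤ 20 * ε ^ 2 := by
      intro t ht h1
      have h0 : 0 ≤ t := hb.1.le.trans h1
      have ht' := (iv_iff h0).1 ht
      have a1 := barrier (g := fun x => -s x - (x - b) / 15) (g' := fun x => -d x - 1 / 15)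
        (a := b) (b := t) (c := -(9 / 10))
        (fun x => (h.ds x).neg.sub (((hasDerivAt_id x).sub_const b).div_const 15))
        (by simp [e]) (fun x hx e' => by
          have x0 : 0 < x := hb.1.trans_le hx.1
          have c1 := ht'.2 x ⟨x0.le, hx.2.le⟩
          have c2 := dneg h x (by rw [abs_of_pos x0]; linarith [hx.2, ht'.1])
            (abs_le.2 ⟨by linarith, by linarith [hx.1]⟩) (pos h hc (iv_mono ht x0.le hx.2.le) x0)
          linarith) t ⟨h1, le_rfl⟩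
      have a2 := ht'.2 t ⟨h0, le_rfl⟩
      have a3 : s t ≤ 9 / 10 := by linarith
      exact ⟨a3, by linarith, (part2 h t (by rw [abs_of_nonneg h0]; exact ht'.1.le)
        (abs_le.2 ⟨by linarith, by linarith⟩)).2.1⟩
    refine ⟨b, hb.1, bT, lo b bT hs, hi, Or.inr ?_, fun t ht => pos h hc ht,
      fun t ht h0 => decay h hb.1 hs h0 ?_⟩
    · exact (part2 h b (by rw [abs_of_pos hb.1]; exact bT) (by rw [e]; norm_num [abs_le])).2.1
    · rcases le_total b t with h1 | h1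
      · exact (hi t ht h1).2.1
      · linarith

theorem part3 (h : Ln ε δ T ψ s d q u f) (hc : -(19 / 20) ≤ c) (hc' : c ≤ 1 / 2) (t : ℝ)
    (h0 : 0 ≤ t) (hT : t < T) (hu : ∀ t' ∈ Ioc 0 t, u t' ≠ 0) (hs : c < s t) :
    t ∈ Iv s T c := by
  have s0 := h.s0
  have d1 := h.d1
  have a0 : ∀ r ∈ Icc 0 t, 0 ≤ ψ r := by
    refine barrier h.dψ h.ψ0.ge fun x hx e => ?_
    rcases hx.1.eq_or_lt with e' | e'
    · rw [← e']
      linarith
    · exact absurd ((u_zero h x).2 e) (hu x ⟨e', hx.2.le⟩)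
  have a1 : ∀ r ∈ Ioc 0 t, 0 < u r := fun r hr => (u_pos h r).2
    (lt_of_le_of_ne (a0 r ⟨hr.1.le, hr.2⟩) fun e => hu r hr ((u_zero h r).2 e.symm))
  refine (iv_iff h0).2 ⟨hT, fun r hr => ?_⟩
  by_contra h1
  have h2 : s r ≤ c := not_lt.1 h1
  have r0 : 0 < r := lt_of_le_of_ne hr.1 fun e => by
    rw [← e] at h2
    linarith
  have a2 := barrier (g := fun x => -s x) (g' := fun x => -d x) (a := r) (b := t) (c := -c)
    (fun x => (h.ds x).neg) (by linarith) (fun x hx e => by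
      have x0 : 0 < x := r0.trans_le hx.1
      have c2 := dneg h x (by rw [abs_of_pos x0]; linarith [hx.2])
        (abs_le.2 ⟨by linarith, by linarith⟩) (a1 x ⟨x0, hx.2.le⟩)
      linarith) t ⟨hr.2, le_rfl⟩
  linarith

theorem part4 (h : Ln ε δ T ψ s d q u f) (hc : -(19 / 20) ≤ c) (hc' : c ≤ 1 / 2) (t : ℝ)
    (h0 : 0 ≤ t) (hT : t < T) (ht : t ∉ Iv s T c) : s t = c ∨ ∃ t' ∈ Icc 0 t, s t' < c := by
  have s0 := h.s0
  have d1 := h.d1
  rw [iv_iff h0] at ht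
  push Not at ht
  obtain ⟨r, hr, hr'⟩ := ht hT
  obtain ⟨b, hb, e, hs⟩ := first (cs h) hr.1 (by linarith) hr'
  rcases (hb.2.trans hr.2).eq_or_lt with e' | e'
  · exact Or.inl (e' ▸ e)
  · have bT : |b| ≤ T := by
      rw [abs_of_pos hb.1]
      linarith
    have sb : |s b| ≤ 19 / 20 := abs_le.2 ⟨by linarith, by linarith⟩
    have a0 := nonneg h hc (t := b) (by linarith) hs b ⟨hb.1.le, le_rfl⟩
    have a1 := (part2 h b bT sb).2.2.1
    have a2 : 0 < u b := (u_pos h b).2 (lt_of_le_of_ne a0 fun e'' => by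
      rw [(u_zero h b).2 e''.symm, abs_zero] at a1
      linarith)
    have a3 := dneg h b bT sb a2
    obtain ⟨y, hy1, hy2⟩ := ((up_right (h.ds b).neg (by linarith)).and (Ioo_mem_nhdsGT e')).exists
    refine Or.inr ⟨y, ⟨hb.1.le.trans hy2.1.le, hy2.2.le⟩, ?_⟩
    simp only [Pi.neg_apply] at hy1
    linarith

end Col

theorem col : COL := fun _ _ _ _ _ _ _ _ _ _ h hc hc' =>
  ⟨Col.part1 h hc hc', Col.part2 h, Col.part3 h hc hc', Col.part4 h hc hc', Col.part5 h⟩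

end Vale.Agent.P134B
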