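import Vale.Agent.P134B.Spec

/-!
# P134B, row CS: integrals over a column
-/

open MeasureTheory Metric Filter Topology Set

noncomputable section

namespace Vale.Agent.P134B

namespace Cs

variable {ε δ T c b B : ℝ} {ψ s d q u f χ χ' g : ℝ → ℝ}

theorem iv_sub : Iv s T c ⊆ Icc (-T) T := fun _ ht => abs_le.1 ht.1.le

theorem iv_oc : (Iv s T c).OrdConnected := ⟨fun x hx y hy t ht =>
  ⟨abs_lt.2 ⟨(abs_lt.1 hx.1).1.trans_le ht.1, ht.2.trans_lt (abs_lt.1 hy.1).2⟩, fun t' h => by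
    rcases le_total 0 t with h0 | h0
    · rw [uIcc_of_le h0] at h
      exact hy.2 t' (by rw [uIcc_of_le (h0.trans ht.2)]; exact ⟨h.1, h.2.trans ht.2⟩)
    · rw [uIcc_of_ge h0] at h
      exact hx.2 t' (by rw [uIcc_of_ge (ht.1.trans h0)]; exact ⟨ht.1.trans h.1, h.2⟩)⟩⟩

theorem iv_meas : MeasurableSet (Iv s T c) := iv_oc.measurableSet

theorem iv_neg : Neg.neg ⁻¹' Iv s T c = Iv (fun t => s (-t)) T c := by
  ext t
  simp only [Iv, mem_preimage, mem_ofPred_eq, abs_neg]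
  refine and_congr_right fun _ => ⟨fun h t' k => h _ ?_, fun h t' k => ?_⟩
  · rw [mem_uIcc] at k ⊢
    rcases k with k | k
    · right; constructor <;> linarith [k.1, k.2]
    · left; constructor <;> linarith [k.1, k.2]
  · rw [← neg_neg t']
    refine h _ ?_
    rw [mem_uIcc] at k ⊢
    rcases k with k | k
    · right; constructor <;> linarith [k.1, k.2]
    · left; constructor <;> linarith [k.1, k.2]

theorem intOn (hg : Continuous g) {A : Set ℝ} (hA : A ⊆ Iv s T c) : IntegrableOn g A :=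
  hg.integrableOn_Icc.mono_set (hA.trans iv_sub)

/-- the two halves -/
theorem halves {A : Set ℝ} (hg : IntegrableOn g A) :
    ∫ t in A, g t = (∫ t in A ∩ Ioi 0, g t) + ∫ t in Neg.neg ⁻¹' A ∩ Ioi 0, g (-t) := by
  rw [← integral_inter_add_sdiff (measurableSet_Ioi (a := (0 : ℝ))) hg, sdiff_eq, compl_Ioi,
    ← setIntegral_congr_set (ae_eq_set_inter (ae_eq_refl A) Iio_ae_eq_Iic),
    ← (Measure.measurePreserving_neg volume).setIntegral_preimage_emb
      (MeasurableEquiv.neg ℝ).measurableEmbedding g (A ∩ Iio 0)]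
  congr 3
  ext t
  simp

theorem short {A : Set ℝ} {M : ℝ} (hA : A ⊆ Icc b (b + 40)) (hM : 0 ≤ M) (h : ∀ t ∈ A, |g t| ≤ M) :
    |∫ t in A, g t| ≤ 40 * M := by
  have h1 : volume.real A ≤ 40 := by
    have := measureReal_mono (μ := volume) hA (by simp)
    rwa [Real.volume_real_Icc_of_le (by linarith), add_sub_cancel_left] at this
  have h2 := norm_setIntegral_le_of_norm_le_const (μ := volume) (f := g) (C := M)
    ((measure_mono hA).trans_lt (by simp)) h
  rw [Real.norm_eq_abs] at h2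
  nlinarith

/-- the primitive -/
def Ph (x : ℝ) : ℝ := (x - x ^ 3 / 3) / √2

theorem Ph_bd {x : ℝ} (h0 : 0 ≤ x) : 0 ≤ sg / 2 - Ph x ∧ sg / 2 - Ph x ≤ 2 * ((1 - x ^ 2) / √2) ^ 2 := by
  have h1 : (1 : ℝ) ≤ √2 := Real.one_le_sqrt.2 (by norm_num)
  have h2 : √2 * √2 = (2 : ℝ) := Real.mul_self_sqrt (by norm_num)
  have e : sg / 2 - Ph x = (1 - x) ^ 2 * (x + 2) / 3 / √2 := by
    rw [sg, Ph]
    field_simp
    linear_combination h2
  have h3 : 0 ≤ (1 - x) ^ 2 * (x + 2) / 3 := by positivity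
  rw [e, div_pow, Real.sq_sqrt (by norm_num)]
  refine ⟨by positivity, (div_le_self h3 h1).trans ?_⟩
  have h4 : (x + 2) / 3 ≤ (1 + x) ^ 2 := by nlinarith
  nlinarith [mul_le_mul_of_nonneg_left h4 (sq_nonneg (1 - x))]

theorem chi01 (h : Chi B χ χ') (x : ℝ) : 0 ≤ χ x ∧ χ x ≤ 1 := by
  have m : Monotone χ := monotone_of_deriv_nonneg (fun x => (h.dv x).differentiableAt)
    fun x => by rw [(h.dv x).deriv]; exact h.nn x
  exact ⟨(h.lo _ (min_le_right x _)).ge.trans (m (min_le_left _ _)),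
    (m (le_max_left _ _)).trans (h.hi _ (le_max_right x _)).le⟩

theorem chi_c (h : Chi B χ χ') : Continuous χ :=
  continuous_iff_continuousAt.2 fun x => (h.dv x).continuousAt

section ln

variable (h : Ln ε δ T ψ s d q u f)
include h

theorem cs : Continuous s := continuous_iff_continuousAt.2 fun x => (h.ds x).continuousAt
theorem cu : Continuous u := continuous_iff_continuousAt.2 fun x => (h.du x).continuousAt
theorem cf : Continuous f := by
  have := cu h
  rw [show f = _ from funext h.fe]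
  fun_prop

theorem s1 (t : ℝ) : |s t| ≤ 1 := abs_le_one_iff_mul_self_le_one.2 (by nlinarith [h.sq t, h.q0 t])

theorem f0 (t : ℝ) : 0 < f t := lt_of_lt_of_le (by positivity) (h.flo t)

theorem ftc (m : ℝ) : ∫ t in (0 : ℝ)..m, f t ^ 2 * s t = Ph (u m) := by
  have h0 : u 0 = 0 := by rw [h.th, h.ψ0]; simp
  have := cs h
  have := cf h
  rw [intervalIntegral.integral_eq_sub_of_hasDerivAt (f := fun t => Ph (u t))
    (fun t _ => ?_) (Continuous.intervalIntegrable (by fun_prop) _ _), h0]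
  · simp [Ph]
  · refine (((h.du t).sub (((h.du t).pow 3).div_const 3)).div_const √2).congr_deriv ?_
    rw [sq, h.fe t]
    simp only [Nat.cast_ofNat]
    ring

theorem c_kp (hχ : Chi B χ χ') : Continuous fun t => kp (t / T) * χ (s t) * (f t ^ 2 * s t) := by
  have := cs h
  have := cf h
  have := chi_c hχ
  have := kp.continuous
  fun_prop

variable (hb : Cl ε T c b ψ s q u f)
include hb

omit h in
theorem u0 (hu : Continuous u) {m : ℝ} (hm : m ∈ Icc 0 b) : 0 ≤ u m := by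
  rw [← closure_Ioo hb.b0.ne] at hm
  exact (isClosed_le continuous_const hu).closure_subset_iff.2
    (fun t ht => (hb.ps t (hb.lo t ⟨ht.1.le, ht.2⟩).1 ht.1).le) hm

omit h in
theorem split (hg : Continuous g) : ∫ t in Iv s T c ∩ Ioi 0, g t =
    (∫ t in (0 : ℝ)..b, g t) + ∫ t in Iv s T c ∩ Ici b, g t := by
  rw [intervalIntegral.integral_of_le hb.b0.le, integral_Ioc_eq_integral_Ioo,
    ← setIntegral_union (disjoint_left.2 fun t h1 h2 => h1.2.not_ge h2.2)
      (iv_meas.inter measurableSet_Ici) (intOn hg fun t ht => (hb.lo t ⟨ht.1.le, ht.2⟩).1)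
      (intOn hg inter_subset_left)]
  congr 2
  ext t
  refine ⟨fun k => ?_, fun k => ?_⟩
  · rcases lt_or_ge t b with h1 | h1
    exacts [Or.inl ⟨k.2, h1⟩, Or.inr ⟨k.1, h1⟩]
  · rcases k with k | k
    exacts [⟨(hb.lo t ⟨k.1.le, k.2⟩).1, k.1⟩, ⟨k.1, hb.b0.trans_le k.2⟩]

omit h in
theorem tail {A : Set ℝ} (hA : A ⊆ Iv s T c ∩ Ici b) (hg : ∀ t, |g t| ≤ f t ^ 2) :
    |∫ t in A, g t| ≤ 800 * ε ^ 2 :=
  (short (fun t ht => ⟨(hA ht).2, (hb.hi t (hA ht).1 (hA ht).2).2.1⟩) (by positivity)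
    fun t ht => (hg t).trans (hb.hi t (hA ht).1 (hA ht).2).2.2).trans_eq (by ring)

theorem h1 : ∫ t in Iv s T c ∩ Ioi 0, f t ^ 2 * max (s t) 0 ≤ sg / 2 + 800 * ε ^ 2 := by
  have := cs h
  have := cf h
  have a1 : ∫ t in (0 : ℝ)..b, f t ^ 2 * max (s t) 0 = Ph (u b) := by
    rw [← ftc h, intervalIntegral.integral_of_le hb.b0.le, intervalIntegral.integral_of_le hb.b0.le,
      integral_Ioc_eq_integral_Ioo, integral_Ioc_eq_integral_Ioo]
    refine setIntegral_congr_fun measurableSet_Ioo fun t ht => ?_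
    rw [max_eq_left (by linarith [(hb.lo t ⟨ht.1.le, ht.2⟩).2])]
  have a2 := tail hb (g := fun t => f t ^ 2 * max (s t) 0) Subset.rfl fun t => by
    rw [abs_of_nonneg (by positivity)]
    exact mul_le_of_le_one_right (sq_nonneg _) (max_le (abs_le.1 (s1 h t)).2 zero_le_one)
  rw [split hb (by fun_prop), a1]
  linarith [(Ph_bd (u0 hb (cu h) ⟨hb.b0.le, le_rfl⟩)).1, (abs_le.1 a2).2]

theorem h2 : ∫ t in Iv s T c ∩ Ioi 0, f t ≤ Real.exp 120 := by
  have i := (integrableOn_exp_neg_Ioi 0).const_mul (Real.exp 120)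
  calc _ ≤ ∫ t in Iv s T c ∩ Ioi 0, Real.exp 120 * Real.exp (-t) :=
        setIntegral_mono_on (intOn (cf h) inter_subset_left)
          (IntegrableOn.mono_set i inter_subset_right) (iv_meas.inter measurableSet_Ioi)
          fun t ht => hb.dc t ht.1 ht.2.le
    _ ≤ ∫ t in Ioi 0, Real.exp 120 * Real.exp (-t) :=
        setIntegral_mono_set i (Eventually.of_forall fun t => by positivity)
          inter_subset_right.eventuallyLE
    _ = _ := by rw [integral_const_mul, integral_exp_neg_Ioi_zero, mul_one]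

omit h in
theorem h3 : ∫ t in Iv s T c ∩ {t | s t ≤ 9 / 10} ∩ Ioi 0, f t ^ 2 ≤ 800 * ε ^ 2 :=
  (le_abs_self _).trans (tail hb (fun t ht => ⟨ht.1.1, not_lt.1 fun k =>
    (hb.lo t ⟨ht.2.le, k⟩).2.not_ge ht.1.2⟩) fun _ => (abs_of_nonneg (sq_nonneg _)).le)

theorem h5 (hχ : Chi B χ χ') :
    |(∫ t in Iv s T c ∩ Ioi 0, kp (t / T) * χ (s t) * (f t ^ 2 * s t)) - sg / 2| ≤
      840 * ε ^ 2 + 2 * Real.exp 120 ^ 2 * Real.exp (-T) := by
  have hc := c_kp h hχ
  have := cs h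
  have := cf h
  have T0 : 0 < T := one_pos.trans_le h.T1
  have a2 := tail hb (g := fun t => kp (t / T) * χ (s t) * (f t ^ 2 * s t)) Subset.rfl fun t => by
    rw [abs_mul, abs_mul (f t ^ 2), abs_of_nonneg (sq_nonneg (f t)),
      abs_of_nonneg (mul_nonneg kp.nonneg (chi01 hχ _).1)]
    exact (mul_le_of_le_one_left (by positivity) (mul_le_one₀ kp.le_one (chi01 hχ _).1
      (chi01 hχ _).2)).trans (mul_le_of_le_one_right (sq_nonneg _) (s1 h t))
  have p : ∀ t ∈ Ioo 0 b, χ (s t) = 1 ∧ 0 ≤ f t ^ 2 * s t := fun t ht => by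
    have := (hb.lo t ⟨ht.1.le, ht.2⟩).2
    exact ⟨hχ.hi _ this.le, mul_nonneg (sq_nonneg _) (by linarith)⟩
  have a3 : ∫ t in (0 : ℝ)..b, kp (t / T) * χ (s t) * (f t ^ 2 * s t) ≤ Ph (u b) := by
    rw [← ftc h]
    refine intervalIntegral.integral_mono_on_of_le_Ioo hb.b0.le (hc.intervalIntegrable _ _)
      (Continuous.intervalIntegrable (by fun_prop) _ _) fun t ht => ?_
    rw [(p t ht).1, mul_one]
    exact mul_le_of_le_one_left (p t ht).2 kp.le_one
  obtain ⟨m, m0, m1, m2, m3⟩ : ∃ m, 0 ≤ m ∧ m ≤ b ∧ m ≤ T / 2 ∧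
      f m ^ 2 ≤ 20 * ε ^ 2 + Real.exp 120 ^ 2 * Real.exp (-T) := by
    rcases le_or_gt b (T / 2) with k | k
    · refine ⟨b, hb.b0.le, le_rfl, k, le_add_of_le_of_nonneg (hb.tp.resolve_left ?_) (by positivity)⟩
      linarith
    · refine ⟨T / 2, by linarith, k.le, le_rfl, le_add_of_nonneg_of_le (by positivity) ?_⟩
      refine (pow_le_pow_left₀ (f0 h _).le
        (hb.dc _ (hb.lo _ ⟨by linarith, k⟩).1 (by linarith)) 2).trans_eq ?_
      rw [mul_pow, sq (Real.exp (-(T / 2))), ← Real.exp_add]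
      congr 2
      ring
  have a4 : Ph (u m) ≤ ∫ t in (0 : ℝ)..b, kp (t / T) * χ (s t) * (f t ^ 2 * s t) := by
    rw [← intervalIntegral.integral_add_adjacent_intervals (hc.intervalIntegrable 0 m)
      (hc.intervalIntegrable m b), ← ftc h]
    refine le_add_of_le_of_nonneg (intervalIntegral.integral_mono_on_of_le_Ioo m0
      (Continuous.intervalIntegrable (by fun_prop) _ _) (hc.intervalIntegrable _ _) fun t ht => ?_) ?_
    · rw [(p t ⟨ht.1, ht.2.trans_le m1⟩).1, kp.one_of_mem_closedBall, one_mul, one_mul]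
      rw [mem_closedBall_zero_iff, Real.norm_of_nonneg (div_nonneg ht.1.le T0.le), div_le_iff₀ T0]
      change t ≤ 1 / 2 * T
      linarith [ht.2]
    · have := intervalIntegral.integral_mono_on_of_le_Ioo m1 (intervalIntegrable_const (c := 0) (μ := volume))
        (hc.intervalIntegrable m b) fun t ht => mul_nonneg (mul_nonneg kp.nonneg (chi01 hχ _).1)
          (p t ⟨m0.trans_lt ht.1, ht.2⟩).2
      simpa using this
  have a5 := (Ph_bd (u0 hb (cu h) ⟨hb.b0.le, le_rfl⟩)).1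
  have a6 := (Ph_bd (u0 hb (cu h) ⟨m0, m1⟩)).2
  rw [← h.fe] at a6
  have a7 : 0 ≤ Real.exp 120 ^ 2 * Real.exp (-T) := by positivity
  rw [split hb hc, abs_le]
  rw [abs_le] at a2
  constructor <;> nlinarith [sq_nonneg ε, a2.1, a2.2]

end ln

end Cs

open Cs in
/-- **CS** -/
theorem cs : rCS := by
  intro sym col
  have X1 : 1 ≤ Real.exp 120 := Real.one_le_exp (by norm_num)
  refine ⟨2000 + 4 * Real.exp 120 ^ 2, fun ε δ T c ψ s d q u f h c0 c1 => ?_⟩
  have h' := sym.2 ε δ T ψ s d q u f h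
  obtain ⟨b, hb⟩ := (col ε δ T c ψ s d q u f h c0 c1).1
  obtain ⟨a, ha⟩ := (col ε δ T c _ _ _ _ _ _ h' c0 c1).1
  have := Cs.cs h
  have := cf h
  have e0 := sq_nonneg ε
  have e1 : 0 ≤ Real.exp 120 ^ 2 * ε ^ 2 := by positivity
  refine ⟨iv_meas, ?_, ?_, ?_, fun t ht => ?_, fun B χ χ' hχ => ?_⟩
  · rw [halves (g := fun t => f t ^ 2 * max (s t) 0) (intOn (by fun_prop) Subset.rfl), iv_neg]
    linarith [h1 h hb, h1 h' ha]
  · rw [halves (intOn (cf h) Subset.rfl), iv_neg]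
    nlinarith [h2 h hb, h2 h' ha]
  · rw [halves (g := fun t => f t ^ 2) (intOn (by fun_prop) inter_subset_left), preimage_inter,
      iv_neg]
    have k := h3 ha
    have k' := h3 hb
    change ∫ t in Iv (fun t => s (-t)) T c ∩ Neg.neg ⁻¹' {t | s t ≤ 9 / 10} ∩ Ioi 0,
      f (-t) ^ 2 ≤ _ at k
    linarith
  · have k : f t ≤ Real.exp 120 * Real.exp (-|t|) := by
      rcases le_total 0 t with k | k
      · rw [abs_of_nonneg k]; exact hb.dc t ht k
      · rw [abs_of_nonpos k]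
        simpa using ha.dc (-t) (by rw [← iv_neg]; simpa using ht) (by linarith)
    exact k.trans (mul_le_mul_of_nonneg_right (by nlinarith) (Real.exp_pos _).le)
  · obtain ⟨b, hb⟩ := (col ε δ T _ ψ s d q u f h le_rfl (by norm_num)).1
    obtain ⟨a, ha⟩ := (col ε δ T _ _ _ _ _ _ _ h' le_rfl (by norm_num)).1
    have k := abs_le.1 (h5 h hb hχ)
    have k' := abs_le.1 (h5 h' ha hχ)
    rw [halves (intOn (c_kp h hχ) Subset.rfl), iv_neg, abs_le]
    simp only [neg_div T, kp.neg]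
    have := Real.exp_pos (-T)
    constructor <;> nlinarith [k.1, k.2, k'.1, k'.2]

end Vale.Agent.P134B
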