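import Vale.Agent.P134B.Spec2

/-!
# P134B: convex functions of a component of the gradient
-/

set_option linter.all false

open MeasureTheory Metric Filter Topology Set
open scoped ContDiff RealInnerProductSpace
open Vale.Agent.P366.Stmt (E)
open Vale.Agent.P366W

noncomputable section

namespace Vale.Agent.P134B

namespace CV

variable {n : ℕ}

theorem Lf_congr (u : E n → ℝ) {M N : E n → ℝ} {x : E n} (h : M =ᶠ[𝓝 x] N) :
    Lf u M x = Lf u N x := by
  rw [Lf, Lf, lap, lap, dvg_congr h.gradient, h.gradient_eq]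

theorem grad_comp {β : ℝ → ℝ} {s : E n → ℝ} {x : E n} (hβ : DifferentiableAt ℝ β (s x))
    (hs : DifferentiableAt ℝ s x) :
    gradient (fun y => β (s y)) x = deriv β (s x) • gradient s x := by
  refine ext_inner_right ℝ fun v => ?_
  have : fderiv ℝ (fun y => β (s y)) x = _ :=
    (hβ.hasDerivAt.comp_hasFDerivAt x hs.hasFDerivAt).fderiv
  rw [inner_grad, this, real_inner_smul_left, inner_grad]
  rfl

theorem Lf_comp (u : E n → ℝ) {β : ℝ → ℝ} {s : E n → ℝ} (hβ : ContDiff ℝ 2 β)
    (hs : ContDiff ℝ 2 s) (x : E n) : Lf u (fun y => β (s y)) x =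
      deriv β (s x) * Lf u s x + deriv (deriv β) (s x) * ‖gradient s x‖ ^ 2 := by
  have d1 := hβ.differentiable two_ne_zero
  have d2 : Differentiable ℝ (deriv β) :=
    (contDiff_succ_iff_deriv.1 (show ContDiff ℝ (1 + 1) β from hβ)).2.2.differentiable one_ne_zero
  have d3 := hs.differentiable two_ne_zero
  have d4 : Differentiable ℝ (gradient s) :=
    (contDiff_gradient (k := 1) hs).differentiable one_ne_zero
  have h1 : gradient (fun y => β (s y)) = fun y => deriv β (s y) • gradient s y :=
    funext fun y => grad_comp (d1 _) (d3 y)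
  rw [Lf, Lf, lap, lap, h1, dvg_smul (f := fun y => deriv β (s y)) ((d2 _).comp x (d3 x)) (d4 x),
    ← inner_grad, grad_comp (d2 _) (d3 x), real_inner_smul_left, real_inner_smul_right,
    real_inner_self_eq_norm_sq]
  ring

end CV

theorem cv : CV := by
  intro n C τ u M e x β h hτ hβ hM h1
  have hs : ContDiff ℝ 2 (pe u e) :=
    ((smooth_gradient h.smp).inner ℝ contDiff_const).of_le (WithTop.coe_le_coe.2 (le_top (a := 2)))
  refine ⟨(hβ.c2.comp hs).contDiffAt.congr_of_eventuallyEq hM, ?_⟩
  have hP : 0 ≤ PP u x :=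
    mul_nonneg (mul_nonneg (by positivity) (le_trans (by positivity) (h.flo x))) (h.q0 x)
  rw [CV.Lf_congr u hM, CV.Lf_comp u hβ.c2 hs, h.jac, h.gp, hM.self_of_nhds]
  have h2 := mul_le_mul_of_nonneg_left (hβ.tg (pe u e x)) (mul_nonneg (hβ.nn (pe u e x)) hP)
  have h3 := mul_le_of_le_one_left (mul_nonneg hτ hP) h1
  simp only
  linarith

end Vale.Agent.P134B
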