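import Vale.Agent.P134B.Spec2

/-!
# P134B: the stress tensor has no divergence
-/

open MeasureTheory Metric Filter Topology Set
open scoped ContDiff RealInnerProductSpace
open Vale.Agent.P366.Stmt (E)
open Vale.Agent.P366W

noncomputable section

namespace Vale.Agent.P134B

namespace Divt

variable {n : ℕ} {C : ℝ} {u : E n → ℝ}

theorem smf (h : Ok C u) : ContDiff ℝ ∞ (ff u) := (contDiff_const.sub (h.sm.pow 2)).div_const _

theorem smp (h : Ok C u) : ContDiff ℝ ∞ (pp u) := smooth_gradient h.smp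

theorem smq (h : Ok C u) : ContDiff ℝ ∞ (qq u) := contDiff_const.sub ((smp h).norm_sq ℝ)

theorem sms (h : Ok C u) (e : E n) : ContDiff ℝ ∞ (pe u e) := (smp h).inner ℝ contDiff_const

theorem smc (h : Ok C u) : ContDiff ℝ ∞ fun x => 1 - qq u x / 2 :=
  contDiff_const.sub ((smq h).div_const _)

theorem smY (h : Ok C u) (e : E n) :
    ContDiff ℝ ∞ fun x => pe u e x • pp u x - (1 - qq u x / 2) • e :=
  ((sms h e).smul (smp h)).sub ((smc h).smul contDiff_const)

theorem d1 (h : Ok C u) (e x : E n) :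
    dvg (fun x => pe u e x • pp u x) x =
      pe u e x * -(√2 * u x * qq u x) + ⟪SS u x e, pp u x⟫ := by
  rw [dvg_smul ((sms h e).differentiable (by simp) x) ((smp h).differentiable (by simp) x),
    ← inner_grad, h.gp, dvg_eq, ← h.tr]
  rfl

theorem d2 (h : Ok C u) (e x : E n) :
    dvg (fun x => (1 - qq u x / 2) • e) x = ⟪SS u x e, pp u x⟫ := by
  have h1 : HasFDerivAt (fun x => 1 - qq u x / 2) (-((2 : ℝ)⁻¹ • fderiv ℝ (qq u) x)) x := by
    have := (((smq h).differentiable (by simp) x).hasFDerivAt.const_smul (2 : ℝ)⁻¹).const_sub 1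
    refine this.congr_of_eventuallyEq (Eventually.of_forall fun y => ?_)
    simp [div_eq_inv_mul]
  have h2 : dvg (fun _ : E n => e) x = 0 := by simp [dvg]
  rw [dvg_smul h1.differentiableAt (differentiableAt_const e), h2, h1.fderiv]
  simp only [neg_apply, smul_apply, ← inner_grad, h.gq,
    real_inner_smul_left, smul_eq_mul]
  rw [h.sy, real_inner_comm]
  ring

theorem d3 (h : Ok C u) (x v : E n) :
    fderiv ℝ (fun x => ff u x ^ 2) x v = -(2 * √2 * u x * ff u x ^ 2) * ⟪pp u x, v⟫ := by
  have h1 := ((smf h).differentiable (by simp) x).hasFDerivAt.pow 2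
  rw [h1.fderiv]
  simp only [smul_apply, ← inner_grad, h.gf, real_inner_smul_left,
    smul_eq_mul, nsmul_eq_mul]
  push_cast
  ring

end Divt

open Divt in
theorem divt : DIVT := by
  intro n C u e h
  have h0 : ContDiff ℝ ∞ fun x => ff u x ^ 2 := (smf h).pow 2
  refine ⟨(h0.smul (smY h e)).of_le (by simp), fun x => ?_⟩
  have h1 : Te u e = fun x => ff u x ^ 2 • (pe u e x • pp u x - (1 - qq u x / 2) • e) := rfl
  have h2 : ContDiff ℝ ∞ fun x => pe u e x • pp u x := (sms h e).smul (smp h)
  have h3 : ContDiff ℝ ∞ fun x => (1 - qq u x / 2) • e := (smc h).smul contDiff_const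
  rw [h1, dvg_smul (h0.differentiable (by simp) x) ((smY h e).differentiable (by simp) x),
    dvg_sub (h2.differentiable (by simp) x) (h3.differentiable (by simp) x), d1 h, d2 h, d3 h,
    inner_sub_right, real_inner_smul_right, real_inner_smul_right, real_inner_self_eq_norm_sq]
  have h4 : ‖pp u x‖ ^ 2 = 1 - qq u x := by simp [qq]
  have h5 : ⟪pp u x, e⟫ = pe u e x := rfl
  rw [h4, h5]
  ring

end Vale.Agent.P134B
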