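import Mathlib
import Vale.Agent.P366W.Gdiv

/-!
# P134B: the blow-up of stable solutions of the equation of Allen and Cahn, common objects

`ps = g⁻¹(u)`, `ff = g'(ps)`, `pp = ∇ ps`, `SS = D² ps`, `qq = 1 - |pp|²`, `EE = ff² qq`.
-/

open MeasureTheory Metric Filter Topology Set
open scoped ContDiff RealInnerProductSpace Laplacian
open Vale.Agent.P366.Stmt (E)
open Vale.Agent.P366W (Fr adj dvg trc)

noncomputable section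

namespace Vale.Agent.P134B

variable {n m : ℕ}

/-- a solution with values in the open interval -/
structure AC (u : E n → ℝ) : Prop where
  c2 : ContDiff ℝ 2 u
  lt : ∀ x, |u x| < 1
  eq : ∀ x, Δ u x = u x ^ 3 - u x

/-- stability -/
def Stab (u : E n → ℝ) : Prop := ∀ φ : E n → ℝ, ContDiff ℝ 1 φ → HasCompactSupport φ →
  0 ≤ ∫ x, (‖gradient φ x‖ ^ 2 + (3 * u x ^ 2 - 1) * φ x ^ 2)

def ps (u : E n → ℝ) (x : E n) : ℝ := (Real.log (1 + u x) - Real.log (1 - u x)) / √2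
def ff (u : E n → ℝ) (x : E n) : ℝ := (1 - u x ^ 2) / √2
def pp (u : E n → ℝ) (x : E n) : E n := gradient (ps u) x
def SS (u : E n → ℝ) (x : E n) : E n →L[ℝ] E n := fderiv ℝ (pp u) x
def qq (u : E n → ℝ) (x : E n) : ℝ := 1 - ‖pp u x‖ ^ 2
def EE (u : E n → ℝ) (x : E n) : ℝ := ff u x ^ 2 * qq u x
/-- the potential -/
def PP (u : E n → ℝ) (x : E n) : ℝ := √2 * ff u x * qq u x
/-- the component of `pp` in the direction `e` -/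
def pe (u : E n → ℝ) (e x : E n) : ℝ := ⟪pp u x, e⟫
def lap (φ : E n → ℝ) (x : E n) : ℝ := dvg (gradient φ) x
/-- the Laplacian with the weight `ff²` -/
def Lf (u φ : E n → ℝ) (x : E n) : ℝ := lap φ x - 2 * √2 * u x * ⟪pp u x, gradient φ x⟫
/-- the square of the norm of Hilbert and Schmidt -/
def hs (A : E n →L[ℝ] E n) : ℝ := ∑ i, ‖A (EuclideanSpace.single i 1)‖ ^ 2
/-- the energy of the one-dimensional solution -/
def sg : ℝ := 2 * √2 / 3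
/-- the logarithmic scale -/
def lg (ε : ℝ) : ℝ := -Real.log ε

/-- all the pointwise facts about a solution -/
structure Ok (C : ℝ) (u : E n → ℝ) : Prop where
  C1 : 1 ≤ C
  sm : ContDiff ℝ ∞ u
  lt : ∀ x, |u x| < 1
  eq : ∀ x, lap u x = u x ^ 3 - u x
  smp : ContDiff ℝ ∞ (ps u)
  th : ∀ x, u x = Real.tanh (ps u x / √2)
  flo : ∀ x, Real.exp (-(√2 * |ps u x|)) / √2 ≤ ff u x
  fhi : ∀ x, ff u x ≤ 2 * √2 * Real.exp (-(√2 * |ps u x|))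
  gu : ∀ x, gradient u x = ff u x • pp u x
  gf : ∀ x, gradient (ff u) x = (-(√2 * u x * ff u x)) • pp u x
  tr : ∀ x, trc (SS u x) = -(√2 * u x * qq u x)
  sy : ∀ x v w, ⟪SS u x v, w⟫ = ⟪v, SS u x w⟫
  q0 : ∀ x, 0 ≤ qq u x
  gq : ∀ x, gradient (qq u) x = (-2 : ℝ) • SS u x (pp u x)
  gp : ∀ e x, gradient (pe u e) x = SS u x e
  jac : ∀ e x, Lf u (pe u e) x = -(PP u x * pe u e x)
  lE : ∀ x, lap (EE u) x + 2 * √2 * u x * ⟪pp u x, gradient (EE u) x⟫ =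
    2 * ff u x ^ 2 * (trc (SS u x) ^ 2 - hs (SS u x))
  S0 : ∀ x, ‖SS u x‖ ≤ C * √(qq u x)
  S1 : ∀ x, ‖fderiv ℝ (SS u) x‖ ≤ C * √(qq u x)
  S2 : ∀ x, ‖fderiv ℝ (SS u) x (pp u x)‖ ≤ C * qq u x
  q1 : ∀ x, ‖gradient (qq u) x‖ ≤ C * qq u x
  q2 : ∀ x, ‖fderiv ℝ (gradient (qq u)) x‖ ≤ C * qq u x
  dec : ∀ x r, 0 ≤ r → (∀ y ∈ ball x r, u y ≠ 0) → ff u x ≤ C * Real.exp (-r)

/-- the good region -/
def Gd (u : E n → ℝ) (ε : ℝ) (z : E n) (R : ℝ) : Prop := ∀ x ∈ ball z R, EE u x ≤ ε ^ 2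

/-- the zero set is flat -/
def Fl (u : E n → ℝ) (l : ℝ) (z : E n) (R : ℝ) : Prop := ∀ x ∈ ball z R, u x = 0 → ‖SS u x‖ ≤ l

/-- at `x` the solution is one-dimensional in the direction `e` up to the error `δ` -/
structure Zn (δ : ℝ) (u : E n → ℝ) (e x : E n) : Prop where
  t0 : ‖pp u x - pe u e x • e‖ ≤ δ
  t1 : ∀ τ, ⟪τ, e⟫ = 0 → ‖SS u x τ‖ ≤ δ * ‖τ‖
  t2 : |⟪SS u x e, e⟫ + √2 * u x * qq u x| ≤ δ
  t3 : qq u x ≤ δ ∨ 1 - δ ≤ |u x|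

/-- the point with the coordinates `(y, t)` -/
def pt (z e : E (m + 1)) (L : E m →ₗᵢ[ℝ] E (m + 1)) (y : E m) (t : ℝ) : E (m + 1) :=
  z + L y + t • e

/-- a sheet of the zero set is the graph of `h` over the ball of radius `r`, with tilt `θ` -/
structure Gr (u : E (m + 1) → ℝ) (z e : E (m + 1)) (L : E m →ₗᵢ[ℝ] E (m + 1)) (r : ℝ)
    (h : E m → ℝ) (θ : ℝ) : Prop where
  fr : Fr e L
  sm : ContDiff ℝ ∞ h
  ze : ∀ y ∈ ball (0 : E m) r, u (pt z e L y (h y)) = 0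
  ti : ∀ y ∈ ball (0 : E m) r, ‖pp u (pt z e L y (h y)) - e‖ ≤ θ

/-- a layer: a sheet together with the window of height `T` around it -/
structure Lay (C ε δ : ℝ) (u : E (m + 1) → ℝ) (z e : E (m + 1)) (L : E m →ₗᵢ[ℝ] E (m + 1))
    (r : ℝ) (h : E m → ℝ) (T : ℝ) : Prop where
  ok : Ok C u
  gr : Gr u z e L r h δ
  e0 : 0 < ε
  e1 : ε ≤ 1
  d0 : 0 < δ
  d1 : δ ≤ 1 / 1000
  T1 : 1 ≤ T
  zn : ∀ y ∈ ball (0 : E m) r, ∀ t, |t| ≤ T → Zn δ u e (pt z e L y (h y + t))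
  gd : ∀ y ∈ ball (0 : E m) r, ∀ t, |t| ≤ T → EE u (pt z e L y (h y + t)) ≤ ε ^ 2

/-- the open window -/
def Wn (z e : E (m + 1)) (L : E m →ₗᵢ[ℝ] E (m + 1)) (r : ℝ) (h : E m → ℝ) (T : ℝ) :
    Set (E (m + 1)) :=
  {x | ‖adj L (x - z)‖ < r ∧ |⟪e, x - z⟫ - h (adj L (x - z))| < T}

/-- the points of the window that are seen from the sheet above the threshold `c` -/
def Wr (u : E (m + 1) → ℝ) (z e : E (m + 1)) (L : E m →ₗᵢ[ℝ] E (m + 1)) (r : ℝ) (h : E m → ℝ)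
    (T c : ℝ) : Set (E (m + 1)) :=
  {x | x ∈ Wn z e L r h T ∧ ∀ t ∈ uIcc (h (adj L (x - z))) ⟪e, x - z⟫,
    c < pe u e (pt z e L (adj L (x - z)) t)}

/-- the cut-off in the height -/
def kp : ContDiffBump (0 : ℝ) := ⟨1 / 2, 3 / 4, by norm_num, by norm_num⟩

def cut (z e : E (m + 1)) (L : E m →ₗᵢ[ℝ] E (m + 1)) (h : E m → ℝ) (T : ℝ) (x : E (m + 1)) : ℝ :=
  kp ((⟪e, x - z⟫ - h (adj L (x - z))) / T)

/-- the horizontal part of the unit normal of a graph -/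
def Nn (a : E m) : E m := (√(1 + ‖a‖ ^ 2))⁻¹ • a

/-- the operator of the minimal surfaces -/
def mc (h : E m → ℝ) (y : E m) : ℝ := lap h y -
  ⟪fderiv ℝ (gradient h) y (gradient h y), gradient h y⟫ / (1 + ‖gradient h y‖ ^ 2)

/-- the data along a vertical line, the sheet is at `t = 0` -/
structure Ln (ε δ T : ℝ) (ψ s d q u f : ℝ → ℝ) : Prop where
  e0 : 0 < ε
  e1 : ε ≤ 1
  d0 : 0 < δ
  d1 : δ ≤ 1 / 1000
  T1 : 1 ≤ T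
  dψ : ∀ t, HasDerivAt ψ (s t) t
  ds : ∀ t, HasDerivAt s (d t) t
  du : ∀ t, HasDerivAt u (f t * s t) t
  cd : Continuous d
  cq : Continuous q
  ψ0 : ψ 0 = 0
  s0 : 1 - δ ≤ s 0
  th : ∀ t, u t = Real.tanh (ψ t / √2)
  fe : ∀ t, f t = (1 - u t ^ 2) / √2
  flo : ∀ t, Real.exp (-(√2 * |ψ t|)) / √2 ≤ f t
  fhi : ∀ t, f t ≤ 2 * √2 * Real.exp (-(√2 * |ψ t|))
  q0 : ∀ t, 0 ≤ q t
  sq : ∀ t, s t ^ 2 + q t ≤ 1
  t0 : ∀ t, |t| ≤ T → 1 - δ ^ 2 ≤ s t ^ 2 + q t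
  t2 : ∀ t, |t| ≤ T → |d t + √2 * u t * q t| ≤ δ
  t3 : ∀ t, |t| ≤ T → q t ≤ δ ∨ 1 - δ ≤ |u t|
  gd : ∀ t, |t| ≤ T → f t ^ 2 * q t ≤ ε ^ 2

/-- the heights that are seen from the sheet above the threshold `c` -/
def Iv (s : ℝ → ℝ) (T c : ℝ) : Set ℝ := {t | |t| < T ∧ ∀ t' ∈ uIcc 0 t, c < s t'}

/-- the profile of the cut-off in the identity for the stress tensor -/
structure Chi (B : ℝ) (χ χ' : ℝ → ℝ) : Prop where
  dv : ∀ s, HasDerivAt χ (χ' s) s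
  ct : Continuous χ'
  nn : ∀ s, 0 ≤ χ' s
  le : ∀ s, χ' s ≤ B
  ev : ∀ s, χ' (-s) = χ' s
  lo : ∀ s, s ≤ -(9 / 10) → χ s = 0
  hi : ∀ s, 9 / 10 ≤ s → χ s = 1

/-- a convex profile of a test function -/
structure Cv (τ : ℝ) (β : ℝ → ℝ) : Prop where
  c2 : ContDiff ℝ 2 β
  nn : ∀ s, 0 ≤ β s
  cv : ∀ s, 0 ≤ deriv (deriv β) s
  tg : ∀ s, -τ ≤ β s - s * deriv β s

/-- the profiles of the test function for a pair of layers -/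
structure Prf (τ B : ℝ) (β Λ χ χ' : ℝ → ℝ) : Prop where
  cβ : Cv τ β
  cΛ : Cv τ Λ
  β0 : ∀ s, s ≤ 0 → β s = 0
  β1 : ∀ s, 0 ≤ s → β s ≤ s
  Λ1 : ∀ s, |s| ≤ 1 → Λ s ≤ 1
  Λβ : ∀ s, 9 / 10 ≤ |s| → Λ s = β s + β (-s)
  ch : Chi B χ χ'
  gn : ∀ s, 3 / 2 * χ' s ≤ Λ s * deriv (deriv Λ) s

/-- the flux through the ridge above the sheet -/
def Eup (u : E (m + 1) → ℝ) (z e : E (m + 1)) (L : E m →ₗᵢ[ℝ] E (m + 1)) (r : ℝ) (h : E m → ℝ)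
    (T : ℝ) (χ' : ℝ → ℝ) (y : E m) : ℝ :=
  ∫ t in Ioi (0 : ℝ), (Wr u z e L r h T (-(19 / 20))).indicator
    (fun x => χ' (pe u e x) * -⟪SS u x e, e⟫ * EE u x) (pt z e L y (h y + t))

/-- the flux through the gap -/
def Eg (u : E (m + 1) → ℝ) (z e : E (m + 1)) (L : E m →ₗᵢ[ℝ] E (m + 1)) (h₀ h₁ : E m → ℝ)
    (χ' : ℝ → ℝ) (y : E m) : ℝ :=
  ∫ t in h₀ y..h₁ y, (fun x => χ' (pe u e x) * -⟪SS u x e, e⟫ * EE u x) (pt z e L y t)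

/-- two adjacent layers -/
structure Pair (C ε δ : ℝ) (u : E (m + 1) → ℝ) (z e : E (m + 1)) (L : E m →ₗᵢ[ℝ] E (m + 1))
    (r : ℝ) (h₀ h₁ : E m → ℝ) (T : ℝ) : Prop where
  l0 : Lay C ε δ u z e L r h₀ T
  l1 : Lay C ε δ u z (-e) L r (fun y => -h₁ y) T
  lt : ∀ y ∈ ball (0 : E m) r, h₀ y < h₁ y
  ne : ∀ y ∈ ball (0 : E m) r, h₁ y - h₀ y ≤ T / 8 → ∀ t ∈ Ioo (h₀ y) (h₁ y), u (pt z e L y t) ≠ 0

/-- test functions on the base with the support in `U` -/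
structure Tf (U : Set (E m)) (Ψ : E m → ℝ) : Prop where
  c1 : ContDiff ℝ 1 Ψ
  cs : HasCompactSupport Ψ
  su : tsupport Ψ ⊆ U

end Vale.Agent.P134B
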