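import Vale.Agent.P134B.Spec2

/-!
# P134B, row EG: the flux through the gap
-/

open MeasureTheory Metric Filter Topology Set
open scoped ContDiff RealInnerProductSpace
open Vale.Agent.P366.Stmt (E)
open Vale.Agent.P366W (Fr adj smooth_gradient)

noncomputable section

namespace Vale.Agent.P134B

namespace EGp

variable {ε δ T B φ : ℝ} {ψ s d q u f χ χ' : ℝ → ℝ}

theorem chi_zero (X : Chi B χ χ') {a : ℝ} (ha : 9 / 10 < |a|) : χ' a = 0 := by
  have key : ∀ a, 9 / 10 < a → χ' a = 0 := fun a ha => by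
    have : χ =ᶠ[𝓝 a] fun _ => (1 : ℝ) := by
      filter_upwards [Ioi_mem_nhds ha] with b hb using X.hi b (le_of_lt hb)
    exact (X.dv a).unique ((hasDerivAt_const a 1).congr_of_eventuallyEq this)
  rcases abs_cases a with h | h
  · exact key a (h.1 ▸ ha)
  · rw [← X.ev]; exact key _ (h.1 ▸ ha)

theorem cs (H : Ln ε δ T ψ s d q u f) : Continuous s :=
  continuous_iff_continuousAt.2 fun t => (H.ds t).continuousAt

theorem cu (H : Ln ε δ T ψ s d q u f) : Continuous u :=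
  continuous_iff_continuousAt.2 fun t => (H.du t).continuousAt

theorem cf (H : Ln ε δ T ψ s d q u f) : Continuous f := by
  rw [show f = fun t => (1 - u t ^ 2) / √2 from funext H.fe]
  exact (continuous_const.sub ((cu H).pow 2)).div_const _

theorem ck (H : Ln ε δ T ψ s d q u f) (X : Chi B χ χ') : Continuous fun t => χ' (s t) * -d t :=
  (X.ct.comp (cs H)).mul H.cd.neg

theorem cg (H : Ln ε δ T ψ s d q u f) (X : Chi B χ χ') :
    Continuous fun t => χ' (s t) * -d t * (f t ^ 2 * q t) :=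
  (ck H X).mul (((cf H).pow 2).mul H.cq)

theorem upos (col : COL) (H : Ln ε δ T ψ s d q u f) (ne : ∀ t ∈ Ioo 0 φ, u t ≠ 0) :
    ∀ t ∈ Ioo 0 φ, 0 < u t := by
  obtain ⟨b, hb⟩ := (col ε δ T (-(19 / 20)) ψ s d q u f H le_rfl (by norm_num)).1
  intro t ht
  by_contra h
  have h0 : 0 < min b t / 2 := half_pos (lt_min hb.b0 ht.1)
  have h1 : min b t / 2 < b := by linarith [min_le_left b t]
  have h2 : min b t / 2 < t := by linarith [min_le_right b t]
  have h3 := hb.ps _ (hb.lo _ ⟨h0.le, h1⟩).1 h0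
  obtain ⟨t', h4, h5⟩ := intermediate_value_Icc' h2.le (cu H).continuousOn
    (show (0 : ℝ) ∈ Icc (u t) (u (min b t / 2)) from ⟨not_lt.1 h, h3.le⟩)
  exact ne t' ⟨h0.trans_le h4.1, h4.2.trans_lt ht.2⟩ h5

theorem knn (col : COL) (H : Ln ε δ T ψ s d q u f) (X : Chi B χ χ') (hT : φ ≤ T / 8)
    (ne : ∀ t ∈ Ioo 0 φ, u t ≠ 0) : ∀ t ∈ Ioo 0 φ, 0 ≤ χ' (s t) * -d t := fun t ht => by
  by_cases h : 9 / 10 < |s t|
  · rw [chi_zero X h, zero_mul]
  have h1 := (col ε δ T (-(19 / 20)) ψ s d q u f H le_rfl (by norm_num)).2.1 t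
    (by rw [abs_of_pos ht.1]; linarith [ht.2, H.T1]) (by linarith [not_lt.1 h])
  refine mul_nonneg (X.nn _) (le_trans (mul_nonneg ?_ (H.q0 t)) (h1.2.2.2 (upos col H ne t ht)))
  have : (1 : ℝ) ≤ √2 := Real.one_le_sqrt.2 one_le_two
  linarith [H.d1]

theorem mem (col : COL) (H : Ln ε δ T ψ s d q u f) (hT : φ ≤ T / 8)
    (ne : ∀ t ∈ Ioo 0 φ, u t ≠ 0) {t : ℝ} (ht : t ∈ Ioo 0 φ) (hs : |s t| ≤ 9 / 10) :
    t ∈ Iv s T (-(19 / 20)) :=
  (col ε δ T (-(19 / 20)) ψ s d q u f H le_rfl (by norm_num)).2.2.1 t ht.1.le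
    (by linarith [ht.2, H.T1]) (fun t' h => ne t' ⟨h.1, h.2.trans_lt ht.2⟩)
    (by linarith [(abs_le.1 hs).1])

theorem up_le (col : COL) (H : Ln ε δ T ψ s d q u f) (X : Chi B χ χ') (h0 : 0 < φ)
    (hT : φ ≤ T / 8) (ne : ∀ t ∈ Ioo 0 φ, u t ≠ 0) (hs : s φ ≤ -(1 - δ)) :
    ∫ t in Ioi (0 : ℝ), (Iv s T (-(19 / 20))).indicator
      (fun t => χ' (s t) * -d t * (f t ^ 2 * q t)) t ≤
      ∫ t in (0 : ℝ)..φ, χ' (s t) * -d t * (f t ^ 2 * q t) := by
  have hn : ∀ t ∈ Ioo 0 φ, 0 ≤ χ' (s t) * -d t * (f t ^ 2 * q t) := fun t ht =>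
    mul_nonneg (knn col H X hT ne t ht) (mul_nonneg (sq_nonneg _) (H.q0 t))
  have hi : ∀ t ∈ Iv s T (-(19 / 20)), t < φ := fun t ht => by
    by_contra h
    have := ht.2 φ (Icc_subset_uIcc ⟨h0.le, not_lt.1 h⟩)
    linarith [H.d1]
  have hI : IntegrableOn (fun t => χ' (s t) * -d t * (f t ^ 2 * q t)) (Ioo 0 φ) :=
    ((cg H X).integrableOn_Icc).mono_set Ioo_subset_Icc_self
  rw [intervalIntegral.integral_of_le h0.le, integral_Ioc_eq_integral_Ioo,
    ← inter_eq_right.2 (Ioo_subset_Ioi_self : Ioo (0 : ℝ) φ ⊆ Ioi 0),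
    ← setIntegral_indicator measurableSet_Ioo]
  refine integral_mono_of_nonneg ?_ (hI.integrable_indicator measurableSet_Ioo).integrableOn ?_
  · filter_upwards [ae_restrict_mem measurableSet_Ioi] with t ht
    exact indicator_apply_nonneg fun h => hn t ⟨ht, hi t h⟩
  · filter_upwards [ae_restrict_mem measurableSet_Ioi] with t ht
    by_cases h : t ∈ Iv s T (-(19 / 20))
    · rw [indicator_of_mem h, indicator_of_mem (show t ∈ Ioo 0 φ from ⟨ht, hi t h⟩)]
    · rw [indicator_of_notMem h]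
      exact indicator_apply_nonneg (hn t)

theorem int_one (H : Ln ε δ T ψ s d q u f) (X : Chi B χ χ') (hs : s φ ≤ -(1 - δ)) :
    ∫ t in (0 : ℝ)..φ, χ' (s t) * -d t = 1 := by
  have := intervalIntegral.integral_eq_sub_of_hasDerivAt (a := 0) (b := φ)
    (f := fun t => -χ (s t)) (f' := fun t => χ' (s t) * -d t)
    (fun t _ => (((X.dv (s t)).comp t (H.ds t)).neg).congr_deriv (by ring))
    ((ck H X).intervalIntegrable _ _)
  rw [this, X.lo _ (by linarith [H.d1]), X.hi _ (by linarith [H.d1, H.s0])]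
  ring

theorem bds (col : COL) (H : Ln ε δ T ψ s d q u f) (X : Chi B χ χ') (h0 : 0 < φ)
    (hT : φ ≤ T / 8) (ne : ∀ t ∈ Ioo 0 φ, u t ≠ 0) (hs : s φ ≤ -(1 - δ)) (hψ : ψ φ = 0) :
    ∫ t in (0 : ℝ)..φ, χ' (s t) * -d t * (f t ^ 2 * q t) ≤ ε ^ 2 ∧
    1 / 40 * Real.exp (-(√2 * φ)) ≤ ∫ t in (0 : ℝ)..φ, χ' (s t) * -d t * (f t ^ 2 * q t) := by
  have e : ∀ c : ℝ, c = ∫ t in (0 : ℝ)..φ, χ' (s t) * -d t * c := fun c => by
    rw [intervalIntegral.integral_mul_const, int_one H X hs, one_mul]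
  have hab : ∀ t ∈ Ioo 0 φ, |t| ≤ T := fun t ht => by
    rw [abs_of_pos ht.1]; linarith [ht.2, H.T1]
  have hL : ∀ a b, |ψ b - ψ a| ≤ |b - a| := fun a b => by
    have := convex_univ.norm_image_sub_le_of_norm_hasDerivWithin_le (C := 1)
      (fun x _ => (H.dψ x).hasDerivWithinAt) (fun x _ => by
        rw [Real.norm_eq_abs, ← sq_le_one_iff_abs_le_one]
        linarith [H.sq x, H.q0 x]) (mem_univ a) (mem_univ b)
    simpa using this
  constructor
  · rw [e (ε ^ 2)]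
    exact intervalIntegral.integral_mono_on_of_le_Ioo h0.le ((cg H X).intervalIntegrable _ _)
      (((ck H X).mul continuous_const).intervalIntegrable _ _) fun t ht =>
        mul_le_mul_of_nonneg_left (H.gd t (hab t ht)) (knn col H X hT ne t ht)
  · rw [e (1 / 40 * Real.exp (-(√2 * φ)))]
    refine intervalIntegral.integral_mono_on_of_le_Ioo h0.le
      (((ck H X).mul continuous_const).intervalIntegrable _ _) ((cg H X).intervalIntegrable _ _)
      fun t ht => ?_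
    by_cases h : 9 / 10 < |s t|
    · simp only [chi_zero X h, zero_mul, le_refl]
    refine mul_le_mul_of_nonneg_left ?_ (knn col H X hT ne t ht)
    have h1 := ((col ε δ T (-(19 / 20)) ψ s d q u f H le_rfl (by norm_num)).2.1 t (hab t ht)
      (by linarith [not_lt.1 h])).1
    have h2 := hL 0 t
    have h3 := hL φ t
    rw [H.ψ0, sub_zero, sub_zero, abs_of_pos ht.1] at h2
    rw [hψ, sub_zero, abs_of_neg (sub_neg.2 ht.2)] at h3
    have h4 : Real.exp (-(√2 * φ)) ≤ Real.exp (-(√2 * |ψ t|)) ^ 2 := by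
      rw [← Real.exp_nat_mul]
      refine Real.exp_le_exp.2 ?_
      have : √2 * (2 * |ψ t|) ≤ √2 * φ := mul_le_mul_of_nonneg_left (by linarith) (by positivity)
      push_cast
      linarith
    have h5 := pow_le_pow_left₀ (by positivity) (H.flo t) 2
    rw [div_pow, Real.sq_sqrt zero_le_two] at h5
    nlinarith [sq_nonneg (f t), mul_le_mul_of_nonneg_left h1 (sq_nonneg (f t))]

theorem ind {α β : Type} {S : Set α} {S' : Set β} {a : α} {b : β} (h : a ∈ S ↔ b ∈ S')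
    (g : α → ℝ) (g' : β → ℝ) (e : g a = g' b) : S.indicator g a = S'.indicator g' b := by
  by_cases h' : a ∈ S
  · rw [indicator_of_mem h', indicator_of_mem (h.1 h'), e]
  · rw [indicator_of_notMem h', indicator_of_notMem (mt h.2 h')]

variable {m : ℕ}

theorem pt_neg (z e : E (m + 1)) (L : E m →ₗᵢ[ℝ] E (m + 1)) (y : E m) (a t : ℝ) :
    pt z (-e) L y (-a + t) = pt z e L y (a - t) := by
  unfold pt
  rw [smul_neg, ← neg_smul]
  congr 2
  ring

theorem pe_neg (u : E (m + 1) → ℝ) (e x : E (m + 1)) : pe u (-e) x = -pe u e x := by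
  simp [pe]

end EGp

open EGp in
theorem eg : rEG := by
  intro _ ln col m C B
  refine ⟨0, le_rfl, fun ε δ r T τ u z e L h₀ h₁ β Λ χ χ' P _ F => ⟨?_, fun y hy hT => ?_⟩⟩
  · have c0 : Continuous h₀ := P.l0.gr.sm.continuous
    have c1 : Continuous h₁ := P.l1.gr.sm.continuous.neg.congr fun y => neg_neg _
    have cp : Continuous (pp u) := (smooth_gradient P.l0.ok.smp).continuous
    have cS : Continuous (SS u) := (smooth_gradient P.l0.ok.smp).continuous_fderiv (by simp)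
    have cu : Continuous u := P.l0.ok.sm.continuous
    have cχ := F.ch.ct
    have cG : Continuous fun p : E m × ℝ => (fun x => χ' (pe u e x) * -⟪SS u x e, e⟫ * EE u x)
        (pt z e L p.1 p.2) := by
      simp only [pe, EE, ff, qq, pt]
      fun_prop
    have key : ∀ h : E m → ℝ, Continuous h → Continuous fun y => ∫ t in (0 : ℝ)..h y,
        (fun x => χ' (pe u e x) * -⟪SS u x e, e⟫ * EE u x) (pt z e L y t) := fun h hh =>
      intervalIntegral.continuous_parametric_intervalIntegral_of_continuous cG hh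
    refine ((key h₁ c1).sub (key h₀ c0)).congr fun y => ?_
    exact intervalIntegral.integral_interval_sub_left
      ((cG.comp (Continuous.prodMk_right y)).intervalIntegrable _ _)
      ((cG.comp (Continuous.prodMk_right y)).intervalIntegrable _ _)
  obtain ⟨H0, W0', -⟩ := ln m C ε δ r T u z e L h₀ P.l0 y hy
  obtain ⟨H1, W1', -⟩ := ln m C ε δ r T u z (-e) L _ P.l1 y hy
  have h0 : 0 < h₁ y - h₀ y := sub_pos.2 (P.lt y hy)
  have n0 : ∀ t ∈ Ioo 0 (h₁ y - h₀ y), u (pt z e L y (h₀ y + t)) ≠ 0 := fun t ht =>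
    P.ne y hy hT _ ⟨by linarith [ht.1], by linarith [ht.2]⟩
  have n1 : ∀ t ∈ Ioo 0 (h₁ y - h₀ y), u (pt z (-e) L y (-h₁ y + t)) ≠ 0 := fun t ht => by
    rw [pt_neg]
    exact P.ne y hy hT _ ⟨by linarith [ht.2], by linarith [ht.1]⟩
  have s0 : pe u e (pt z e L y (h₀ y + (h₁ y - h₀ y))) ≤ -(1 - δ) := by
    have := H1.s0
    rw [pt_neg, pe_neg, sub_zero] at this
    rw [add_sub_cancel]; linarith
  have s1 : pe u (-e) (pt z (-e) L y (-h₁ y + (h₁ y - h₀ y))) ≤ -(1 - δ) := by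
    have := H0.s0
    rw [add_zero] at this
    rw [pt_neg, pe_neg, sub_sub_cancel]; linarith
  have p0 : ps u (pt z e L y (h₀ y + (h₁ y - h₀ y))) = 0 := by
    have := H1.ψ0
    rw [pt_neg, sub_zero] at this
    rw [add_sub_cancel]; exact this
  have e0 : Eg u z e L h₀ h₁ χ' y = ∫ t in (0 : ℝ)..h₁ y - h₀ y,
      (fun x => χ' (pe u e x) * -⟪SS u x e, e⟫ * EE u x) (pt z e L y (h₀ y + t)) := by
    rw [intervalIntegral.integral_comp_add_left (fun t =>
      (fun x => χ' (pe u e x) * -⟪SS u x e, e⟫ * EE u x) (pt z e L y t)), add_zero, add_sub_cancel]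
    rfl
  have e1 : Eg u z e L h₀ h₁ χ' y = ∫ t in (0 : ℝ)..h₁ y - h₀ y,
      (fun x => χ' (pe u (-e) x) * -⟪SS u x (-e), -e⟫ * EE u x) (pt z (-e) L y (-h₁ y + t)) := by
    simp only [pt_neg, pe_neg, F.ch.ev, map_neg, inner_neg_neg]
    rw [intervalIntegral.integral_comp_sub_left (fun t =>
      (fun x => χ' (pe u e x) * -⟪SS u x e, e⟫ * EE u x) (pt z e L y t)), sub_zero, sub_sub_cancel]
    rfl
  have b0 := bds col H0 F.ch h0 hT n0 s0 p0
  refine ⟨?_, ?_, e0 ▸ b0.1, e0 ▸ b0.2, fun t ht => ?_⟩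
  · refine le_of_eq_of_le ?_ ((up_le col H0 F.ch h0 hT n0 s0).trans_eq e0.symm)
    refine integral_congr_ae (.of_forall fun t => ?_)
    exact ind (W0' _ t) _ _ rfl
  · refine le_of_eq_of_le ?_ ((up_le col H1 F.ch h0 hT n1 s1).trans_eq e1.symm)
    refine integral_congr_ae (.of_forall fun t => ?_)
    exact ind (W1' _ t) _ _ rfl
  · have t0 : t - h₀ y ∈ Ioo 0 (h₁ y - h₀ y) := ⟨by linarith [ht.1], by linarith [ht.2]⟩
    have t1 : h₁ y - t ∈ Ioo 0 (h₁ y - h₀ y) := ⟨by linarith [ht.2], by linarith [ht.1]⟩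
    have a0 : pt z e L y (h₀ y + (t - h₀ y)) = pt z e L y t := by rw [add_sub_cancel]
    have a1 : pt z (-e) L y (-h₁ y + (h₁ y - t)) = pt z e L y t := by rw [pt_neg, sub_sub_cancel]
    refine ⟨a0 ▸ upos col H0 n0 _ t0, fun hs => ⟨?_, ?_⟩⟩
    · rw [← a0]
      exact (W0' _ _).2 (mem col H0 hT n0 t0 (by rwa [a0]))
    · rw [← a1]
      exact (W1' _ _).2 (mem col H1 hT n1 t1 (by rwa [a1, pe_neg, abs_neg]))

end Vale.Agent.P134B
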