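import Vale.Agent.P134B.Spec2

/-!
# P134B: the energy estimate
-/

open MeasureTheory Metric Filter Topology Set
open scoped ContDiff RealInnerProductSpace
open Vale.Agent.P366.Stmt (E)
open Vale.Agent.P366W (inner_grad contDiff_gradient)

noncomputable section

namespace Vale.Agent.P134B

variable {m : ℕ}

namespace FAa

theorem s2 : (√2 : ℝ) ^ 2 = 2 := Real.sq_sqrt (by norm_num)

theorem s_lt : (√2 : ℝ) ≤ 1415 / 1000 := Real.sqrt_le_iff.2 ⟨by norm_num, by norm_num⟩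

theorem sg_nn : 0 ≤ sg := by unfold sg; positivity

theorem sg_le : sg ≤ 9434 / 10000 := by unfold sg; linarith [s_lt]

theorem pw1 {p q A : E m} {z G G' δ : ℝ} (h1 : (1 - δ) * ‖p‖ ^ 2 ≤ ⟪A, p⟫) (h2 : ‖A‖ ≤ ‖p‖)
    (h3 : 0 ≤ G) (h4 : G' ≤ -(5 * √2 / 4 * G)) (h5 : δ ≤ 1 / 100) :
    13 / 4 * (z * G * ‖p‖) ^ 2 - 20 * (G ^ 2 * ‖q‖ ^ 2) ≤
      -(sg * ⟪(2 * (z * G)) • (G • q + (z * G') • p), A⟫) := by
  have a1 : 99 / 100 * ‖p‖ ^ 2 ≤ ⟪p, A⟫ := by
    rw [real_inner_comm]; nlinarith [sq_nonneg ‖p‖]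
  have a2 : 5 * √2 / 4 * G * (99 / 100 * ‖p‖ ^ 2) ≤ -G' * ⟪p, A⟫ :=
    mul_le_mul (by linarith) a1 (by positivity) (by
      have : 0 ≤ 5 * √2 / 4 * G := by positivity
      linarith)
  have a3 := mul_le_mul_of_nonneg_left a2 (show 0 ≤ 2 * sg * z ^ 2 * G by
    have := sg_nn; positivity)
  have a4 : 2 * sg * z ^ 2 * G * (5 * √2 / 4 * G * (99 / 100 * ‖p‖ ^ 2)) =
      33 / 10 * (z * G * ‖p‖) ^ 2 := by
    unfold sg
    linear_combination (33 / 20 * (z * G * ‖p‖) ^ 2) * s2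
  have a5 : z * ⟪q, A⟫ ≤ |z| * (‖q‖ * ‖p‖) := (le_abs_self _).trans (by
    rw [abs_mul]
    exact mul_le_mul_of_nonneg_left ((abs_real_inner_le_norm q A).trans
      (mul_le_mul_of_nonneg_left h2 (norm_nonneg _))) (abs_nonneg _))
  have a6 := mul_le_mul_of_nonneg_left a5 (show 0 ≤ 2 * sg * G ^ 2 by have := sg_nn; positivity)
  have a7 : 2 * sg * G ^ 2 * (|z| * (‖q‖ * ‖p‖)) ≤ 2 * 1 * G ^ 2 * (|z| * (‖q‖ * ‖p‖)) := by
    gcongr
    linarith [sg_le]
  have a8 : (z * G * ‖p‖) ^ 2 = (|z| * G * ‖p‖) ^ 2 := by simp only [mul_pow, sq_abs]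
  simp only [inner_smul_left, inner_add_left, conj_trivial]
  nlinarith [sq_nonneg (|z| * G * ‖p‖ - 20 * (G * ‖q‖))]

theorem pw2 {p q : E m} {z G G' θ : ℝ} (h2 : ‖p‖ ≤ 1) (h3 : 0 ≤ G) (h4 : 0 ≤ θ)
    (h5 : |G'| ≤ 5 * √2 / 4 * G + θ) : ‖G • q + (z * G') • p‖ ^ 2 ≤
      105 / 32 * (z * G * ‖p‖) ^ 2 + 42 * (G ^ 2 * ‖q‖ ^ 2) + 42 * θ ^ 2 * z ^ 2 := by
  have a1 : ‖G • q + (z * G') • p‖ ≤ 5 * √2 / 4 * (|z| * G * ‖p‖) + (G * ‖q‖ + θ * |z|) := by
    refine (norm_add_le _ _).trans ?_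
    rw [norm_smul, norm_smul, Real.norm_of_nonneg h3, Real.norm_eq_abs, abs_mul]
    have b1 := mul_le_mul_of_nonneg_left h5 (show 0 ≤ |z| * ‖p‖ by positivity)
    have b2 := mul_le_mul_of_nonneg_left h2 (show 0 ≤ θ * |z| by positivity)
    nlinarith
  have a2 := pow_le_pow_left₀ (norm_nonneg _) a1 2
  have a8 : (z * G * ‖p‖) ^ 2 = (|z| * G * ‖p‖) ^ 2 := by simp only [mul_pow, sq_abs]
  have a9 : (5 * √2 / 4 * (|z| * G * ‖p‖)) ^ 2 = 25 / 8 * (|z| * G * ‖p‖) ^ 2 := by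
    linear_combination (25 / 16 * (|z| * G * ‖p‖) ^ 2) * s2
  rw [a8, ← sq_abs z]
  nlinarith [sq_nonneg (5 * √2 / 4 * (|z| * G * ‖p‖) - 20 * (G * ‖q‖ + θ * |z|)),
    sq_nonneg (G * ‖q‖ - θ * |z|)]

theorem grad_zero {f : E m → ℝ} {y : E m} (h : y ∉ tsupport f) : gradient f y = 0 := by
  rw [gradient, image_eq_zero_of_notMem_tsupport fun k => h (tsupport_fderiv_subset ℝ k), map_zero]

theorem cint {f ζ : E m → ℝ} (hf : Continuous f) (hc : HasCompactSupport ζ)
    (h : ∀ y, ζ y = 0 → gradient ζ y = 0 → f y = 0) : Integrable f :=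
  hf.integrable_of_hasCompactSupport (hc.mono' fun y hy => by
    by_contra k
    exact hy (h y (image_eq_zero_of_notMem_tsupport k) (grad_zero k)))

end FAa

open FAa

theorem fa : FA := by
  refine ⟨1 / 100, by norm_num, 3000, by norm_num, ?_⟩
  intro m U ε δ θ φ V ζ A g g' e0 d0 d1 t0 hS z1 z2 hg cg' hb hU
  have g1 : ContDiff ℝ 1 g := contDiff_one_iff_deriv.2 ⟨fun s => (hg s).differentiableAt, by
    rwa [show deriv g = g' from funext fun s => (hg s).deriv]⟩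
  set η : E m → ℝ := fun y => ζ y * g (φ y) with hη
  have η1 : ContDiff ℝ 1 η := z1.mul (g1.comp hS.c1)
  have ηc : HasCompactSupport η := z2.mul_right
  have dη : ∀ y, gradient η y = g (φ y) • gradient ζ y + (ζ y * g' (φ y)) • gradient φ y :=
    fun y => ext_inner_right ℝ fun v => by
      have := (z1.differentiable one_ne_zero y).hasFDerivAt.fun_mul
        ((hg _).comp_hasFDerivAt y (hS.c1.differentiable one_ne_zero y).hasFDerivAt)
      rw [inner_grad, show fderiv ℝ η y = _ from this.fderiv]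
      simp only [inner_add_left, inner_smul_left, inner_grad, conj_trivial,
        add_apply, smul_apply, smul_eq_mul, Function.comp]
      ring
  have dΨ : ∀ y, gradient (fun y => η y ^ 2) y = (2 * η y) • gradient η y :=
    fun y => ext_inner_right ℝ fun v => by
      rw [inner_grad, ((η1.differentiable one_ne_zero y).hasFDerivAt.pow 2).fderiv]
      simp [inner_smul_left]
  have su : tsupport (fun y => η y ^ 2) ⊆ tsupport η :=
    closure_mono fun y hy k => hy (by simp [k])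
  have E1 := hS.eq (fun y => η y ^ 2) ⟨η1.pow 2, ηc.mono' (subset_closure.trans su), su.trans hU⟩
    fun y => sq_nonneg _
  have E2 := hS.st η ⟨η1, ηc, hU⟩
  simp only [dΨ] at E1
  have cζ := z1.continuous
  have cη := η1.continuous
  have cA := hS.cA
  have cφ := hS.c1.continuous
  have cg := g1.continuous
  have c1 : Continuous (gradient ζ) := (contDiff_gradient (k := 0) (by simpa using z1)).continuous
  have c2 : Continuous (gradient φ) :=
    (contDiff_gradient (k := 0) (by simpa using hS.c1)).continuous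
  have c3 : Continuous (gradient η) := (contDiff_gradient (k := 0) (by simpa using η1)).continuous
  have iX : Integrable fun y => (ζ y * g (φ y) * ‖gradient φ y‖) ^ 2 :=
    cint (by fun_prop) z2 fun y a _ => by simp [a]
  have iD : Integrable fun y => g (φ y) ^ 2 * ‖gradient ζ y‖ ^ 2 :=
    cint (by fun_prop) z2 fun y _ a => by simp [a]
  have iZ : Integrable fun y => ζ y ^ 2 := cint (by fun_prop) z2 fun y a _ => by simp [a]
  have iQ : Integrable fun y => η y ^ 2 := cint (by fun_prop) ηc fun y a _ => by simp [a]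
  have iN : Integrable fun y => ‖gradient η y‖ ^ 2 := cint (by fun_prop) ηc fun y _ a => by simp [a]
  have iP : Integrable fun y => ⟪(2 * η y) • gradient η y, A y⟫ :=
    cint (by fun_prop) ηc fun y a _ => by simp [a]
  have iM : Integrable fun y => ‖(2 * η y) • gradient η y‖ :=
    cint (by fun_prop) ηc fun y a _ => by simp [a]
  have I1 : 13 / 4 * (∫ y, (ζ y * g (φ y) * ‖gradient φ y‖) ^ 2) -
      20 * ∫ y, g (φ y) ^ 2 * ‖gradient ζ y‖ ^ 2 ≤
      -(sg * ∫ y, ⟪(2 * η y) • gradient η y, A y⟫) := by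
    rw [← integral_const_mul, ← integral_const_mul, ← integral_const_mul, ← integral_neg,
      ← integral_sub (iX.const_mul _) (iD.const_mul _)]
    refine integral_mono ((iX.const_mul _).sub (iD.const_mul _)) (iP.const_mul _).neg fun y => ?_
    by_cases k : η y = 0
    · have k' : ζ y * g (φ y) = 0 := k
      have : 0 ≤ g (φ y) ^ 2 * ‖gradient ζ y‖ ^ 2 := by positivity
      simp only [k, k', mul_zero, zero_smul, inner_zero_left, zero_mul]
      linarith
    · obtain ⟨a, b, -⟩ := hS.el y (hU (subset_tsupport _ k))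
      simp only [dη]
      exact pw1 a b (hb _).1 (hb _).2.1 d1
  have I2 : ∫ y, ‖gradient η y‖ ^ 2 ≤ 105 / 32 * (∫ y, (ζ y * g (φ y) * ‖gradient φ y‖) ^ 2) +
      42 * (∫ y, g (φ y) ^ 2 * ‖gradient ζ y‖ ^ 2) + 42 * θ ^ 2 * ∫ y, ζ y ^ 2 := by
    have i1 : Integrable fun y => 105 / 32 * (ζ y * g (φ y) * ‖gradient φ y‖) ^ 2 +
        42 * (g (φ y) ^ 2 * ‖gradient ζ y‖ ^ 2) := (iX.const_mul _).add (iD.const_mul _)
    rw [← integral_const_mul, ← integral_const_mul, ← integral_const_mul,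
      ← integral_add (iX.const_mul _) (iD.const_mul _), ← integral_add i1 (iZ.const_mul _)]
    refine integral_mono iN (i1.add (iZ.const_mul _)) fun y => ?_
    by_cases k : y ∈ tsupport η
    · simp only [dη]
      exact pw2 (hS.el y (hU k)).2.2.1 (hb _).1 t0 (hb _).2.2
    · show ‖gradient η y‖ ^ 2 ≤ 105 / 32 * _ ^ 2 + 42 * (_ ^ 2 * _ ^ 2) + 42 * θ ^ 2 * _ ^ 2
      rw [grad_zero k, norm_zero, zero_pow two_ne_zero]
      positivity
  have I3 : ε * ∫ y, ‖(2 * η y) • gradient η y‖ ≤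
      ε ^ 2 * (∫ y, η y ^ 2) + ∫ y, ‖gradient η y‖ ^ 2 := by
    rw [← integral_const_mul, ← integral_const_mul, ← integral_add (iQ.const_mul _) iN]
    refine integral_mono (iM.const_mul _) ((iQ.const_mul _).add iN) fun y => ?_
    simp only [norm_smul, Real.norm_eq_abs, abs_mul, abs_two]
    nlinarith [sq_nonneg (ε * |η y| - ‖gradient η y‖), sq_abs (η y)]
  have n1 : 0 ≤ ∫ y, g (φ y) ^ 2 * ‖gradient ζ y‖ ^ 2 := integral_nonneg fun y => by positivity
  have n2 : 0 ≤ θ ^ 2 * ∫ y, ζ y ^ 2 :=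
    mul_nonneg (sq_nonneg _) (integral_nonneg fun y => sq_nonneg _)
  have n3 : 0 ≤ δ * ε ^ 2 * ∫ y, η y ^ 2 :=
    mul_nonneg (by positivity) (integral_nonneg fun y => sq_nonneg _)
  have n4 : 0 ≤ ∫ y, ‖gradient η y‖ ^ 2 := integral_nonneg fun y => sq_nonneg _
  have I4 := mul_le_mul_of_nonneg_left I3 d0
  have I5 := mul_le_mul_of_nonneg_right d1 n4
  have I6 := mul_le_mul_of_nonneg_right sg_le n4
  show ∫ y, η y ^ 2 * V y ≤ 3000 * (_ + δ * ε ^ 2 * (∫ y, η y ^ 2) + _)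
  nlinarith

end Vale.Agent.P134B
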