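import Vale.Agent.P134B.Spec2

/-!
# P134B: the argument of Farina, the system has no solution
-/

open MeasureTheory Metric Filter Topology Set
open scoped ContDiff RealInnerProductSpace
open Vale.Agent.P366.Stmt (E)
open Vale.Agent.P366W

noncomputable section

namespace Vale.Agent.P134B

namespace FARa

variable {m : ℕ}

/-- the cut-off in the gap -/
theorem cutk : ∃ k k' : ℝ → ℝ, (∀ s, HasDerivAt k (k' s) s) ∧ Continuous k' ∧
    (∀ s, 0 ≤ k s ∧ k s ≤ 1 ∧ k' s ≤ 0 ∧ -6 ≤ k' s) ∧ (∀ s ≤ 0, k s = 1 ∧ k' s = 0) ∧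
    ∀ s, 1 ≤ s → k s = 0 := by
  refine ⟨fun s => ph (max s 0 ^ 2), fun s => -dph (max s 0 ^ 2) * (2 * max s 0), fun s => ?_,
    (continuous_dph.comp (by fun_prop)).neg.mul (by fun_prop), fun s => ?_, fun s hs => ?_,
    fun s hs => ph_zero ?_⟩
  · have := (hasDerivAt_ph (max s 0 ^ 2)).comp s (hasDerivAt_pos_pow 0 s)
    refine HasDerivAt.congr_deriv this ?_
    norm_num
  · have a : 0 ≤ max s 0 := le_max_right _ _
    have b := dph_nonneg (max s 0 ^ 2)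
    refine ⟨ph_nonneg _, ph_le_one (sq_nonneg _), by nlinarith, ?_⟩
    rcases le_total (max s 0) 1 with c | c
    · nlinarith [dph_le (sq_nonneg (max s 0))]
    · simp only [dph_zero (s := max s 0 ^ 2) (by nlinarith)]
      norm_num
  · simp [max_eq_right hs, ph]
  · rw [max_eq_left (by linarith)]
    nlinarith

/-- the cut-off in the base -/
theorem cutx (m : ℕ) : ∃ c ≥ (0 : ℝ), ∀ ρ > (0 : ℝ), ∃ ξ : E m → ℝ, ContDiff ℝ 1 ξ ∧
    (∀ y, 0 ≤ ξ y ∧ ξ y ≤ 1 ∧ ‖gradient (fun y => ξ y ^ 4) y‖ ≤ ξ y ^ 3 * (c / ρ)) ∧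
    (∀ y, ‖y‖ ≤ ρ / 2 → ξ y = 1) ∧ ∀ y, 3 * ρ / 4 ≤ ‖y‖ → ξ y = 0 := by
  let β : ContDiffBump (0 : E m) := ⟨1 / 2, 3 / 4, by norm_num, by norm_num⟩
  have b1 : ContDiff ℝ 1 β := β.contDiff
  obtain ⟨c, hc⟩ := (b1.continuous_fderiv (by norm_num)).bounded_above_of_compact_support
    (β.hasCompactSupport.fderiv (𝕜 := ℝ))
  have c0 : 0 ≤ c := (norm_nonneg _).trans (hc 0)
  refine ⟨4 * c, by positivity, fun ρ ρ0 => ⟨fun y => β (ρ⁻¹ • y), b1.comp (by fun_prop),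
    fun y => ⟨β.nonneg, β.le_one, ?_⟩, fun y hy => β.one_of_mem_closedBall ?_,
    fun y hy => β.zero_of_le_dist ?_⟩⟩
  · have d1 := ((b1.differentiable (by norm_num) (ρ⁻¹ • y)).hasFDerivAt.comp y
      ((hasFDerivAt_id (𝕜 := ℝ) y).const_smul ρ⁻¹)).pow 4
    have d2 : ‖fderiv ℝ β (ρ⁻¹ • y) ∘L (ρ⁻¹ • ContinuousLinearMap.id ℝ (E m))‖ ≤ c * ρ⁻¹ := by
      refine (ContinuousLinearMap.opNorm_comp_le _ _).trans
        (mul_le_mul (hc _) ?_ (norm_nonneg _) c0)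
      rw [norm_smul, Real.norm_of_nonneg (inv_pos.2 ρ0).le]
      exact mul_le_of_le_one_right (inv_pos.2 ρ0).le ContinuousLinearMap.norm_id_le
    have d3 : fderiv ℝ (fun y => β (ρ⁻¹ • y) ^ 4) y = _ := d1.fderiv
    have n0 : 0 ≤ β (ρ⁻¹ • y) := β.nonneg
    rw [norm_gradient, d3, norm_smul]
    refine (mul_le_mul_of_nonneg_left d2 (norm_nonneg _)).trans (le_of_eq ?_)
    simp only [Function.comp, nsmul_eq_mul]
    rw [Real.norm_of_nonneg (by positivity)]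
    norm_num
    ring
  · rw [mem_closedBall_zero_iff, norm_smul, Real.norm_of_nonneg (inv_pos.2 ρ0).le,
      inv_mul_le_iff₀ ρ0]
    change _ ≤ ρ * (1 / 2)
    linarith
  · rw [dist_zero_right, norm_smul, Real.norm_of_nonneg (inv_pos.2 ρ0).le, le_inv_mul_iff₀ ρ0]
    change ρ * (3 / 4) ≤ _
    linarith

theorem yng {X b l : ℝ} (X0 : 0 ≤ X) (b0 : 0 ≤ b) (l0 : 0 < l) :
    X ^ 5 * b ^ 2 ≤ X ^ 7 / l ^ 2 + l ^ 5 * b ^ 7 := by
  rcases le_total (l * b) X with h | h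
  · have a : (l * b) ^ 2 ≤ X ^ 2 := pow_le_pow_left₀ (by positivity) h 2
    have c : X ^ 5 * b ^ 2 ≤ X ^ 7 / l ^ 2 := by
      rw [le_div_iff₀ (by positivity)]
      nlinarith [mul_le_mul_of_nonneg_left a (pow_nonneg X0 5)]
    have : 0 ≤ l ^ 5 * b ^ 7 := by positivity
    linarith
  · have a : X ^ 5 ≤ (l * b) ^ 5 := pow_le_pow_left₀ X0 h 5
    have : 0 ≤ X ^ 7 / l ^ 2 := by positivity
    nlinarith [mul_le_mul_of_nonneg_right a (pow_nonneg b0 2)]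

theorem int_ind (ρ c : ℝ) (ρ0 : 0 < ρ) :
    Integrable ((ball (0 : E m) ρ).indicator fun _ => c) ∧
    ∫ y, (ball (0 : E m) ρ).indicator (fun _ => c) y =
      c * (ρ ^ m * volume.real (ball (0 : E m) 1)) := by
  refine ⟨(integrableOn_const measure_ball_lt_top.ne).integrable_indicator measurableSet_ball, ?_⟩
  rw [integral_indicator_const _ measurableSet_ball, measureReal_def,
    Measure.addHaar_ball_of_pos _ _ ρ0, ENNReal.toReal_mul, ENNReal.toReal_ofReal (by positivity),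
    finrank_euclideanSpace_fin, smul_eq_mul, mul_comm, measureReal_def]

theorem s2 : 4 / 3 ≤ √2 ∧ √2 ≤ 2 :=
  ⟨Real.le_sqrt_of_sq_le (by norm_num), Real.sqrt_le_iff.2 ⟨by norm_num, by norm_num⟩⟩

theorem ex2 (s : ℝ) : Real.exp (-(s / √2)) ^ 2 = Real.exp (-(√2 * s)) ∧
    Real.exp (-(5 * √2 / 4 * s)) ^ 2 = Real.exp (-(s / √2)) ^ 5 := by
  have a : √2 * √2 = 2 := Real.mul_self_sqrt (by norm_num)
  have b : s / √2 = √2 * s / 2 := by
    rw [div_eq_iff (by positivity)]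
    linear_combination (-s / 2) * a
  simp only [← Real.exp_nat_mul, b]
  constructor <;> congr 1 <;> push_cast <;> ring

/-- the choice of the constants -/
theorem fin {K₁ Q A δ ε R : ℝ} {m : ℕ} (hm : m ≤ 6) (K0 : 0 ≤ K₁) (Q0 : 0 < Q)
    (R1 : 1 ≤ R) (hR : 8 * K₁ * A ≤ R * Q) (hδ : δ * (8 * (K₁ + 1) * 7 ^ 5 * R ^ m) ≤ Q)
    (δ0 : 0 ≤ δ) (ε0 : 0 ≤ ε) (ε1 : ε ≤ 1) (hε : ε * (8 * (K₁ + 1) * 36 * R ^ m) ≤ Q) :
    2 * K₁ * (A / R ^ 7 + δ * 7 ^ 5 + 36 * ε ^ 3) * R ^ m < Q := by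
  have a1 : R ^ m * R ≤ R ^ 7 := by
    rw [← pow_succ]
    exact pow_le_pow_right₀ R1 (by omega)
  have p : 0 < R ^ m := by positivity
  have a2 : 2 * K₁ * (A / R ^ 7) * R ^ m ≤ Q / 4 := by
    rw [show 2 * K₁ * (A / R ^ 7) * R ^ m = 2 * K₁ * A * R ^ m / R ^ 7 by ring,
      div_le_iff₀ (by positivity)]
    nlinarith [mul_le_mul_of_nonneg_right hR p.le, mul_le_mul_of_nonneg_left a1 Q0.le]
  have a3 : ε ^ 3 ≤ ε := pow_le_of_le_one ε0 ε1 (by norm_num)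
  have a4 : K₁ * R ^ m * ε ^ 3 ≤ K₁ * R ^ m * ε := mul_le_mul_of_nonneg_left a3 (by positivity)
  nlinarith [mul_nonneg δ0 p.le, mul_nonneg ε0 p.le]

/-- the weight -/
theorem exg {ε : ℝ} (ε0 : 0 < ε) (g1 : 0 ≤ lg ε) : ∃ g g' : ℝ → ℝ, (∀ s, HasDerivAt g (g' s) s) ∧
    Continuous g' ∧ (∀ s, 0 ≤ g s ∧ g' s ≤ -(5 * √2 / 4 * g s) ∧
      |g' s| ≤ 5 * √2 / 4 * g s + 6 * ε ^ 5) ∧ (∀ s, g s ≠ 0 → s < 3 * lg ε + 1) ∧
    (∀ s, ∃ κ ≥ (0 : ℝ), κ ≤ 1 ∧ g s ^ 2 = Real.exp (-(s / √2)) ^ 5 * κ) ∧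
    ∀ s ≤ 3 * lg ε, g s ^ 2 = Real.exp (-(s / √2)) ^ 5 := by
  obtain ⟨k, k', k1, k2, k3, k4, k5⟩ := cutk
  have g2 : Real.exp (-lg ε) = ε := by rw [lg, neg_neg, Real.exp_log ε0]
  have kc : Continuous k := continuous_iff_continuousAt.2 fun s => (k1 s).continuousAt
  refine ⟨fun s => Real.exp (-(5 * √2 / 4 * s)) * k (s - 3 * lg ε), fun s =>
    -(5 * √2 / 4 * (Real.exp (-(5 * √2 / 4 * s)) * k (s - 3 * lg ε))) +
      Real.exp (-(5 * √2 / 4 * s)) * k' (s - 3 * lg ε), fun s => ?_, by fun_prop, fun s => ?_,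
    fun s b => not_le.1 fun h => b (by simp only [k5 (s - 3 * lg ε) (by linarith), mul_zero]),
    fun s => ⟨k (s - 3 * lg ε) ^ 2, sq_nonneg _, pow_le_one₀ (k3 _).1 (k3 _).2.1,
      by rw [mul_pow, (ex2 s).2]⟩,
    fun s hs => by simp only [(k4 (s - 3 * lg ε) (by linarith)).1, mul_one, (ex2 s).2]⟩
  · have := ((((hasDerivAt_id s).const_mul (5 * √2 / 4)).neg).exp).mul
      ((k1 (s - 3 * lg ε)).comp s ((hasDerivAt_id s).sub_const (3 * lg ε)))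
    refine HasDerivAt.congr_deriv this ?_
    simp only [id, Function.comp, Pi.neg_apply]
    ring
  obtain ⟨a0, -, a2, a3⟩ := k3 (s - 3 * lg ε)
  have e0 := Real.exp_pos (-(5 * √2 / 4 * s))
  have b0 : 0 ≤ Real.exp (-(5 * √2 / 4 * s)) * k (s - 3 * lg ε) := by positivity
  have b1 : Real.exp (-(5 * √2 / 4 * s)) * k' (s - 3 * lg ε) ≤ 0 := by nlinarith
  have b2 : -(6 * ε ^ 5) ≤ Real.exp (-(5 * √2 / 4 * s)) * k' (s - 3 * lg ε) := by
    rcases le_total (s - 3 * lg ε) 0 with h | h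
    · rw [(k4 _ h).2, mul_zero, neg_nonpos]
      positivity
    · have : Real.exp (-(5 * √2 / 4 * s)) ≤ ε ^ 5 := by
        rw [← g2, ← Real.exp_nat_mul, Real.exp_le_exp]
        push_cast
        nlinarith [s2.1]
      nlinarith
  have b3 := mul_nonneg (show 0 ≤ 5 * √2 / 4 by positivity) b0
  have b4 := pow_nonneg ε0.le 5
  exact ⟨b0, by linarith, abs_le.2 ⟨by linarith, by linarith⟩⟩

/-- the pointwise inequalities -/
theorem ptw {w κ x b l V N G ε : ℝ} (w0 : 0 ≤ w) (κ0 : 0 ≤ κ) (κ1 : κ ≤ 1) (a0 : 0 ≤ x)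
    (a1 : x ≤ 1) (b0 : 0 ≤ b) (l0 : 0 < l) (N0 : 0 ≤ N) (a2 : N ≤ x ^ 3 * b) (ε0 : 0 ≤ ε)
    (hG : G ^ 2 = w ^ 5 * κ) (v1 : 1 / 40 * w ^ 2 ≤ V) (v2 : V ≤ ε ^ 2) :
    0 ≤ (x ^ 4 * G) ^ 2 * V ∧ G ^ 2 * N ^ 2 ≤ 40 / l ^ 2 * ((x ^ 4 * G) ^ 2 * V) + l ^ 5 * b ^ 7 ∧
      (x ^ 4 * G) ^ 2 ≤ (7 * ε) ^ 5 := by
  have V0 : 0 ≤ V := le_trans (by positivity) v1
  rw [mul_pow, hG]
  refine ⟨by positivity, ?_, ?_⟩
  · have t2 := yng (X := w * x) (by positivity) b0 l0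
    have t3 : κ * x ≤ 1 := mul_le_one₀ κ1 a0 a1
    calc _ ≤ w ^ 5 * κ * (x ^ 3 * b) ^ 2 := by gcongr
      _ = κ * x * ((w * x) ^ 5 * b ^ 2) := by ring
      _ ≤ κ * x * ((w * x) ^ 7 / l ^ 2 + l ^ 5 * b ^ 7) := by gcongr
      _ = 40 / l ^ 2 * ((x ^ 4) ^ 2 * (w ^ 5 * κ) * (1 / 40 * w ^ 2)) +
          κ * x * (l ^ 5 * b ^ 7) := by ring
      _ ≤ 40 / l ^ 2 * ((x ^ 4) ^ 2 * (w ^ 5 * κ) * V) + 1 * (l ^ 5 * b ^ 7) := by gcongr
      _ = _ := by ring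
  · have t1 : w ≤ 7 * ε := abs_le_of_sq_le_sq' (by nlinarith [sq_nonneg ε]) (by positivity) |>.2
    calc _ ≤ (1 ^ 4) ^ 2 * ((7 * ε) ^ 5 * 1) := by gcongr
      _ = _ := by ring

/-- the contradiction -/
theorem ari {K₁ l c R r δ ε e v Y D N Z : ℝ} {m : ℕ} (K0 : 0 ≤ K₁) (hl : l = 80 * K₁ + 1)
    (δ0 : 0 ≤ δ) (ε0 : 0 < ε) (v0 : 0 < v) (Y0 : 0 ≤ Y)
    (G : 2 * K₁ * (l ^ 5 * c ^ 7 / R ^ 7 + δ * 7 ^ 5 + 36 * ε ^ 3) * R ^ m < e ^ 7 / 40 * r ^ m)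
    (F : Y ≤ K₁ * (D + δ * ε ^ 2 * N + (6 * ε ^ 5) ^ 2 * Z))
    (I1 : D ≤ 40 / l ^ 2 * Y + l ^ 5 * (c / (R / ε)) ^ 7 * ((R / ε) ^ m * v))
    (I2 : N ≤ (7 * ε) ^ 5 * ((R / ε) ^ m * v)) (I3 : Z ≤ 1 * ((R / ε) ^ m * v))
    (I4 : (ε * e) ^ 7 / 40 * ((r / ε) ^ m * v) ≤ Y) : False := by
  have l0 : 0 < l := by linarith
  have a1 : K₁ * (40 / l ^ 2) ≤ 1 / 2 := by
    rw [← mul_div_assoc, div_le_iff₀ (by positivity)]
    nlinarith
  have a2 : Y ≤ K₁ * (40 / l ^ 2 * Y + l ^ 5 * (c / (R / ε)) ^ 7 * ((R / ε) ^ m * v) +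
      δ * ε ^ 2 * ((7 * ε) ^ 5 * ((R / ε) ^ m * v)) + (6 * ε ^ 5) ^ 2 * (1 * ((R / ε) ^ m * v))) :=
    F.trans (by gcongr)
  have a3 : K₁ * (40 / l ^ 2) * Y ≤ 1 / 2 * Y := mul_le_mul_of_nonneg_right a1 Y0
  have a4 := mul_lt_mul_of_pos_right G (show 0 < ε ^ 7 * v / ε ^ m by positivity)
  have a5 : e ^ 7 / 40 * r ^ m * (ε ^ 7 * v / ε ^ m) = (ε * e) ^ 7 / 40 * ((r / ε) ^ m * v) := by
    rw [div_pow r]; ring
  have a6 : 2 * K₁ * (l ^ 5 * c ^ 7 / R ^ 7 + δ * 7 ^ 5 + 36 * ε ^ 3) * R ^ m *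
      (ε ^ 7 * v / ε ^ m) = 2 * (K₁ * (40 / l ^ 2 * Y +
      l ^ 5 * (c / (R / ε)) ^ 7 * ((R / ε) ^ m * v) +
      δ * ε ^ 2 * ((7 * ε) ^ 5 * ((R / ε) ^ m * v)) +
      (6 * ε ^ 5) ^ 2 * (1 * ((R / ε) ^ m * v))) - K₁ * (40 / l ^ 2) * Y) := by
    rw [div_div_eq_mul_div, div_pow R]; ring
  linarith

/-- the lower bound near the base point -/
theorem low {ε K s V G : ℝ} (ε0 : 0 < ε) (b1 : s ≤ √2 * lg ε + K)
    (v1 : 1 / 40 * Real.exp (-(√2 * s)) ≤ V) (hG : G ^ 2 = Real.exp (-(s / √2)) ^ 5) :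
    (ε * Real.exp (-(K / √2))) ^ 7 / 40 ≤ (1 ^ 4 * G) ^ 2 * V := by
  have g2 : Real.exp (-lg ε) = ε := by rw [lg, neg_neg, Real.exp_log ε0]
  have w1 : ε * Real.exp (-(K / √2)) ≤ Real.exp (-(s / √2)) := by
    conv_lhs => rw [← g2, ← Real.exp_add]
    rw [Real.exp_le_exp, ← neg_add, neg_le_neg_iff, div_le_iff₀ (by positivity), add_mul,
      div_mul_cancel₀ _ (by positivity)]
    linarith
  rw [← (ex2 s).1] at v1
  rw [one_pow, one_mul, hG]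
  calc _ ≤ Real.exp (-(s / √2)) ^ 7 / 40 := by gcongr
    _ = Real.exp (-(s / √2)) ^ 5 * (1 / 40 * Real.exp (-(s / √2)) ^ 2) := by ring
    _ ≤ _ := by gcongr

end FARa

open FARa in
theorem far : rFAR := fun ⟨δ₀, d0, K₁, K0, H⟩ m K r₀ hm r0 r1 => by
  obtain ⟨c, c0, hc⟩ := cutx m
  obtain ⟨l, hl⟩ : ∃ l, l = 80 * K₁ + 1 := ⟨_, rfl⟩
  have l0 : 0 < l := by linarith
  obtain ⟨Q, hQ⟩ : ∃ Q, Q = Real.exp (-(K / √2)) ^ 7 / 40 * r₀ ^ m := ⟨_, rfl⟩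
  have Q0 : 0 < Q := by rw [hQ]; positivity
  obtain ⟨R, hR⟩ : ∃ R, R = 2 + 8 * K₁ * (l ^ 5 * c ^ 7) / Q := ⟨_, rfl⟩
  have R2 : 2 ≤ R := by rw [hR]; exact le_add_of_nonneg_right (by positivity)
  have R0 : 0 < R := by linarith
  refine ⟨R, by linarith, min δ₀ (Q / (8 * (K₁ + 1) * 7 ^ 5 * R ^ m)), by positivity,
    min (Real.exp (-(|K| + 2))) (Q / (8 * (K₁ + 1) * 36 * R ^ m)), by positivity,
    fun ε φ V A ε0 hε hS hV hφ => ?_⟩
  generalize hδ : min δ₀ (Q / (8 * (K₁ + 1) * 7 ^ 5 * R ^ m)) = δ at hS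
  have δ0 : 0 ≤ δ := by rw [← hδ]; positivity
  have g1 : |K| + 2 ≤ lg ε := by
    have := Real.log_le_log ε0 (hε.trans (min_le_left _ _))
    rw [Real.log_exp] at this
    unfold lg
    linarith
  have Ka := abs_nonneg K
  have ε1 : ε ≤ 1 := (hε.trans (min_le_left _ _)).trans (Real.exp_le_one_iff.2 (by linarith))
  have G := fin (K₁ := K₁) (Q := Q) (A := l ^ 5 * c ^ 7) (δ := δ) (ε := ε) (R := R) hm K0 Q0
    (by linarith) (by rw [hR, add_mul, div_mul_cancel₀ _ Q0.ne']; linarith)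
    ((le_div_iff₀ (by positivity)).1 (hδ ▸ min_le_right _ _)) δ0 ε0.le ε1
    ((le_div_iff₀ (by positivity)).1 (hε.trans (min_le_right _ _)))
  rw [hQ] at G
  have δ1 : δ ≤ δ₀ := hδ ▸ min_le_left _ _
  clear hδ hε hR hQ
  have ρ0 : 0 < R / ε := by positivity
  obtain ⟨ξ, x1, x2, x3, x4⟩ := hc (R / ε) ρ0
  obtain ⟨g, g', k1, k2, k3, k4, k5, k6⟩ := exg ε0 (by linarith)
  have gc : Continuous g := continuous_iff_continuousAt.2 fun s => (k1 s).continuousAt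
  have act : ∀ y, ξ y ≠ 0 → ‖y‖ < 3 * (R / ε) / 4 := fun y a => not_le.1 fun h => a (x4 y h)
  have yb : ∀ y, ξ y ≠ 0 → y ∈ ball (0 : E m) (R / ε) := fun y a => by
    rw [mem_ball_zero_iff]; linarith [act y a]
  have zc : HasCompactSupport fun y => ξ y ^ 4 :=
    HasCompactSupport.intro (isCompact_closedBall 0 (R / ε)) fun y hy => by
      rw [not_not.1 fun a => hy (ball_subset_closedBall (yb y a))]; norm_num
  have F := H m _ ε δ (6 * ε ^ 5) φ V (fun y => ξ y ^ 4) A g g' ε0.le δ0 δ1 (by positivity) hS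
    (x1.pow 4) zc k1 k2 k3 (by
      refine (closure_minimal (t := closedBall 0 (3 * (R / ε) / 4) ∩ {y | φ y ≤ 3 * lg ε + 1})
        (fun y hy => ?_) (isClosed_closedBall.inter
          (isClosed_le hS.c1.continuous continuous_const))).trans fun y hy => ⟨?_, ?_⟩
      · exact ⟨mem_closedBall_zero_iff.2 (act y fun h => hy (by simp [h])).le,
          (k4 _ fun h => hy (by simp [h])).le⟩
      · have := mem_closedBall_zero_iff.1 hy.1
        rw [mem_ball_zero_iff]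
        linarith
      · have : φ y ≤ 3 * lg ε + 1 := hy.2
        linarith)
  have P : ∀ y, 0 ≤ (ξ y ^ 4 * g (φ y)) ^ 2 * V y ∧
      g (φ y) ^ 2 * ‖gradient (fun y => ξ y ^ 4) y‖ ^ 2 ≤ 40 / l ^ 2 *
        ((ξ y ^ 4 * g (φ y)) ^ 2 * V y) +
        (ball (0 : E m) (R / ε)).indicator (fun _ => l ^ 5 * (c / (R / ε)) ^ 7) y ∧
      (ξ y ^ 4 * g (φ y)) ^ 2 ≤ (ball (0 : E m) (R / ε)).indicator (fun _ => (7 * ε) ^ 5) y :=
    fun y => by
    obtain ⟨a0, a1, a2⟩ := x2 y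
    have i1 : 0 ≤ (ball (0 : E m) (R / ε)).indicator (fun _ => l ^ 5 * (c / (R / ε)) ^ 7) y :=
      indicator_nonneg (fun _ _ => by positivity) y
    have i2 : 0 ≤ (ball (0 : E m) (R / ε)).indicator (fun _ => (7 * ε) ^ 5) y :=
      indicator_nonneg (fun _ _ => by positivity) y
    by_cases z1 : ξ y = 0
    · have : ‖gradient (fun y => ξ y ^ 4) y‖ = 0 :=
        le_antisymm (a2.trans (by simp [z1])) (norm_nonneg _)
      rw [this, z1]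
      exact ⟨by simp, by simpa using i1, by simpa using i2⟩
    by_cases z2 : g (φ y) = 0
    · rw [z2]
      exact ⟨by simp, by simpa using i1, by simpa using i2⟩
    obtain ⟨v1, v2⟩ := hV y (yb y z1) (by linarith [k4 _ z2])
    obtain ⟨κ, κ0, κ1, hκ⟩ := k5 (φ y)
    rw [indicator_of_mem (yb y z1), indicator_of_mem (yb y z1)]
    exact ptw (Real.exp_pos _).le κ0 κ1 a0 a1 (by positivity) l0 (norm_nonneg _) a2 ε0.le hκ
      (by rw [(ex2 _).1]; exact v1) v2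
  have iY : Integrable fun y => (ξ y ^ 4 * g (φ y)) ^ 2 * V y := by
    refine Continuous.integrable_of_hasCompactSupport ((((x1.continuous.pow 4).mul
      (gc.comp hS.c1.continuous)).pow 2).mul hS.cV) (zc.mono fun y hy h => hy ?_)
    simp only [h]
    norm_num
  obtain ⟨j1, j2⟩ := int_ind (m := m) (R / ε) (l ^ 5 * (c / (R / ε)) ^ 7) ρ0
  obtain ⟨j3, j4⟩ := int_ind (m := m) (R / ε) ((7 * ε) ^ 5) ρ0
  obtain ⟨j5, j6⟩ := int_ind (m := m) (R / ε) 1 ρ0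
  obtain ⟨-, j8⟩ := int_ind (m := m) (r₀ / ε) ((ε * Real.exp (-(K / √2))) ^ 7 / 40) (by positivity)
  have I1 := integral_mono_of_nonneg (μ := volume)
    (Eventually.of_forall fun y => mul_nonneg (sq_nonneg _) (sq_nonneg _))
    ((iY.const_mul (40 / l ^ 2)).add j1) (Eventually.of_forall fun y => (P y).2.1)
  have I2 := integral_mono_of_nonneg (μ := volume) (Eventually.of_forall fun y => sq_nonneg _) j3
    (Eventually.of_forall fun y => (P y).2.2)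
  have I3 := integral_mono_of_nonneg (μ := volume) (f := fun y => (ξ y ^ 4) ^ 2)
    (Eventually.of_forall fun y => sq_nonneg _) j5 (Eventually.of_forall fun y => by
      by_cases z1 : ξ y = 0
      · simpa [z1] using indicator_nonneg (s := ball (0 : E m) (R / ε)) (f := fun _ => (1 : ℝ))
          (fun _ _ => zero_le_one) y
      rw [indicator_of_mem (yb y z1)]
      exact pow_le_one₀ (pow_nonneg (x2 y).1 4) (pow_le_one₀ (x2 y).1 (x2 y).2.1))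
  have I4 := integral_mono_of_nonneg (μ := volume)
    (f := (ball (0 : E m) (r₀ / ε)).indicator fun _ => (ε * Real.exp (-(K / √2))) ^ 7 / 40)
    (Eventually.of_forall fun y => indicator_nonneg (fun _ _ => by positivity) y) iY
    (Eventually.of_forall fun y => indicator_le' (fun y hy => ?_) (fun y _ => (P y).1) y)
  · simp only [Pi.add_apply] at I1
    rw [integral_add (iY.const_mul _) j1, integral_const_mul, j2] at I1
    exact ari K0 hl δ0 ε0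
      (ENNReal.toReal_pos (measure_ball_pos _ _ one_pos).ne' measure_ball_lt_top.ne)
      (integral_nonneg fun y => (P y).1) G F I1 (I2.trans_eq j4) (I3.trans_eq j6) (j8.ge.trans I4)
  have b1 := hφ y hy
  have b2 : ‖y‖ ≤ R / ε / 2 := by
    rw [mem_ball_zero_iff] at hy
    rw [div_right_comm]
    exact hy.le.trans (div_le_div_of_nonneg_right (by linarith) ε0.le)
  have b3 : √2 * lg ε ≤ 2 * lg ε := mul_le_mul_of_nonneg_right s2.2 (by linarith)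
  have b4 := le_abs_self K
  obtain ⟨v1, -⟩ := hV y (by rw [mem_ball_zero_iff]; linarith) (by linarith)
  rw [x3 y b2]
  exact low ε0 b1 v1 (k6 _ (by linarith))

end Vale.Agent.P134B
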