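import Vale.Agent.P134B.Spec

/-!
# P134B, row FOOT: a zero near a point of bounded phase
-/

set_option linter.all false

open MeasureTheory Metric Filter Topology Set
open scoped ContDiff RealInnerProductSpace
open Vale.Agent.P366.Stmt (E)

namespace Vale.Agent.P134B

/-- row FOOT -/
theorem foot : rFOOT := by
  intro seg n C A
  obtain ⟨K, K1, hK⟩ := seg n C (3 * A + 1)
  refine ⟨K * (2 * A), 1 / (4 * K * (1 + 2 * |A|) ^ 2), by positivity,
    fun u ε x ok e0 e1 gd hA => ?_⟩
  have A0 : 0 ≤ A := (abs_nonneg _).trans hA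
  rw [abs_of_nonneg A0, le_div_iff₀ (by positivity)] at e1
  have k0 : 0 < K * ε := by positivity
  have k1 : K * ε ≤ 1 / 4 := by nlinarith [mul_nonneg k0.le A0, mul_nonneg k0.le (sq_nonneg A)]
  have k2 : K * ε * (2 * A) ≤ 1 / 4 := by
    nlinarith [mul_nonneg k0.le A0, mul_nonneg k0.le (sq_nonneg A)]
  have k3 : K * ε * (2 * A) ^ 2 ≤ 1 := by nlinarith [mul_nonneg k0.le A0]
  have k4 : K * ε ^ 2 ≤ 1 / 4 := by nlinarith
  obtain ⟨σ, s1, s2⟩ : ∃ σ : ℝ, |σ| = 1 ∧ σ * ps u x = -|ps u x| := by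
    rcases le_total 0 (ps u x) with h | h
    exacts [⟨-1, by simp, by rw [abs_of_nonneg h]; ring⟩, ⟨1, by simp, by rw [abs_of_nonpos h]; ring⟩]
  have s3 : σ * σ = 1 := by rw [← abs_mul_abs_self, s1, one_mul]
  have p1 : ‖pp u x‖ ≤ 1 := (sq_le_one_iff₀ (norm_nonneg _)).1 (sub_nonneg.1 (ok.q0 x))
  have v1 : ‖σ • pp u x‖ ≤ 1 := by rwa [norm_smul, Real.norm_eq_abs, s1, one_mul]
  have nz : ∀ t ∈ Icc 0 (2 * A), ‖x + t • σ • pp u x - x‖ ≤ 2 * A := fun t ht => by
    rw [add_sub_cancel_left, norm_smul, Real.norm_of_nonneg ht.1]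
    exact (mul_le_of_le_one_right ht.1 v1).trans ht.2
  have sg := hK u ε x (σ • pp u x) (2 * A) ok e0 v1 (by positivity)
    (fun t ht => gd _ (mem_ball_iff_norm.2 ((nz t ht).trans_lt (lt_add_one _)))) (by
      have : |pe u (σ • pp u x) x| ≤ 1 :=
        (abs_real_inner_le_norm _ _).trans (mul_le_one₀ p1 (norm_nonneg _) v1)
      nlinarith)
  have dg : ∀ t, HasDerivAt (fun t : ℝ => σ * ps u (x + t • σ • pp u x))
      (σ * ⟪pp u (x + t • σ • pp u x), σ • pp u x⟫) t := fun t => by
    have h1 : HasDerivAt (fun t : ℝ => x + t • σ • pp u x) (σ • pp u x) t := by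
      simpa using ((hasDerivAt_id t).smul_const (σ • pp u x)).const_add x
    exact ((ok.smp.differentiable (by simp) _).hasGradientAt.hasFDerivAt.comp_hasDerivAt t
      h1).const_mul σ
  have cg : Continuous fun t : ℝ => σ * ps u (x + t • σ • pp u x) :=
    continuous_iff_continuousAt.2 fun t => (dg t).continuousAt
  have mv := (convex_Icc 0 (2 * A)).mul_sub_le_image_sub_of_le_deriv (C := 1 / 2) cg.continuousOn
    (fun t _ => (dg t).differentiableAt.differentiableWithinAt) (fun t ht => by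
      have ht := interior_subset ht
      have q0 := (sg 0 (left_mem_Icc.2 (by positivity))).2
      have h1 := (sg t ht).1
      rw [zero_smul, add_zero, qq] at q0
      rw [(dg t).deriv, real_inner_smul_right, ← mul_assoc, s3, one_mul,
        ← sub_add_cancel (pp u (x + _)) (pp u x), inner_add_left, real_inner_self_eq_norm_sq]
      have h2 := (abs_le.1 ((abs_real_inner_le_norm _ (pp u x)).trans
        ((mul_le_of_le_one_right (norm_nonneg _) p1).trans h1))).1
      linarith [mul_le_mul_of_nonneg_left ht.2 k0.le])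
    0 (left_mem_Icc.2 (by positivity)) (2 * A) (right_mem_Icc.2 (by positivity)) (by positivity)
  simp only [zero_smul, add_zero] at mv
  obtain ⟨t, ht, h0⟩ := intermediate_value_Icc (show 0 ≤ 2 * A by positivity) cg.continuousOn
    (show (0 : ℝ) ∈ _ from ⟨by simp only [zero_smul, add_zero, s2]; linarith [abs_nonneg (ps u x)],
      by linarith⟩)
  refine ⟨x + t • σ • pp u x, ?_, nz t ht, ?_⟩
  · rw [ok.th, (mul_eq_zero.1 h0).resolve_left (by rintro rfl; simp at s1), zero_div,
      Real.tanh_zero]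
  · rw [norm_sub_rev]
    nlinarith [(sg t ht).1, mul_le_mul_of_nonneg_left ht.2 k0.le]

end Vale.Agent.P134B
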