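import Vale.Agent.P134B.Spec2

/-!
# P134B, row GC1: the gain of a column
-/

open MeasureTheory Metric Filter Topology Set
open scoped ContDiff RealInnerProductSpace
open Vale.Agent.P366.Stmt (E)
open Vale.Agent.P366W (Fr adj smooth_gradient)

noncomputable section

namespace Vale.Agent.P134B

namespace Gc1

theorem chi_zero {B : ℝ} {χ χ' : ℝ → ℝ} (h : Chi B χ χ') {s : ℝ} (hs : 9 / 10 < |s|) :
    χ' s = 0 := by
  have key : ∀ s, 9 / 10 < s → χ' s = 0 := fun s hs => (h.dv s).unique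
    ((hasDerivAt_const s (1 : ℝ)).congr_of_eventuallyEq
      ((lt_mem_nhds hs).mono fun r hr => h.hi r hr.le))
  rcases lt_abs.1 hs with h1 | h1
  · exact key s h1
  · rw [← h.ev, key _ h1]

theorem intg {M : Set ℝ} {a b : ℝ} {w g : ℝ → ℝ} (hm : MeasurableSet M) (hM : M ⊆ Icc a b)
    (hw : Continuous w) (hg : Continuous g) : Integrable fun t => w t * M.indicator g t := by
  have := (((hw.mul hg).continuousOn.integrableOn_compact (μ := volume)
    isCompact_Icc).mono_set hM).integrable_indicator hm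
  refine this.congr (Eventually.of_forall fun t => ?_)
  by_cases ht : t ∈ M <;> simp [ht]

/-- the computation on the line -/
theorem one {ε δ T φ τ K B : ℝ} {ψ s d q u f χ χ' ν : ℝ → ℝ} {M₀ M₁ : Set ℝ}
    (h : Ln ε δ T ψ s d q u f) (hχ : Chi B χ χ') (cν : Continuous ν) (hν : ∀ t, |d t| ≤ ν t)
    (col : ∀ t, |t| ≤ T → |s t| ≤ 19 / 20 → 0 < u t → (√2 - 25 * δ) * q t ≤ -d t)
    (m0 : MeasurableSet M₀) (m1 : MeasurableSet M₁) (b0 : M₀ ⊆ Icc (-T) T)
    (b1 : M₁ ⊆ Icc (φ - T) (φ + T)) (i0 : ∫ t in M₀, f t ≤ K) (i1 : ∫ t in M₁, f t ≤ K)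
    (g0 : ∀ t ∈ M₀, f t ^ 2 * q t ≤ ε ^ 2) (g1 : ∀ t ∈ M₁, f t ^ 2 * q t ≤ ε ^ 2)
    (eg : ∀ t ∈ Ioo 0 φ, 0 < u t ∧ (|s t| ≤ 9 / 10 → t ∈ M₀ ∩ M₁)) (φ0 : 0 < φ) (φ1 : φ ≤ T / 8)
    (τ0 : 0 ≤ τ) :
    2 * (∫ t in (0 : ℝ)..φ, χ' (s t) * -d t * (f t ^ 2 * q t)) - 2 * √2 * K * (τ * ε ^ 2) ≤
      ∫ t, f t ^ 2 * kp (t / (T / 2)) ^ 2 *
        ((M₀ ∩ M₁).indicator (fun t => 3 / 2 * χ' (s t) * ν t ^ 2) t -
          τ * (M₀.indicator (fun t => √2 * f t * q t) t +
            M₁.indicator (fun t => √2 * f t * q t) t)) := by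
  have cs : Continuous s := continuous_iff_continuousAt.2 fun t => (h.ds t).continuousAt
  have cu : Continuous u := continuous_iff_continuousAt.2 fun t => (h.du t).continuousAt
  have cf : Continuous f := by
    rw [show f = fun t => (1 - u t ^ 2) / √2 from funext h.fe]
    fun_prop
  have cq := h.cq
  have cd := h.cd
  have cχ := hχ.ct
  have ck : Continuous kp := kp.continuous
  have f0 : ∀ t, 0 < f t := fun t => lt_of_lt_of_le (by positivity) (h.flo t)
  have T0 : 0 < T := one_pos.trans_le h.T1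
  have r2 : (141 / 100 : ℝ) ≤ √2 := Real.le_sqrt_of_sq_le (by norm_num)
  have cw : Continuous fun t => f t ^ 2 * kp (t / (T / 2)) ^ 2 := by fun_prop
  have cP : Continuous fun t => √2 * f t * q t := by fun_prop
  have j0 : IntegrableOn f M₀ := (cf.continuousOn.integrableOn_compact isCompact_Icc).mono_set b0
  have j1 : IntegrableOn f M₁ := (cf.continuousOn.integrableOn_compact isCompact_Icc).mono_set b1
  have j2 : IntegrableOn (fun t => χ' (s t) * -d t * (f t ^ 2 * q t)) (Ioo 0 φ) :=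
    (Continuous.continuousOn (by fun_prop)).integrableOn_compact isCompact_Icc |>.mono_set
      Ioo_subset_Icc_self
  have k0 := j0.integrable_indicator m0
  have k1 := j1.integrable_indicator m1
  have k2 := j2.integrable_indicator measurableSet_Ioo
  have k3 : Integrable fun t => M₀.indicator f t + M₁.indicator f t := k0.add k1
  have pB : ∀ M : Set ℝ, (∀ t ∈ M, f t ^ 2 * q t ≤ ε ^ 2) → ∀ t,
      f t ^ 2 * kp (t / (T / 2)) ^ 2 * M.indicator (fun t => √2 * f t * q t) t ≤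
        √2 * ε ^ 2 * M.indicator f t := fun M hM t => by
    by_cases ht : t ∈ M
    · rw [indicator_of_mem ht, indicator_of_mem ht]
      have e1 : kp (t / (T / 2)) ^ 2 ≤ 1 := pow_le_one₀ kp.nonneg kp.le_one
      have e2 : f t ^ 2 * q t * kp (t / (T / 2)) ^ 2 ≤ ε ^ 2 * 1 :=
        mul_le_mul (hM t ht) e1 (sq_nonneg _) (sq_nonneg _)
      nlinarith [mul_le_mul_of_nonneg_left e2 (mul_nonneg (Real.sqrt_nonneg 2) (f0 t).le)]
    · simp [ht]
  have pA : ∀ t, 2 * (Ioo 0 φ).indicator (fun t => χ' (s t) * -d t * (f t ^ 2 * q t)) t ≤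
      f t ^ 2 * kp (t / (T / 2)) ^ 2 *
        (M₀ ∩ M₁).indicator (fun t => 3 / 2 * χ' (s t) * ν t ^ 2) t := fun t => by
    have nn : 0 ≤ f t ^ 2 * kp (t / (T / 2)) ^ 2 *
        (M₀ ∩ M₁).indicator (fun t => 3 / 2 * χ' (s t) * ν t ^ 2) t :=
      mul_nonneg (by positivity) (indicator_nonneg
        (fun t _ => mul_nonneg (mul_nonneg (by norm_num) (hχ.nn _)) (sq_nonneg _)) _)
    by_cases ht : t ∈ Ioo 0 φ
    swap
    · simpa [ht] using nn
    rw [indicator_of_mem ht]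
    rcases lt_or_ge (9 / 10) |s t| with hs | hs
    · simpa [chi_zero hχ hs] using nn
    have k1 : kp (t / (T / 2)) = 1 := kp.one_of_mem_closedBall (by
      rw [mem_closedBall_zero_iff, Real.norm_of_nonneg (div_nonneg ht.1.le (by positivity)),
        div_le_iff₀ (by positivity)]
      change t ≤ 1 / 2 * (T / 2)
      linarith [ht.2])
    rw [indicator_of_mem ((eg t ht).2 hs), k1]
    have c1 := col t (by rw [abs_of_pos ht.1]; linarith [ht.2]) (by linarith) (eg t ht).1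
    have q0 := h.q0 t
    have c2 : 4 / 3 * q t ≤ -d t := by nlinarith [h.d1]
    have c3 : d t ^ 2 ≤ ν t ^ 2 := sq_le_sq' (by linarith [neg_abs_le (d t), hν t])
      ((le_abs_self _).trans (hν t))
    have c4 : 4 / 3 * q t * -d t ≤ ν t ^ 2 := by nlinarith
    nlinarith [mul_le_mul_of_nonneg_left c4 (mul_nonneg (hχ.nn (s t)) (sq_nonneg (f t)))]
  have I01 := intg (m0.inter m1) (inter_subset_left.trans b0) cw
    (g := fun t => 3 / 2 * χ' (s t) * ν t ^ 2) (by fun_prop)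
  have I0 := intg m0 b0 cw cP
  have I1 := intg m1 b1 cw cP
  have le := integral_mono (μ := volume) ((k2.const_mul 2).sub
    ((k3.const_mul (√2 * ε ^ 2)).const_mul τ)) (I01.sub ((I0.add I1).const_mul τ))
    fun t => sub_le_sub (pA t) (mul_le_mul_of_nonneg_left ((add_le_add (pB M₀ g0 t)
      (pB M₁ g1 t)).trans_eq (mul_add _ _ _).symm) τ0)
  refine le_trans ?_ (le.trans_eq (integral_congr_ae (Eventually.of_forall fun t => ?_)))
  · simp only [Pi.sub_apply]
    rw [integral_sub (k2.const_mul 2) ((k3.const_mul (√2 * ε ^ 2)).const_mul τ),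
      integral_const_mul, integral_const_mul, integral_const_mul, integral_add k0 k1,
      integral_indicator m0, integral_indicator m1, integral_indicator measurableSet_Ioo,
      intervalIntegral.integral_of_le φ0.le, integral_Ioc_eq_integral_Ioo]
    nlinarith [mul_le_mul_of_nonneg_left (add_le_add i0 i1)
      (mul_nonneg τ0 (mul_nonneg (Real.sqrt_nonneg 2) (sq_nonneg ε)))]
  · simp only [Pi.sub_apply, Pi.add_apply]
    ring

end Gc1

/-- **GC1** -/
theorem gc1 : rGC1 := by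
  intro ln col cs _ eg m C B
  obtain ⟨K, cs⟩ := cs
  obtain ⟨_, -, eg⟩ := eg m C B
  refine ⟨2 * √2 * |K|, by positivity, fun ε δ r T τ u z e L h₀ h₁ β Λ χ χ' p τ0 pr y hy hφ => ?_⟩
  obtain ⟨l0, w0, c0, -⟩ := ln m C ε δ r T u z e L h₀ p.l0 y hy
  obtain ⟨l1, w1, -⟩ := ln m C ε δ r T u z (-e) L _ p.l1 y hy
  obtain ⟨m0, -, i0, -⟩ := cs _ _ _ (-(19 / 20)) _ _ _ _ _ _ l0 le_rfl (by norm_num)
  obtain ⟨m1, -, i1, -⟩ := cs _ _ _ (-(19 / 20)) _ _ _ _ _ _ l1 le_rfl (by norm_num)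
  obtain ⟨-, -, -, -, eg⟩ := (eg ε δ r T τ u z e L h₀ h₁ β Λ χ χ' p τ0 pr).2 y hy hφ
  have px : ∀ t, pt z (-e) L y (-h₁ y + (h₁ y - h₀ y - t)) = pt z e L y (h₀ y + t) := fun t => by
    simp only [pt]
    module
  have cx : Continuous fun t => pt z e L y (h₀ y + t) := by
    unfold pt
    fun_prop
  have cS : Continuous (SS u) := (smooth_gradient p.l0.ok.smp).continuous_fderiv (by simp)
  have e0 : (fun t => pt z e L y (h₀ y + t)) ⁻¹' W0 u z e L r h₀ T = Iv _ T _ :=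
    Set.ext fun t => w0 _ t
  have e1 : (fun t => pt z e L y (h₀ y + t)) ⁻¹' W1 u z e L r h₁ T =
      (fun t => h₁ y - h₀ y - t) ⁻¹' Iv _ T _ := Set.ext fun t => by
    rw [mem_preimage, ← px]
    exact w1 _ _
  have n1 := m1.preimage (f := fun t => h₁ y - h₀ y - t) (by fun_prop)
  have key := Gc1.one (φ := h₁ y - h₀ y) (τ := τ) (K := |K|)
    (ν := fun t => ‖SS u (pt z e L y (h₀ y + t)) e‖)
    (M₀ := (fun t => pt z e L y (h₀ y + t)) ⁻¹' W0 u z e L r h₀ T)
    (M₁ := (fun t => pt z e L y (h₀ y + t)) ⁻¹' W1 u z e L r h₁ T) l0 pr.ch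
    ((cS.comp cx).clm_apply continuous_const).norm
    (fun t => by simpa [p.l0.gr.fr.one] using abs_real_inner_le_norm (SS u _ e) e)
    (fun t h1 h2 => ((col _ _ _ 0 _ _ _ _ _ _ l0 (by norm_num) (by norm_num)).2.1 t h1 h2).2.2.2)
    (e0 ▸ m0) (e1 ▸ n1) (e0 ▸ fun t ht => abs_le.1 ht.1.le)
    (e1 ▸ fun t ht => ⟨by linarith [(abs_lt.1 ht.1).2], by linarith [(abs_lt.1 ht.1).1]⟩)
    (e0 ▸ i0.trans (le_abs_self K))
    (by
      refine le_trans (le_of_eq ?_) (i1.trans (le_abs_self K))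
      rw [e1, ← integral_indicator n1, ← integral_indicator m1]
      refine Eq.trans (integral_congr_ae (Eventually.of_forall fun t => ?_))
        (integral_sub_left_eq_self _ volume (h₁ y - h₀ y))
      simp only [← px]
      rfl)
    (e0 ▸ fun t ht => l0.gd t ht.1.le)
    (e1 ▸ fun t ht => by simpa only [px] using l1.gd _ ht.1.le)
    (fun t ht => eg _ ⟨by linarith [ht.1], by linarith [ht.2]⟩) (sub_pos.2 (p.lt y hy)) hφ τ0
  have e2 := intervalIntegral.integral_comp_add_left (a := 0) (b := h₁ y - h₀ y)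
    (fun t => (fun x => χ' (pe u e x) * -⟪SS u x e, e⟫ * EE u x) (pt z e L y t)) (h₀ y)
  rw [add_zero, add_sub_cancel] at e2
  rw [Eg, ← e2]
  simp only [c0]
  exact key

end Vale.Agent.P134B
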