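import Vale.Agent.P134B.Spec2

/-!
# P134B, row GC2: the mass of a column
-/

open MeasureTheory Metric Filter Topology Set
open scoped RealInnerProductSpace
open Vale.Agent.P366.Stmt (E)

noncomputable section

namespace Vale.Agent.P134B

theorem gc2_tail {a : ℝ} (h : 0 < a) :
    ∫ t in {t : ℝ | a ≤ |t|}, Real.exp (-2 * |t|) = Real.exp (-2 * a) := by
  rw [← integral_indicator (measurableSet_le measurable_const measurable_abs)]
  refine (integral_comp_abs (f := (Ici a).indicator fun t => Real.exp (-2 * t))).trans ?_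
  rw [setIntegral_indicator measurableSet_Ici, inter_eq_right.2 (Ici_subset_Ioi.2 h),
    integral_Ici_eq_integral_Ioi, integral_exp_mul_Ioi (by norm_num)]
  ring

/-- a part of the mass of a column -/
theorem gc2_col {K ε δ T c : ℝ} {ψ s d q u f w : ℝ → ℝ} {I : Set ℝ} (H : Ln ε δ T ψ s d q u f)
    (hI : MeasurableSet I) (sI : I ⊆ Iv s T c) (hf : ∀ t ∈ Iv s T c, f t ≤ K * Real.exp (-|t|))
    (cw : Continuous w) (w1 : ∀ t, w t ≤ 1) :
    ∃ A, (I.indicator fun t => f t ^ 2 * w t) = A ∧ Integrable A ∧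
      ∀ t, A t ≤ K ^ 2 * Real.exp (-2 * |t|) := by
  have cu : Continuous u := continuous_iff_continuousAt.2 fun t => (H.du t).continuousAt
  have cf : Continuous f := by
    rw [funext H.fe]
    fun_prop
  refine ⟨_, rfl, ((((cf.pow 2).mul cw).integrableOn_Icc (a := -T) (b := T)).mono_set fun t ht =>
    abs_le.1 (sI ht).1.le).integrable_indicator hI,
    fun t => indicator_apply_le' (fun ht => ?_) fun _ => by positivity⟩
  refine (mul_le_of_le_one_right (sq_nonneg _) (w1 t)).trans
    ((pow_le_pow_left₀ (le_trans (by positivity) (H.flo t)) (hf t (sI ht)) 2).trans_eq ?_)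
  rw [mul_pow, ← Real.exp_nat_mul]
  ring_nf

theorem gc2 : rGC2 := by
  rintro ln ⟨K, cs⟩ - m C B
  refine ⟨3 * K ^ 2 + 3 * |K|, by positivity, ?_⟩
  intro ε δ r T τ u z e L h₀ h₁ β Λ χ χ' P _ _ y hy hφ
  have φ0 := sub_pos.2 (P.lt y hy)
  obtain ⟨l0, w0, -⟩ := ln m C ε δ r T u z e L h₀ P.l0 y hy
  obtain ⟨l1, w1, -⟩ := ln m C ε δ r T u z (-e) L _ P.l1 y hy
  obtain ⟨m0, a0, -, b0, d0, -⟩ := cs ε δ T (-(19 / 20)) _ _ _ _ _ _ l0 le_rfl (by norm_num)
  obtain ⟨m1, a1, -, -, d1, -⟩ := cs ε δ T (-(19 / 20)) _ _ _ _ _ _ l1 le_rfl (by norm_num)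
  have cs : ∀ {ψ s d q u f}, Ln ε δ T ψ s d q u f → Continuous s ∧ ∀ t, max (s t) 0 ≤ 1 :=
    fun H => ⟨continuous_iff_continuousAt.2 fun t => (H.ds t).continuousAt,
      fun t => max_le (by nlinarith [H.sq t, H.q0 t]) zero_le_one⟩
  have m2 := m0.inter (measurableSet_le (cs l0).1.measurable (measurable_const (a := 9 / 10)))
  obtain ⟨A, hA, i0, p0⟩ :=
    gc2_col l0 m0 subset_rfl d0 ((cs l0).1.max continuous_const) (cs l0).2
  obtain ⟨B, hB, i1, p1⟩ :=
    gc2_col l1 m1 subset_rfl d1 ((cs l1).1.max continuous_const) (cs l1).2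
  obtain ⟨D, hD, i2, p2⟩ := gc2_col l0 m2 inter_subset_left d0 continuous_const
    fun _ => le_rfl
  simp only [mul_one] at hD
  rw [← integral_indicator m0, hA] at a0
  rw [← integral_indicator m1, hB] at a1
  rw [← integral_indicator m2, hD] at b0
  have key : ∀ t, ff u (pt z e L y (h₀ y + t)) ^ 2 * HH u z e L r h₀ h₁ T (pt z e L y (h₀ y + t)) =
      A t + B (h₁ y - h₀ y - t) + D t := fun t => by
    have g : pt z (-e) L y (-h₁ y + (h₁ y - h₀ y - t)) = pt z e L y (h₀ y + t) := by
      simp only [pt]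
      module
    have w := w1 (-(19 / 20)) (h₁ y - h₀ y - t)
    rw [g] at w
    classical
    simp only [← hA, ← hB, ← hD, HH, W0, W1, indicator_apply, mem_inter_iff, w0, w, g, mul_add,
      mul_ite, mul_zero, mul_one, mem_ofPred_eq]
    simp only [pe, inner_neg_right]
  have i3 := i1.comp_sub_left (h₁ y - h₀ y)
  have T0 : 0 < T / 4 := by linarith
  have tl := gc2_tail T0
  simp only [key]
  refine ⟨(i0.add i3).add i2, ?_, ?_⟩
  · rw [integral_add (i0.fun_add i3) i2, integral_add i0 i3, integral_sub_left_eq_self B]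
    nlinarith [mul_le_mul_of_nonneg_right (le_abs_self K) (sq_nonneg ε), sq_nonneg (K * ε)]
  · refine (setIntegral_mono_on ((i0.add i3).add i2).integrableOn
      ((Integrable.of_integral_ne_zero (tl.trans_ne (Real.exp_ne_zero _))).const_mul
        (3 * K ^ 2 * Real.exp (T / 4))) (measurableSet_le measurable_const measurable_abs)
      fun t _ => ?_).trans ?_
    · have e1 : Real.exp (-2 * |h₁ y - h₀ y - t|) ≤ Real.exp (T / 4) * Real.exp (-2 * |t|) := by
        rw [← Real.exp_add, Real.exp_le_exp]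
        have := abs_sub_abs_le_abs_sub t (h₁ y - h₀ y)
        rw [abs_of_pos φ0, abs_sub_comm] at this
        linarith
      have e2 : Real.exp (-2 * |t|) ≤ Real.exp (T / 4) * Real.exp (-2 * |t|) :=
        le_mul_of_one_le_left (by positivity) (Real.one_le_exp T0.le)
      have := mul_le_mul_of_nonneg_left e1 (sq_nonneg K)
      have := mul_le_mul_of_nonneg_left e2 (sq_nonneg K)
      simp only [Pi.add_apply]
      linarith [p0 t, p1 (h₁ y - h₀ y - t), p2 t]
    · rw [integral_const_mul, tl, mul_assoc, ← Real.exp_add,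
        show T / 4 + -2 * (T / 4) = -(T / 4) by ring]
      exact mul_le_mul_of_nonneg_right (le_add_of_nonneg_right (by positivity)) (by positivity)

end Vale.Agent.P134B
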