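import Vale.Agent.P134B.Spec

/-!
# P134B: the row GD
-/

open MeasureTheory Metric Filter Topology Set
open scoped ContDiff RealInnerProductSpace
open Vale.Agent.P366.Stmt (E)
open Vale.Agent.P366W

noncomputable section

namespace Vale.Agent.P134B

namespace GdA

variable {m : ℕ} {C θ r : ℝ} {u : E (m + 1) → ℝ} {z e : E (m + 1)} {L : E m →ₗᵢ[ℝ] E (m + 1)}
  {h : E m → ℝ} {y : E m}

/-- the differential of the graph map -/
def J (e : E (m + 1)) (L : E m →ₗᵢ[ℝ] E (m + 1)) (a : E m) : E m →L[ℝ] E (m + 1) :=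
  L.toContinuousLinearMap + (innerSL ℝ a).smulRight e

theorem J_apply (a v : E m) : J e L a v = L v + ⟪a, v⟫ • e := rfl

theorem hX (hh : DifferentiableAt ℝ h y) :
    HasFDerivAt (fun y => pt z e L y (h y)) (J e L (gradient h y)) y := by
  refine ((L.toContinuousLinearMap.hasFDerivAt.const_add z).add
    (hh.hasFDerivAt.smul_const e)).congr_fderiv ?_
  ext1 v
  simp [J_apply]

theorem one (ok : Ok C u) (g : Gr u z e L r h θ) (hy : y ∈ ball (0 : E m) r) :
    adj L (pp u (pt z e L y (h y))) + pe u e (pt z e L y (h y)) • gradient h y = 0 := by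
  have h1 := (ok.smp.differentiable (by simp) _).hasFDerivAt.comp y
    (hX (z := z) (e := e) (L := L) (g.sm.differentiable (by simp) y))
  have h2 := h1.unique ((hasFDerivAt_const (0 : ℝ) y).congr_of_eventuallyEq
    ((isOpen_ball.eventually_mem hy).mono fun y' hy' => by simp [ps, g.ze y' hy']))
  refine ext_inner_left ℝ fun v => ?_
  have h3 := congrArg (fun M => M v) h2
  simp only [ContinuousLinearMap.comp_apply, zero_apply, ← inner_grad, J_apply, inner_add_right,
    real_inner_smul_right] at h3
  rw [inner_add_right, inner_adj, real_inner_smul_right, inner_zero_right, real_inner_comm,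
    real_inner_comm (gradient h y), mul_comm]
  exact h3

theorem two (ok : Ok C u) (g : Gr u z e L r h θ) (hy : y ∈ ball (0 : E m) r) :
    pe u e (pt z e L y (h y)) • fderiv ℝ (gradient h) y =
      -(adj L ∘L SS u (pt z e L y (h y)) ∘L J e L (gradient h y) +
        (innerSL ℝ e ∘L SS u (pt z e L y (h y)) ∘L J e L (gradient h y)).smulRight
          (gradient h y)) := by
  have h0 : HasFDerivAt (fun y => pp u (pt z e L y (h y)))
      (SS u (pt z e L y (h y)) ∘L J e L (gradient h y)) y :=
    ((smooth_gradient ok.smp).differentiable (by simp) _).hasFDerivAt.comp y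
      (hX (g.sm.differentiable (by simp) y))
  have h1 := ((adj L).hasFDerivAt.comp y h0).add (((innerSL ℝ e).hasFDerivAt.comp y h0).smul
    ((smooth_gradient g.sm).differentiable (by simp) y).hasFDerivAt)
  have h2 := h1.unique ((hasFDerivAt_const (0 : E m) y).congr_of_eventuallyEq
    ((isOpen_ball.eventually_mem hy).mono fun y' hy' => by
      simpa [pe, real_inner_comm] using one ok g hy'))
  rw [eq_neg_iff_add_eq_zero, ← h2, pe, real_inner_comm]
  simp only [Function.comp, innerSL_apply_apply]
  abel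

end GdA

open GdA

/-- row GD -/
theorem gd : GD := by
  intro m C θ r u z e L h ok g hθ y hy
  have h1 := one ok g hy
  have h2 := two ok g hy
  have h3 := g.ti y hy
  have hF := g.fr
  have tr : trc (SS u (pt z e L y (h y))) = 0 := by simp [ok.tr, g.ze y hy]
  have sy := ok.sy (pt z e L y (h y))
  have q0 := ok.q0 (pt z e L y (h y))
  have q1 := ok.q1 (pt z e L y (h y))
  rw [ok.gq] at q1
  have C1 := ok.C1
  rw [mc, lap, dvg_eq]
  rw [qq] at q0
  unfold pe at *
  generalize qq u (pt z e L y (h y)) = q at *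
  generalize pp u (pt z e L y (h y)) = p at *
  generalize SS u (pt z e L y (h y)) = S at *
  generalize fderiv ℝ (gradient h) y = B at *
  generalize gradient h y = a at *
  have s0 : 9 / 10 ≤ ⟪p, e⟫ := by
    have := (abs_le.1 ((abs_real_inner_le_norm (p - e) e).trans_eq (by rw [hF.one, mul_one]))).1
    rw [inner_sub_left, hF.ee] at this
    linarith
  have dp := hF.dec p
  rw [real_inner_comm] at dp
  generalize ⟪p, e⟫ = s at *
  have s1 : 0 < s := by linarith
  have e1 : adj L p = -(s • a) := eq_neg_of_add_eq_zero_left h1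
  have e2 : s * ‖a‖ ≤ θ := by
    have := (hF.norm_adj (p - e)).trans h3
    rwa [map_sub, hF.adj_e, sub_zero, e1, norm_neg, norm_smul, Real.norm_of_nonneg s1.le] at this
  have a0 := norm_nonneg a
  have a1 : ‖a‖ ≤ 1 / 9 := by nlinarith
  have e3 : ‖p‖ ^ 2 = s ^ 2 * (1 + ‖a‖ ^ 2) := by
    rw [← dp, hF.norm_sq, e1, norm_neg, norm_smul, Real.norm_of_nonneg s1.le]
    ring
  have p0 : 0 < ‖p‖ := by
    refine lt_of_pow_lt_pow_left₀ 2 (norm_nonneg _) ?_
    rw [e3, zero_pow two_ne_zero]
    positivity
  have hv : ∀ v, s • B v = -(adj L (S (J e L a v)) + ⟪e, S (J e L a v)⟫ • a) := fun v =>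
    congrArg (fun M => M v) h2
  refine ⟨?_, ?_, by nlinarith, ?_, ?_⟩
  · rw [e1, smul_neg, smul_smul, neg_mul, inv_mul_cancel₀ s1.ne']
    simp
  · rw [Nn, e1, smul_neg, smul_smul, ← neg_smul, show √(1 + ‖a‖ ^ 2) = ‖p‖ / s from by
      rw [Real.sqrt_eq_iff_mul_self_eq (by positivity) (by positivity)]
      field_simp
      linarith]
    congr 1
    field_simp
  · refine B.opNorm_le_bound (by positivity) fun v => ?_
    have n1 : ‖J e L a v‖ ≤ 10 / 9 * ‖v‖ := by
      rw [J_apply]
      refine (norm_add_le _ _).trans ?_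
      rw [L.norm_map, norm_smul, hF.one, Real.norm_eq_abs]
      nlinarith [abs_real_inner_le_norm a v, norm_nonneg v]
    have n2 := (S.le_opNorm _).trans (mul_le_mul_of_nonneg_left n1 (norm_nonneg S))
    have n3 := congrArg norm (hv v)
    generalize S (J e L a v) = w at *
    rw [norm_neg, norm_smul, Real.norm_of_nonneg s1.le] at n3
    have n4 := n3.trans_le (norm_add_le _ _)
    have n5 := abs_real_inner_le_norm e w
    rw [norm_smul, Real.norm_eq_abs] at n4
    rw [hF.one, one_mul] at n5
    have n6 := mul_le_mul n5 a1 a0 (norm_nonneg _)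
    nlinarith [hF.norm_adj w, norm_nonneg (B v), mul_nonneg (norm_nonneg S) (norm_nonneg v)]
  · have t1 : trc (adj L ∘L S ∘L L.toContinuousLinearMap) = -⟪e, S e⟫ := by
      have := hF.trc S
      rw [tr] at this
      rw [eq_neg_iff_add_eq_zero, this, trc]
      congr 1
      refine Finset.sum_congr rfl fun i _ => ?_
      rw [← inner_adj]
      simp [EuclideanSpace.inner_single_left]
    have t2 : adj L ∘L S ∘L J e L a = adj L ∘L S ∘L L.toContinuousLinearMap +
        (innerSL ℝ a).smulRight (adj L (S e)) := by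
      ext1 v
      simp [J_apply]
    have t3 := congrArg trc h2
    rw [trc_smul, ← neg_one_smul ℝ, trc_smul, trc_add, t2, trc_add, t1, trc_smulRight,
      trc_smulRight] at t3
    have t4 := congrArg (fun v => ⟪a, v⟫) (hv a)
    have t5 : p = s • (e - L a) := by
      rw [← dp, e1, map_neg, map_smul, smul_sub]
      abel
    have t6 : ⟪S p, p⟫ = s ^ 2 * (⟪e, S e⟫ - 2 * ⟪e, S (L a)⟫ + ⟪L a, S (L a)⟫) := by
      rw [sy, t5]
      simp only [map_smul, map_sub, real_inner_smul_left, real_inner_smul_right, inner_sub_left,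
        inner_sub_right, ← sy (L a) e, real_inner_comm e (S (L a))]
      ring
    simp only [ContinuousLinearMap.comp_apply, innerSL_apply_apply, J_apply, map_add, map_smul,
      inner_add_right, inner_neg_right, real_inner_smul_right, inner_adj, ← sy (L a) e,
      real_inner_comm e (S (L a)), real_inner_self_eq_norm_sq] at t3 t4
    have t7 : trc B - ⟪B a, a⟫ / (1 + ‖a‖ ^ 2) = ⟪S p, p⟫ / (s ^ 3 * (1 + ‖a‖ ^ 2)) := by
      rw [t6, real_inner_comm]
      field_simp
      linear_combination (1 + ‖a‖ ^ 2) * t3 - t4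
    have p1 : ‖p‖ ≤ 1 := by nlinarith
    have t8 := (abs_real_inner_le_norm (S p) p).trans (mul_le_of_le_one_right (norm_nonneg _) p1)
    rw [norm_smul, Real.norm_eq_abs, abs_neg, abs_two] at q1
    have t9 : 1 / 2 ≤ s ^ 3 * (1 + ‖a‖ ^ 2) := by
      nlinarith [pow_le_pow_left₀ (by norm_num) s0 3, mul_nonneg (pow_pos s1 3).le (sq_nonneg ‖a‖)]
    rw [t7, abs_div, abs_of_pos (show 0 < s ^ 3 * (1 + ‖a‖ ^ 2) by positivity),
      div_le_iff₀ (by positivity)]
    have t10 : 0 ≤ C * q := le_trans (by positivity) q1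
    linarith [mul_le_mul_of_nonneg_left t9 t10]

end Vale.Agent.P134B
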