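import Vale.Agent.P134B.Spec2
import Vale.Agent.P366D.Harn

/-!
# P134B: the inequality of Harnack for the gap (row HAR)
-/

open Metric Filter Topology Set
open scoped ContDiff RealInnerProductSpace
open Vale.Agent.P366.Stmt (E pd)
open Vale.Agent.P366W
open Vale.Agent.P366Z Vale.Agent.P366Z.Grad Vale.Agent.P366D

noncomputable section

namespace Vale.Agent.P134B

namespace Har

variable {m : ℕ}

/-- the coefficients of the operator of the minimal surfaces -/
def co (g : E m) (i j : Fin m) : ℝ := (if i = j then 1 else 0) - g i * g j / (1 + ‖g‖ ^ 2)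

theorem cd_co (i j : Fin m) : ContDiff ℝ 1 fun g : E m => co g i j := by
  have h : ∀ k, ContDiff ℝ 1 fun g : E m => g k := fun k => (EuclideanSpace.proj k : E m →L[ℝ] ℝ).contDiff
  exact contDiff_const.sub (((h i).mul (h j)).div (contDiff_const.add (contDiff_norm_sq ℝ))
    fun g => by positivity)

theorem bd_co (m : ℕ) : ∃ B ≥ (0 : ℝ), ∀ (i j : Fin m) (g : E m), ‖g‖ ≤ 1 →
    ‖fderiv ℝ (fun g : E m => co g i j) g‖ ≤ B := by
  have h : ∀ i j : Fin m, ∃ B, ∀ g ∈ closedBall (0 : E m) 1, ‖fderiv ℝ (fun g : E m => co g i j) g‖ ≤ B :=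
    fun i j => (isCompact_closedBall 0 1).exists_bound_of_continuousOn
      ((cd_co i j).continuous_fderiv one_ne_zero).continuousOn
  choose B hB using h
  refine ⟨∑ i, ∑ j, |B i j|, by positivity, fun i j g hg => ?_⟩
  refine (hB i j g (mem_closedBall_zero_iff.2 hg)).trans ((le_abs_self _).trans ?_)
  exact (Finset.single_le_sum (f := fun j => |B i j|) (fun _ _ => abs_nonneg _) (Finset.mem_univ j)).trans
    (Finset.single_le_sum (f := fun i => ∑ j, |B i j|) (fun _ _ => by positivity) (Finset.mem_univ i))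

theorem pr_co (g : E m) (H : Fin m → Fin m → ℝ) :
    pr (co g) H = (∑ i, H i i) - (∑ i, ∑ j, g i * g j * H i j) / (1 + ‖g‖ ^ 2) := by
  unfold pr co
  rw [Finset.sum_div, ← Finset.sum_sub_distrib]
  refine Finset.sum_congr rfl fun i _ => ?_
  simp only [sub_mul, Finset.sum_sub_distrib, ite_mul, one_mul, zero_mul, Finset.sum_ite_eq, Finset.mem_univ,
    if_true, Finset.sum_div]
  congr 1
  exact Finset.sum_congr rfl fun j _ => by ring

theorem pr_map (g : E m) (M : E m →L[ℝ] E m) :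
    pr (co g) (fun i j => M (EuclideanSpace.single i 1) j) = trc M - ⟪M g, g⟫ / (1 + ‖g‖ ^ 2) := by
  rw [pr_co, inner_eq_sum, map_eq_sum M g]
  congr 2
  simp only [WithLp.ofLp_sum, Finset.sum_apply, PiLp.smul_apply, smul_eq_mul, Finset.sum_mul]
  rw [Finset.sum_comm]
  exact Finset.sum_congr rfl fun i _ => Finset.sum_congr rfl fun j _ => by ring

theorem lo_co {g : E m} (hg : ‖g‖ ≤ 1) (ξ : Fin m → ℝ) : ∑ i, ξ i ^ 2 ≤ 2 * qf (co g) ξ := by
  have h1 : qf (co g) ξ = pr (co g) fun i j => ξ i * ξ j :=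
    Finset.sum_congr rfl fun i _ => Finset.sum_congr rfl fun j _ => by ring
  have h2 : ∑ i, ∑ j, g i * g j * (ξ i * ξ j) = (∑ i, g i * ξ i) ^ 2 := by
    rw [sq, Finset.sum_mul_sum]
    exact Finset.sum_congr rfl fun i _ => Finset.sum_congr rfl fun j _ => by ring
  have h3 := Finset.sum_mul_sq_le_sq_mul_sq Finset.univ (fun i => g i) ξ
  have h4 : ∑ i, g i ^ 2 = ‖g‖ ^ 2 := by rw [EuclideanSpace.real_norm_sq_eq]
  have h5 : ‖g‖ ^ 2 ≤ 1 := pow_le_one₀ (norm_nonneg _) hg
  have h6 : 0 ≤ ∑ i, ξ i ^ 2 := by positivity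
  rw [h1, pr_co, h2]
  simp only [← sq]
  rw [h4] at h3
  have h7 : (∑ i, g i * ξ i) ^ 2 / (1 + ‖g‖ ^ 2) ≤ (∑ i, ξ i ^ 2) / 2 := by
    rw [div_le_iff₀ (by positivity)]
    nlinarith
  linarith

theorem hi_co {g : E m} (hg : ‖g‖ ≤ 1) (i j : Fin m) : |co g i j| ≤ 2 := by
  have h : ∀ k, |g k| ≤ 1 := fun k => le_trans (by simpa using PiLp.norm_apply_le g k) hg
  have h1 : |g i * g j / (1 + ‖g‖ ^ 2)| ≤ 1 := by
    rw [abs_div, abs_mul, abs_of_pos (by positivity : 0 < 1 + ‖g‖ ^ 2)]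
    exact div_le_one_of_le₀ ((mul_le_one₀ (h i) (abs_nonneg _) (h j)).trans (by nlinarith)) (by positivity)
  have h2 : |(if i = j then 1 else 0 : ℝ)| ≤ 1 := by split_ifs <;> simp
  exact (abs_sub _ _).trans (by linarith)

theorem lip (M : E m →L[ℝ] E m) {p q : E m} (hp : ‖p‖ ≤ 1) (hq : ‖q‖ ≤ 1) :
    |⟪M p, p⟫ / (1 + ‖p‖ ^ 2) - ⟪M q, q⟫ / (1 + ‖q‖ ^ 2)| ≤ 4 * ‖M‖ * ‖p - q‖ := by
  have p0 := norm_nonneg p
  have q0 := norm_nonneg q
  have M0 := norm_nonneg M
  have d0 := norm_nonneg (p - q)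
  have b : ∀ v w : E m, |⟪M v, w⟫| ≤ ‖M‖ * ‖v‖ * ‖w‖ := fun v w =>
    (abs_real_inner_le_norm _ _).trans (mul_le_mul_of_nonneg_right (M.le_opNorm v) (norm_nonneg _))
  have h1 : |⟪M p, p⟫ - ⟪M q, q⟫| ≤ 2 * (‖M‖ * ‖p - q‖) := by
    have e : ⟪M p, p⟫ - ⟪M q, q⟫ = ⟪M (p - q), p⟫ + ⟪M q, p - q⟫ := by
      rw [map_sub, inner_sub_left, inner_sub_right]; ring
    rw [e]
    refine (abs_add_le _ _).trans ?_
    have a1 := (b (p - q) p).trans (mul_le_of_le_one_right (by positivity) hp)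
    have a2 := (b q (p - q)).trans (mul_le_mul_of_nonneg_right (mul_le_of_le_one_right M0 hq) d0)
    linarith
  have h2 : |⟪M q, q⟫| ≤ ‖M‖ := (b q q).trans ((mul_le_of_le_one_right (by positivity) hq).trans
    (mul_le_of_le_one_right M0 hq))
  have h3 : |‖q‖ ^ 2 - ‖p‖ ^ 2| ≤ 2 * ‖p - q‖ := by
    rw [sq_sub_sq, abs_mul, abs_of_nonneg (by positivity), abs_sub_comm]
    exact mul_le_mul (by linarith) (abs_norm_sub_norm_le p q) (abs_nonneg _) (by norm_num)
  have e : ⟪M p, p⟫ / (1 + ‖p‖ ^ 2) - ⟪M q, q⟫ / (1 + ‖q‖ ^ 2) = (⟪M p, p⟫ - ⟪M q, q⟫) / (1 + ‖p‖ ^ 2) +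
      ⟪M q, q⟫ * (‖q‖ ^ 2 - ‖p‖ ^ 2) / ((1 + ‖p‖ ^ 2) * (1 + ‖q‖ ^ 2)) := by
    field_simp
    ring
  rw [e]
  refine (abs_add_le _ _).trans ?_
  rw [abs_div, abs_div, abs_mul, abs_of_pos (by positivity : 0 < 1 + ‖p‖ ^ 2),
    abs_of_pos (by positivity : 0 < (1 + ‖p‖ ^ 2) * (1 + ‖q‖ ^ 2))]
  have a1 := (div_le_self (abs_nonneg _) (by nlinarith : 1 ≤ 1 + ‖p‖ ^ 2)).trans h1
  have a2 := (div_le_self (by positivity) (by nlinarith [mul_nonneg (sq_nonneg ‖p‖) (sq_nonneg ‖q‖)] :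
    1 ≤ (1 + ‖p‖ ^ 2) * (1 + ‖q‖ ^ 2))).trans (mul_le_mul h2 h3 (abs_nonneg _) M0)
  linarith

theorem pd_pd {f : E m → ℝ} (hf : ContDiff ℝ ∞ f) (x : E m) (i j : Fin m) :
    pd i (pd j f) x = fderiv ℝ (gradient f) x (EuclideanSpace.single i 1) j := by
  have h1 : pd j f = fun y => gradient f y j := by
    ext y
    rw [pd_eq (hf.differentiable (by simp) y), ← inner_grad, EuclideanSpace.inner_single_right]
    simp
  have h2 := (EuclideanSpace.proj j : E m →L[ℝ] ℝ).hasFDerivAt.comp x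
    ((smooth_gradient hf).differentiable (by simp) x).hasFDerivAt
  rw [h1]
  exact pd_of_hasFDerivAt h2 i

theorem sc {F : Type} [NormedAddCommGroup F] [NormedSpace ℝ F] {f : E m → F} (hf : ContDiff ℝ ∞ f) (c : ℝ)
    (y : E m) : HasFDerivAt (fun y => f (c • y)) (c • fderiv ℝ f (c • y)) y := by
  have h := (hf.differentiable (by simp) (c • y)).hasFDerivAt.comp y ((hasFDerivAt_id y).const_smul c)
  refine h.congr_fderiv ?_
  ext v
  simp

end Har

open Har in
/-- **HAR** -/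
theorem har : HAR := by
  intro m K hm
  obtain ⟨B, B0, hB⟩ := bd_co m
  have K0 := abs_nonneg K
  have BK := mul_nonneg B0 K0
  obtain ⟨R₀, hR₀, C, hC, H⟩ := harn (Λ := 2 + 4 * |K| + B * |K|) hm (by linarith)
  refine ⟨min R₀ (1 / 7), lt_min hR₀ (by norm_num), (min_le_right _ _).trans (by norm_num), C * (K + 1), ?_⟩
  intro ε a h₀ h₁ hε c0 c1 h hK y hy
  have hK0 : 0 ≤ K := nonneg_of_mul_nonneg_left
    ((norm_nonneg _).trans (h 0 (mem_ball_self (by positivity))).2.2.1) hε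
  rw [abs_of_nonneg hK0] at H BK
  set c := ε⁻¹ with hc
  have hc0 : 0 < c := inv_pos.2 hε
  have hcε : c * ε = 1 := inv_mul_cancel₀ hε.ne'
  set w : E m → ℝ := fun y => h₁ (c • y) - h₀ (c • y) - a + 1 with hw
  have cs : ContDiff ℝ ∞ fun y : E m => c • y := contDiff_id.const_smul c
  have cw : ContDiff ℝ ∞ w := (((c1.comp cs).sub (c0.comp cs)).sub contDiff_const).add contDiff_const
  have g1 : gradient w = fun y => c • (gradient h₁ (c • y) - gradient h₀ (c • y)) := by
    ext1 y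
    refine ext_inner_right ℝ fun v => ?_
    rw [inner_grad, ((((sc c1 c y).fun_sub (sc c0 c y)).sub_const a).add_const 1).fderiv, real_inner_smul_left,
      inner_sub_left, inner_grad, inner_grad]
    simp only [sub_apply, smul_apply, smul_eq_mul]
    ring
  have g2 : ∀ y, fderiv ℝ (gradient w) y =
      (c * c) • (fderiv ℝ (gradient h₁) (c • y) - fderiv ℝ (gradient h₀) (c • y)) := fun y => by
    rw [g1, (((sc (smooth_gradient c1) c y).fun_sub (sc (smooth_gradient c0) c y)).fun_const_smul c).fderiv,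
      ← smul_sub, smul_smul]
  have key := H (fun y => co (gradient h₁ (c • y))) w 0 (min R₀ (1 / 7)) (lt_min hR₀ (by norm_num))
    (min_le_left _ _) (fun x hx => by
      have hx' : c • x ∈ ball (0 : E m) (1 / ε) := by
        rw [mem_ball_zero_iff, norm_smul, Real.norm_of_nonneg hc0.le, one_div, ← hc]
        have := mem_closedBall_zero_iff.1 hx
        exact mul_lt_of_lt_one_right hc0 (by linarith [min_le_right R₀ (1 / 7)])
      obtain ⟨a1, a2, a3, a4, a5, a6, a7⟩ := h _ hx'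
      have w1 : 1 ≤ w x := by simp only [hw]; linarith
      refine ⟨⟨fun i j => by simp only [co, mul_comm, eq_comm], fun ξ => ?_, fun i j => (hi_co a2 i j).trans
        (by linarith), fun i j => ?_⟩, cw.contDiffAt.of_le (by norm_cast), by linarith, ?_⟩
      · have b1 := lo_co a2 ξ
        have b2 : 0 ≤ ∑ i, ξ i ^ 2 := by positivity
        exact b1.trans (mul_le_mul_of_nonneg_right (by linarith) (by linarith))
      · have d := ((cd_co i j).differentiable one_ne_zero (gradient h₁ (c • x))).hasFDerivAt.comp x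
          (sc (smooth_gradient c1) c x)
        refine ⟨d.differentiableAt, le_trans (le_of_eq (congrArg _ d.fderiv)) ?_⟩
        refine (ContinuousLinearMap.opNorm_comp_le _ _).trans (le_trans (mul_le_mul (hB i j _ a2) (b := B) (d := K)
          ?_ (norm_nonneg _) B0) (by linarith))
        rw [norm_smul, Real.norm_of_nonneg hc0.le]
        calc _ ≤ c * (K * ε) := mul_le_mul_of_nonneg_left a4 hc0.le
          _ = K := by rw [mul_left_comm, hcε, mul_one]
      · have e1 : Lu (fun y => co (gradient h₁ (c • y))) w x = c * c * (mc h₁ (c • x) - mc h₀ (c • x) +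
            (⟪fderiv ℝ (gradient h₀) (c • x) (gradient h₁ (c • x)), gradient h₁ (c • x)⟫ /
              (1 + ‖gradient h₁ (c • x)‖ ^ 2) -
            ⟪fderiv ℝ (gradient h₀) (c • x) (gradient h₀ (c • x)), gradient h₀ (c • x)⟫ /
              (1 + ‖gradient h₀ (c • x)‖ ^ 2))) := by
          unfold Lu mc lap
          simp only [pd_pd cw]
          rw [pr_map, g2, trc_smul, trc_sub, dvg_eq, dvg_eq, smul_apply, real_inner_smul_left,
            sub_apply, inner_sub_left]
          ring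
        have e2 : ‖fderiv ℝ w x‖ = c * ‖gradient h₁ (c • x) - gradient h₀ (c • x)‖ := by
          rw [← norm_gradient, g1, norm_smul, Real.norm_of_nonneg hc0.le]
        have b1 := lip (fderiv ℝ (gradient h₀) (c • x)) a2 a1
        have d0 := norm_nonneg (gradient h₁ (c • x) - gradient h₀ (c • x))
        rw [e1, e2, abs_mul, abs_of_pos (mul_pos hc0 hc0)]
        generalize ‖gradient h₁ (c • x) - gradient h₀ (c • x)‖ = D at b1 d0 ⊢
        have b2 : 4 * ‖fderiv ℝ (gradient h₀) (c • x)‖ * D ≤ 4 * (K * ε) * D := by gcongr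
        have b3 := (abs_add_le _ _).trans (add_le_add ((abs_sub _ _).trans (add_le_add a6 a5)) (b1.trans b2))
        refine (mul_le_mul_of_nonneg_left b3 (mul_pos hc0 hc0).le).trans ?_
        have e3 : c * c * (K * ε ^ 2 + K * ε ^ 2 + 4 * (K * ε) * D) =
            2 * K * ((c * ε) * (c * ε)) + 4 * K * (c * D) * (c * ε) := by ring
        rw [e3, hcε]
        have b4 : 0 ≤ c * D := by positivity
        nlinarith [mul_nonneg hK0 b4, mul_nonneg BK b4, mul_le_mul_of_nonneg_left w1 hK0,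
          mul_nonneg BK (zero_le_one.trans w1)])
    (ε • y) (by
      rw [mem_closedBall_zero_iff, norm_smul, Real.norm_of_nonneg hε.le]
      exact ((lt_div_iff₀' hε).1 (mem_ball_zero_iff.1 hy)).le) 0
    (mem_closedBall_self (lt_min hR₀ (by norm_num)).le)
  simp only [hw, smul_smul, hcε, one_smul, smul_zero] at key
  have := mul_le_mul_of_nonneg_left (show h₁ 0 - h₀ 0 - a + 1 ≤ K + 1 by linarith) hC.le
  linarith

end Vale.Agent.P134B
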