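import Vale.Agent.P134B.Spec2
import Vale.Agent.P134T.Calc

/-!
# P134B, row JAC: the stability inequality for a product
-/

open MeasureTheory Metric Filter Topology Set
open scoped ContDiff RealInnerProductSpace
open Vale.Agent.P366.Stmt (E)
open Vale.Agent.P366W hiding Gr
open Vale.Agent.P134T

noncomputable section

namespace Vale.Agent.P134B

namespace JacAux

variable {n : ℕ} {C : ℝ} {u ζ M : E n → ℝ} {x : E n}

theorem cd_grad {k : WithTop ℕ∞} (h : ContDiffAt ℝ (k + 1) M x) :
    ContDiffAt ℝ k (gradient M) x :=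
  (InnerProductSpace.toDual ℝ (E n)).symm.toContinuousLinearEquiv.contDiff.contDiffAt.comp x
    (h.fderiv_right le_rfl)

theorem lap_ff (h : Ok C u) (x : E n) : lap (ff u) x = ff u x * (3 * u x ^ 2 - 1 + PP u x) := by
  have du := h.sm.differentiable (by simp) x
  have df := h.tcf.differentiable (by simp) x
  have dp := h.tcp.differentiable (by simp) x
  have d1 : DifferentiableAt ℝ (fun y => u y * ff u y) x := du.mul df
  have e : gradient (ff u) = fun y => (-√2 * (u y * ff u y)) • pp u y :=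
    funext fun y => by rw [h.gf]; congr 1; ring
  have s2 : √2 * √2 = 2 := Real.mul_self_sqrt zero_le_two
  have hf : √2 * ff u x = 1 - u x ^ 2 := by unfold ff; field_simp
  have hq : ‖pp u x‖ ^ 2 = 1 - qq u x := by unfold qq; ring
  unfold lap
  rw [e, dvg_smul (d1.const_mul _) dp, ← inner_grad, grad_cmul _ d1, grad_mul du df, h.gf, h.gu,
    dvg_eq, show trc (fderiv ℝ (pp u) x) = _ from h.tr x]
  simp only [inner_smul_left, inner_add_left, real_inner_self_eq_norm_sq, hq, conj_trivial, PP]
  linear_combination (u x ^ 2 * ff u x) * s2 - ff u x * hf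

/-- the test function -/
def φ (u ζ M : E n → ℝ) (x : E n) : ℝ := ff u x * (ζ x * M x)

/-- the gradient of `ff u * M` -/
def W (u M : E n → ℝ) (x : E n) : E n := ff u x • gradient M x + M x • gradient (ff u) x

/-- the field -/
def Y (u ζ M : E n → ℝ) (x : E n) : E n := (ζ x * φ u ζ M x) • W u M x

def A (u ζ M : E n → ℝ) (x : E n) : ℝ :=
  ff u x ^ 2 * ζ x ^ 2 * (M x * (Lf u M x + PP u x * M x))

theorem cd_φ (h : Ok C u) (h1 : ContDiffAt ℝ 1 ζ x) (h2 : ContDiffAt ℝ 2 M x) :
    ContDiffAt ℝ 1 (φ u ζ M) x :=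
  (h.tcf.of_le (by simp)).contDiffAt.mul (h1.mul (h2.of_le (by norm_num)))

theorem cd_W (h : Ok C u) (h2 : ContDiffAt ℝ 2 M x) : ContDiffAt ℝ 1 (W u M) x :=
  ((h.tcf.of_le (by simp)).contDiffAt.smul (cd_grad (k := 1) h2)).add
    ((h2.of_le (by norm_num)).smul ((smooth_gradient h.tcf).of_le (by simp)).contDiffAt)

theorem ct_A (h : Ok C u) (h1 : ContDiffAt ℝ 1 ζ x) (h2 : ContDiffAt ℝ 2 M x) :
    ContinuousAt (A u ζ M) x := by
  have cf := h.tcf.continuous.continuousAt (x := x)
  have cu := h.sm.continuous.continuousAt (x := x)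
  have cp := h.tcp.continuous.continuousAt (x := x)
  have g1 := cd_grad (k := 1) h2
  have cl : ContinuousAt (lap M) x :=
    continuous_trc.continuousAt.comp (g1.fderiv_right (m := 0) (by simp)).continuousAt
  have cP : ContinuousAt (PP u) x :=
    (continuousAt_const.mul cf).mul (continuousAt_const.sub (cp.norm.pow 2))
  exact ((cf.pow 2).mul (h1.continuousAt.pow 2)).mul (h2.continuousAt.mul
    ((cl.sub ((continuousAt_const.mul cu).mul (cp.inner g1.continuousAt))).add
      (cP.mul h2.continuousAt)))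

theorem ident (h : Ok C u) (h1 : ContDiffAt ℝ 1 ζ x) (h2 : ContDiffAt ℝ 2 M x) :
    ff u x ^ 2 * M x ^ 2 * ‖gradient ζ x‖ ^ 2 = A u ζ M x +
      ((‖gradient (φ u ζ M) x‖ ^ 2 + (3 * u x ^ 2 - 1) * φ u ζ M x ^ 2) - dvg (Y u ζ M) x) := by
  have df := h.tcf.differentiable (by simp) x
  have dz := h1.differentiableAt one_ne_zero
  have dM := h2.differentiableAt two_ne_zero
  have dφ := (cd_φ h h1 h2).differentiableAt one_ne_zero
  have dg := (cd_grad (k := 1) h2).differentiableAt one_ne_zero
  have dh := (smooth_gradient h.tcf).differentiable (by simp) x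
  have e1 : gradient (φ u ζ M) x = ζ x • W u M x + (ff u x * M x) • gradient ζ x := by
    have := grad_mul df (dz.mul dM)
    rw [show gradient (ζ * M) x = _ from grad_mul dz dM] at this
    refine this.trans ?_
    simp only [W, Pi.mul_apply, smul_add, smul_smul]
    module
  have e2 : dvg (W u M) x = ff u x * (Lf u M x + (3 * u x ^ 2 - 1 + PP u x) * M x) := by
    have := dvg_add (df.smul dg) (dM.smul dh)
    rw [show dvg (W u M) x = _ from this, show dvg (fun y => (ff u • gradient M) y) x = _ from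
      dvg_smul df dg, show dvg (fun y => (M • gradient (ff u)) y) x = _ from dvg_smul dM dh,
      ← inner_grad, ← inner_grad, show dvg (gradient (ff u)) x = _ from lap_ff h x, h.gf,
      inner_smul_left, inner_smul_right, real_inner_comm (pp u x)]
    simp only [Lf, lap, conj_trivial]
    ring
  have e3 : dvg (Y u ζ M) x = ζ x * φ u ζ M x * dvg (W u M) x +
      ⟪ζ x • gradient (φ u ζ M) x + φ u ζ M x • gradient ζ x, W u M x⟫ := by
    rw [← grad_mul dz dφ, inner_grad]
    exact dvg_smul (dz.mul dφ) ((cd_W h h2).differentiableAt one_ne_zero)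
  rw [e3, e2, e1, norm_add_sq_real, real_inner_comm (W u M x)]
  simp only [inner_add_right, inner_smul_left, inner_smul_right, real_inner_self_eq_norm_sq,
    norm_smul, mul_pow, Real.norm_eq_abs, sq_abs, conj_trivial, A, φ]
  ring

theorem zero (hx : ζ =ᶠ[𝓝 x] 0 ∨ M =ᶠ[𝓝 x] 0) : φ u ζ M =ᶠ[𝓝 x] (fun _ => 0) ∧
    Y u ζ M =ᶠ[𝓝 x] (fun _ => 0) ∧ A u ζ M =ᶠ[𝓝 x] (fun _ => 0) ∧
    M x ^ 2 * ‖gradient ζ x‖ ^ 2 = 0 := by
  rcases hx with hx | hx
  · refine ⟨hx.mono fun y hy => ?_, hx.mono fun y hy => ?_, hx.mono fun y hy => ?_, ?_⟩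
    · simp [φ, hy]
    · simp [Y, hy]
    · simp [A, hy]
    · rw [hx.gradient_eq]
      simp [gradient]
  · refine ⟨hx.mono fun y hy => ?_, hx.mono fun y hy => ?_, hx.mono fun y hy => ?_, ?_⟩
    · simp [φ, hy]
    · simp [Y, φ, hy]
    · simp [A, hy]
    · simp [hx.self_of_nhds]

end JacAux

open JacAux

theorem jac : JAC := by
  intro n C u ζ M h hs hc hl
  have cφ : ContDiff ℝ 1 (φ u ζ M) := contDiff_iff_contDiffAt.2 fun x => by
    rcases hl x with ⟨h1, h2⟩ | h3
    · exact cd_φ h h1 h2
    · exact contDiffAt_const.congr_of_eventuallyEq (zero h3).1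
  have cY : ContDiff ℝ 1 (Y u ζ M) := contDiff_iff_contDiffAt.2 fun x => by
    rcases hl x with ⟨h1, h2⟩ | h3
    · exact (h1.mul (cd_φ h h1 h2)).smul (cd_W h h2)
    · exact contDiffAt_const.congr_of_eventuallyEq (zero h3).2.1
  have cA : Continuous (A u ζ M) := continuous_iff_continuousAt.2 fun x => by
    rcases hl x with ⟨h1, h2⟩ | h3
    · exact ct_A h h1 h2
    · exact continuousAt_const.congr (zero h3).2.2.1.symm
  have sφ : HasCompactSupport (φ u ζ M) := hc.mul_left
  have sY : HasCompactSupport (Y u ζ M) := hc.mono fun x hx e => hx (by simp [Y, φ, e])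
  have sA : HasCompactSupport (A u ζ M) := hc.mono fun x hx e => hx (by
    have e' : ζ x * M x = 0 := e
    unfold A
    linear_combination (ff u x ^ 2 * ζ x * (Lf u M x + PP u x * M x)) * e')
  have iA := cA.integrable_of_hasCompactSupport (μ := volume) sA
  have iY := (continuous_dvg cY).integrable_of_hasCompactSupport (μ := volume) (hcs_dvg sY)
  have iS : Integrable fun x =>
      ‖gradient (φ u ζ M) x‖ ^ 2 + (3 * u x ^ 2 - 1) * φ u ζ M x ^ 2 := by
    have c1 : Continuous (gradient (φ u ζ M)) := (contDiff_gradient (k := 0) cφ).continuous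
    have c2 := cφ.continuous
    have c3 := h.sm.continuous
    refine Continuous.integrable_of_hasCompactSupport (by fun_prop) (sφ.mono' fun x hx => ?_)
    by_contra hn
    refine hx ?_
    simp [gradient, fderiv_of_notMem_tsupport ℝ hn, image_eq_zero_of_notMem_tsupport hn]
  have e : ∀ x, ff u x ^ 2 * M x ^ 2 * ‖gradient ζ x‖ ^ 2 = A u ζ M x +
      ((‖gradient (φ u ζ M) x‖ ^ 2 + (3 * u x ^ 2 - 1) * φ u ζ M x ^ 2) - dvg (Y u ζ M) x) :=
    fun x => by
      rcases hl x with ⟨h1, h2⟩ | h3
      · exact ident h h1 h2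
      · obtain ⟨z1, z2, z3, z4⟩ := zero (u := u) h3
        rw [mul_assoc, z4, z1.gradient_eq, z1.self_of_nhds, z3.self_of_nhds, dvg_congr z2,
          dvg_const, grad_const]
        simp
  refine ⟨iA, ?_, ?_⟩
  · rw [funext e]
    exact iA.add (iS.sub iY)
  · rw [funext e, integral_add iA (show Integrable (fun x => _ - dvg (Y u ζ M) x) from iS.sub iY),
      integral_sub iS iY, integral_dvg_zero cY sY, sub_zero]
    exact le_add_of_nonneg_right (hs _ cφ sφ)

end Vale.Agent.P134B
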