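import Vale.Agent.P134B.Spec

/-!
# P134B: from coordinates to the Euclidean space
-/

set_option linter.all false

open MeasureTheory Metric Filter Topology Set
open scoped ContDiff RealInnerProductSpace
open Vale.Agent.P366.Stmt (E)
open Vale.Agent.P366W
open Vale.Agent.P134 (pd Sol defi)

noncomputable section

namespace Vale.Agent.P134B

variable {n : ℕ}

theorem up_eq (v : (Fin n → ℝ) → ℝ) : up v = v ∘ EuclideanSpace.equiv (Fin n) ℝ := rfl

theorem up_contDiff {k : WithTop ℕ∞} {v : (Fin n → ℝ) → ℝ} (hv : ContDiff ℝ k v) :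
    ContDiff ℝ k (up v) := hv.comp (EuclideanSpace.equiv (Fin n) ℝ).contDiff

theorem fderiv_up (v : (Fin n → ℝ) → ℝ) (x w : E n) :
    fderiv ℝ (up v) x w = fderiv ℝ v x.ofLp w.ofLp := by
  rw [up_eq, ContinuousLinearEquiv.comp_right_fderiv]
  rfl

theorem fderiv_up_single (v : (Fin n → ℝ) → ℝ) (x : E n) (i : Fin n) :
    fderiv ℝ (up v) x (EuclideanSpace.single i 1) = pd i v x.ofLp := fderiv_up v x _

theorem gradient_apply (f : E n → ℝ) (x : E n) (i : Fin n) :
    gradient f x i = fderiv ℝ f x (EuclideanSpace.single i 1) := by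
  rw [← inner_grad, EuclideanSpace.inner_single_right]
  simp

theorem gradient_up (v : (Fin n → ℝ) → ℝ) (x : E n) (i : Fin n) :
    gradient (up v) x i = pd i v x.ofLp := by
  rw [gradient_apply, fderiv_up_single]

theorem norm_gradient_up (v : (Fin n → ℝ) → ℝ) (x : E n) :
    ‖gradient (up v) x‖ ^ 2 = P134.SM.gs v x.ofLp := by
  rw [EuclideanSpace.real_norm_sq_eq]
  simp only [gradient_up]
  rfl

theorem fderiv_apply_comp {Y : E n → E n} {x : E n} (hY : DifferentiableAt ℝ Y x) (w : E n)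
    (i : Fin n) : fderiv ℝ Y x w i = fderiv ℝ (fun y => Y y i) x w := by
  have : fderiv ℝ (fun y => Y y i) x = _ :=
    ((EuclideanSpace.proj i : E n →L[ℝ] ℝ).hasFDerivAt.comp x hY.hasFDerivAt).fderiv
  rw [this]
  rfl

theorem hess_up {v : (Fin n → ℝ) → ℝ} (hv : ContDiff ℝ 2 v) (x : E n) (i j : Fin n) :
    fderiv ℝ (gradient (up v)) x (EuclideanSpace.single j 1) i = pd j (pd i v) x.ofLp := by
  have hd : Differentiable ℝ (gradient (up v)) :=
    (contDiff_gradient (k := 1) (up_contDiff hv)).differentiable one_ne_zero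
  have e : (fun y => gradient (up v) y i) = up (pd i v) := funext fun y => gradient_up v y i
  rw [fderiv_apply_comp (hd x), e, fderiv_up_single]

theorem lap_up {v : (Fin n → ℝ) → ℝ} (hv : ContDiff ℝ 2 v) (x : E n) :
    lap (up v) x = ∑ i, pd i (pd i v) x.ofLp := by
  rw [lap, dvg]
  exact Finset.sum_congr rfl fun i _ => hess_up hv x i i

theorem ff_pos_of {u : E n → ℝ} {x : E n} (h : |u x| < 1) : 0 < ff u x :=
  div_pos (sub_pos.2 ((sq_lt_one_iff_abs_lt_one _).2 h)) (by positivity)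

theorem ff_smul_pp {u : E n → ℝ} {x : E n} (hu : DifferentiableAt ℝ u x) (h : |u x| < 1) :
    gradient u x = ff u x • pp u x := by
  have h1 : 1 + u x ≠ 0 := by linarith [(abs_lt.1 h).1]
  have h2 : 1 - u x ≠ 0 := by linarith [(abs_lt.1 h).2]
  have h3 : fderiv ℝ (fun y => (√2)⁻¹ * (Real.log (1 + u y) - Real.log (1 - u y))) x = _ :=
    ((((hu.hasFDerivAt.const_add 1).log h1).sub ((hu.hasFDerivAt.const_sub 1).log h2)).const_mul
      (√2)⁻¹).fderiv
  have h4 : ps u = fun y => (√2)⁻¹ * (Real.log (1 + u y) - Real.log (1 - u y)) :=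
    funext fun y => div_eq_inv_mul _ _
  have h5 : (√2 : ℝ) ^ 2 = 2 := Real.sq_sqrt (by norm_num)
  have h6 : (√2 : ℝ) ≠ 0 := by positivity
  refine ext_inner_right ℝ fun w => ?_
  rw [real_inner_smul_left, pp, inner_grad, inner_grad, h4, h3, ff]
  simp only [ContinuousLinearMap.smul_apply, ContinuousLinearMap.sub_apply,
    ContinuousLinearMap.neg_apply, smul_eq_mul]
  field_simp
  rw [h5]
  ring

theorem EE_eq {u : E n → ℝ} {x : E n} (hu : DifferentiableAt ℝ u x) (h : |u x| < 1) :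
    EE u x = (1 - u x ^ 2) ^ 2 / 2 - ‖gradient u x‖ ^ 2 := by
  rw [ff_smul_pp hu h, norm_smul, mul_pow, Real.norm_eq_abs, sq_abs, EE, qq, mul_sub, mul_one, ff,
    div_pow, Real.sq_sqrt (by norm_num)]

theorem ka : KA := by
  intro n v hv
  have hs : ContDiff ℝ ∞ (up v) := up_contDiff (P134.SM.Sol.contDiff_infty hv.toSol)
  have hE : ∀ x, EE (up v) x = defi v x.ofLp := fun x => by
    rw [EE_eq (hs.differentiable (by simp) x) (hv.lt _), norm_gradient_up]
    rfl
  refine ⟨⟨hs, fun x => hv.lt _, fun x => (lap_up hv.c2 x).trans (hv.eq _), fun x => ?_⟩,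
    fun φ h1 h2 => ?_, hE⟩
  · have h1 : 0 ≤ EE (up v) x := by
      have := hv.toSol.modica x.ofLp
      rw [hE, defi, P134.psi]
      linarith
    exact nonneg_of_mul_nonneg_right h1 (pow_pos (ff_pos_of (hv.lt _)) 2)
  · have h3 := hv.stb (φ ∘ (EuclideanSpace.equiv (Fin n) ℝ).symm)
      (h1.comp (EuclideanSpace.equiv (Fin n) ℝ).symm.contDiff)
      (h2.comp_homeomorph (EuclideanSpace.equiv (Fin n) ℝ).symm.toHomeomorph)
    rw [← (PiLp.volume_preserving_ofLp (Fin n)).integral_comp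
      (EuclideanSpace.equiv (Fin n) ℝ).toHomeomorph.measurableEmbedding] at h3
    refine h3.trans (le_of_eq (integral_congr_ae (Eventually.of_forall fun x => ?_)))
    simp only [← norm_gradient_up]
    rfl

end Vale.Agent.P134B
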