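import Vale.Agent.P134B.Spec

/-!
# P134B: the bounds for the second and third derivatives of the phase
-/

open MeasureTheory Metric Filter Topology Set
open scoped ContDiff RealInnerProductSpace
open Vale.Agent.P366.Stmt (E)
open Vale.Agent.P366W

noncomputable section

namespace Vale.Agent.P134B

namespace KB

open Vale.Agent.P134 Vale.Agent.P134.SM

variable {n : ℕ}

/-- partial derivatives -/
def D (i : Fin n) (φ : E n → ℝ) (x : E n) : ℝ := fderiv ℝ φ x (EuclideanSpace.single i 1)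

theorem D_up (i : Fin n) (W : (Fin n → ℝ) → ℝ) : D i (up W) = up (pd i W) := by
  funext x
  have h := (PiLp.continuousLinearEquiv 2 ℝ fun _ : Fin n => ℝ).comp_right_fderiv (f := W) (x := x)
  rw [D, show up W = W ∘ (PiLp.continuousLinearEquiv 2 ℝ fun _ : Fin n => ℝ) from rfl, h]
  rfl

theorem cD {φ : E n → ℝ} (h : ContDiff ℝ ∞ φ) (i : Fin n) : ContDiff ℝ ∞ (D i φ) :=
  (h.fderiv_right (m := ∞) le_rfl).clm_apply contDiff_const

theorem D_mul {F w : E n → ℝ} (hF : ContDiff ℝ ∞ F) (hw : ContDiff ℝ ∞ w) (i : Fin n) :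
    D i (fun y => F y * w y) = fun y => F y * D i w y + w y * D i F y := by
  funext y
  simp [D, fderiv_fun_mul (hF.differentiable (by simp) y) (hw.differentiable (by simp) y)]

theorem D_lin {F w : E n → ℝ} (hF : ContDiff ℝ ∞ F) (hw : ContDiff ℝ ∞ w) (a b c : ℝ) (i : Fin n) :
    D i (fun y => a * F y + b * w y + c) = fun y => a * D i F y + b * D i w y + 0 := by
  funext y
  have h := ((((hF.differentiable (by simp) y).hasFDerivAt.const_mul a).add
    ((hw.differentiable (by simp) y).hasFDerivAt.const_mul b)).add_const c).fderiv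
  simp only [Pi.add_apply] at h
  simp [D, h]

theorem quo {g F w : E n → ℝ} {x : E n} {c A : ℝ} (hF : ContDiff ℝ ∞ F) (hw : ContDiff ℝ ∞ w)
    (e : g = fun y => F y * w y) (F0 : 0 < F x) (c0 : 0 ≤ c) (F1 : ∀ j, |D j F x| ≤ c * F x)
    (F2 : ∀ j k, |D j (D k F) x| ≤ c * F x) (w0 : |w x| ≤ A) (g1 : ∀ j, |D j g x| ≤ A * F x)
    (g2 : ∀ j k, |D j (D k g) x| ≤ A * F x) (j k : Fin n) :
    |D j w x| ≤ (1 + c) ^ 2 * 2 * A ∧ |D j (D k w) x| ≤ (1 + c) ^ 2 * 2 * A := by
  have A0 : 0 ≤ A := (abs_nonneg _).trans w0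
  have m : ∀ {a b s t : ℝ}, |a| ≤ s → |b| ≤ t → |a * b| ≤ s * t := fun h1 h2 => by
    rw [abs_mul]
    exact mul_le_mul h1 h2 (abs_nonneg _) ((abs_nonneg _).trans h1)
  have h1 : ∀ j, |D j w x| ≤ (1 + c) * A := fun j => by
    have k1 := g1 j
    rw [e, D_mul hF hw] at k1
    refine le_of_mul_le_mul_left ?_ F0
    rw [← abs_of_pos F0, ← abs_mul, abs_of_pos F0, abs_le]
    have := abs_le.1 (m w0 (F1 j))
    have := abs_le.1 k1
    constructor <;> linarith
  refine ⟨(h1 j).trans (by nlinarith [mul_nonneg c0 A0, mul_nonneg c0 (mul_nonneg c0 A0)]), ?_⟩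
  have k2 := g2 j k
  rw [e, D_mul hF hw, show (fun y => F y * D k w y + w y * D k F y) =
    fun y => 1 * (F y * D k w y) + 1 * (w y * D k F y) + 0 by simp,
    D_lin (hF.mul (cD hw k)) (hw.mul (cD hF k)), D_mul hF (cD hw k), D_mul hw (cD hF k)] at k2
  refine le_of_mul_le_mul_left ?_ F0
  rw [← abs_of_pos F0, ← abs_mul, abs_of_pos F0, abs_le]
  have := abs_le.1 (m w0 (F2 j k))
  have := abs_le.1 (m (h1 k) (F1 j))
  have := abs_le.1 (m (F1 k) (h1 j))
  have := abs_le.1 k2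
  have := mul_nonneg (mul_nonneg c0 A0) F0.le
  have := mul_nonneg A0 F0.le
  constructor <;> linarith

variable {v : (Fin n → ℝ) → ℝ}

theorem grad_up (v : (Fin n → ℝ) → ℝ) (y : E n) (i : Fin n) :
    gradient (up v) y i = pd i v y.ofLp := by
  have := congrFun (D_up i v) y
  rw [D, ← inner_grad, EuclideanSpace.inner_single_right] at this
  simpa [up] using this

theorem dd_eq (h : Id1 (up v)) (b y : E n) :
    dd b.ofLp v y.ofLp = ff (up v) y * pe (up v) b y := by
  rw [pe, ← real_inner_smul_left, ← h.gu, inner_eq_sum]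
  simp [dd, grad_up, mul_comm]

theorem defi_eq (h : Id1 (up v)) (y : E n) : defi v y.ofLp = ff (up v) y ^ 2 * qq (up v) y := by
  have e : ∑ i, pd i v y.ofLp ^ 2 = ff (up v) y ^ 2 * ‖pp (up v) y‖ ^ 2 := by
    rw [← sq_abs (ff _ _), ← mul_pow, ← Real.norm_eq_abs, ← norm_smul, ← h.gu,
      EuclideanSpace.real_norm_sq_eq]
    simp [grad_up]
  rw [defi, e, qq, mul_sub, mul_one, ff, div_pow, Real.sq_sqrt two_pos.le]
  rfl

/-- the entries -/
theorem entries (n : ℕ) : ∃ K ≥ (0 : ℝ), ∀ v : (Fin n → ℝ) → ℝ, Sol v → Id0 (up v) → Id1 (up v) →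
    ∀ x j k l, |D j (pe (up v) (EuclideanSpace.single l 1)) x| ≤ K * √(qq (up v) x) ∧
      |D j (D k (pe (up v) (EuclideanSpace.single l 1))) x| ≤ K * √(qq (up v) x) := by
  obtain ⟨C1, c1, h1⟩ := H283.exists_tang_bound n 2
  obtain ⟨C2, c2, h2⟩ := H283.exists_V2_bound n
  have c3 := H283.cH_pos n (K := 2) two_pos.le
  obtain ⟨c, hc⟩ : ∃ c, c = 1 + H283.cH n 2 + C2 := ⟨_, rfl⟩
  have c0 : 0 ≤ c := by rw [hc]; positivity
  refine ⟨(1 + c) ^ 2 * 2 * (C1 + c), by positivity, fun v hv j0 j1 x j k l => ?_⟩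
  obtain ⟨ν, hν⟩ : ∃ ν : E n, ν = WithLp.toLp 2 (H283.nu v x.ofLp) := ⟨_, rfl⟩
  have n1 : ∑ i, ν i ^ 2 = 1 ∨ ν = 0 := by
    rw [hν]
    exact (H283.nu_unit_or_zero v x.ofLp).imp_right fun h => by rw [h]; rfl
  have n2 : ∑ i, ν i ^ 2 ≤ 1 := hν ▸ H283.nu_sq_le v x.ofLp
  have n3 : |ν l| ≤ 1 := (sq_le_one_iff_abs_le_one _).1
    ((Finset.single_le_sum (fun i _ => sq_nonneg (ν i)) (Finset.mem_univ l)).trans n2)
  obtain ⟨t, ht⟩ : ∃ t : E n, t = EuclideanSpace.single l 1 - ν l • ν := ⟨_, rfl⟩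
  have t0 : ⟪t, ν⟫ = 0 := by
    rw [ht, inner_sub_left, real_inner_smul_left, real_inner_self_eq_norm_sq,
      EuclideanSpace.real_norm_sq_eq, EuclideanSpace.inner_single_left]
    rcases n1 with h | h <;> simp [h]
  have t1 : ∑ i, t i ^ 2 ≤ 1 := by
    have e : ‖t + ν l • ν‖ ^ 2 = 1 := by simp [ht]
    rw [norm_add_sq_real, inner_smul_right, t0, EuclideanSpace.real_norm_sq_eq] at e
    nlinarith [sq_nonneg ‖ν l • ν‖]
  have f0 : 0 < ff (up v) x := lt_of_lt_of_le (by positivity) (j1.flo x)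
  have cf : ContDiff ℝ ∞ (ff (up v)) := (contDiff_const.sub (j0.sm.pow 2)).div_const _
  have cp : ∀ b, ContDiff ℝ ∞ (pe (up v) b) := fun b =>
    (smooth_gradient j1.smp).inner ℝ contDiff_const
  have eV : ∀ (b y : E n), H283.Vd (-b.ofLp) v y.ofLp = ff (up v) y / 2 * (1 - pe (up v) b y) :=
    fun b y => by
      rw [H283.Vd, H283.dd_neg_left, dd_eq j1, show psi v y.ofLp / √2 = ff (up v) y from rfl]
      ring
  have eF : up (H283.Vd (-(0 : E n).ofLp) v) = fun y => ff (up v) y / 2 := funext fun y => by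
    rw [up, eV]
    simp [pe]
  have V : ∀ b : E n, ∑ i, b i ^ 2 ≤ 1 → 0 ≤ up (H283.Vd (-b.ofLp) v) x ∧
      (∀ j, |D j (up (H283.Vd (-b.ofLp) v)) x| ≤ c * up (H283.Vd (-b.ofLp) v) x) ∧
      ∀ j k, |D j (D k (up (H283.Vd (-b.ofLp) v))) x| ≤ c * up (H283.Vd (-b.ofLp) v) x := by
    intro b hb
    have b0 := H283.Vd_nonneg hv (H283.neg_unit hb) x.ofLp
    simp only [D_up]
    exact ⟨b0, fun j => (H283.abs_pd_Vd_le hv (H283.neg_unit hb) j _).trans
      (mul_le_mul_of_nonneg_right (by linarith) b0), fun j k =>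
        (h2 v hv _ (H283.neg_unit hb) j k _).trans (mul_le_mul_of_nonneg_right (by linarith) b0)⟩
  obtain ⟨-, F1, F2⟩ := V 0 (by simp)
  rw [eF] at F1 F2
  have q0 := j0.q0 x
  have s0 := Real.sqrt_nonneg (qq (up v) x)
  have T : ∀ l : List (Fin n), l.length ≤ 2 →
      |ipd l (dd t.ofLp v) x.ofLp| ≤ 2 * C1 * √(qq (up v) x) * (ff (up v) x / 2) := fun l hl => by
    have := h1 v hv x.ofLp t.ofLp t1 (by rw [← t0, inner_eq_sum, hν]) l hl x.ofLp
    rw [sub_self, norm_zero, mul_zero, Real.exp_zero, mul_one, defi_eq j1,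
      Real.sqrt_mul (sq_nonneg _), Real.sqrt_sq f0.le] at this
    linarith
  have r1 := quo (g := up (dd t.ofLp v)) (x := x) (A := 2 * C1 * √(qq (up v) x)) (cf.div_const 2)
    (contDiff_const (c := (2 : ℝ)).mul (cp t)) (funext fun y => by rw [up, dd_eq j1]; ring)
    (by positivity) c0 F1 F2 (by
      have := T [] (by simp)
      rw [ipd_nil, dd_eq j1, abs_mul, abs_of_pos f0] at this
      rw [abs_mul, abs_two]
      nlinarith) (fun j => by rw [D_up]; exact T [j] (by simp))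
    (fun j k => by rw [D_up, D_up]; exact T [j, k] (by simp)) j k
  obtain ⟨G0, G1, G2⟩ := V ν n2
  have w1 : ff (up v) x / 2 * (1 - pe (up v) ν x) ≤ ff (up v) x / 2 * √(qq (up v) x) := by
    have e1 := H283.defi_eq_gw v x.ofLp
    have e2 := dd_eq j1 ν x
    have e3 := H283.gw_nonneg v x.ofLp
    rw [show ν.ofLp = H283.nu v x.ofLp by rw [hν], H283.dd_nu] at e2
    rw [defi_eq j1, show psi v x.ofLp ^ 2 / 2 = ff (up v) x ^ 2 by
      rw [ff, div_pow, Real.sq_sqrt two_pos.le]; rfl, e2] at e1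
    rw [e2] at e3
    have e4 : qq (up v) x = 1 - pe (up v) ν x ^ 2 :=
      mul_left_cancel₀ (pow_pos f0 2).ne' (by linarith)
    have e5 : 0 ≤ pe (up v) ν x := nonneg_of_mul_nonneg_right e3 f0
    have e6 : pe (up v) ν x ≤ 1 := by nlinarith
    refine mul_le_mul_of_nonneg_left (Real.le_sqrt_of_sq_le (by nlinarith)) (by positivity)
  have w2 : up (H283.Vd (-ν.ofLp) v) x ≤ √(qq (up v) x) * (ff (up v) x / 2) := by
    rw [up, eV]
    linarith
  have r2 := quo (g := up (H283.Vd (-ν.ofLp) v)) (x := x) (A := c * √(qq (up v) x))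
    (cf.div_const 2) (contDiff_const (c := (1 : ℝ)).sub (cp ν)) (funext fun y => eV ν y)
    (by positivity) c0 F1 F2 (by
      rw [up, eV] at G0
      rw [abs_of_nonneg (nonneg_of_mul_nonneg_right G0 (by positivity))]
      have := le_of_mul_le_mul_left w1 (by positivity)
      nlinarith [mul_nonneg (add_pos c3 c2).le s0])
    (fun j => (G1 j).trans (by rw [mul_assoc]; gcongr))
    (fun j k => (G2 j k).trans (by rw [mul_assoc]; gcongr)) j k
  have e : pe (up v) (EuclideanSpace.single l 1) =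
      fun y => 1 / 2 * (2 * pe (up v) t y) + -ν l * (1 - pe (up v) ν y) + ν l := by
    funext y
    simp only [pe, ht, inner_sub_right, inner_smul_right]
    ring
  have a1 := contDiff_const (c := (2 : ℝ)).mul (cp t)
  have a2 := contDiff_const (c := (1 : ℝ)).sub (cp ν)
  have fin : ∀ {a b : ℝ}, |a| ≤ (1 + c) ^ 2 * 2 * (2 * C1 * √(qq (up v) x)) →
      |b| ≤ (1 + c) ^ 2 * 2 * (c * √(qq (up v) x)) →
      |1 / 2 * a + -ν l * b + 0| ≤ (1 + c) ^ 2 * 2 * (C1 + c) * √(qq (up v) x) := by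
    intro a b ha hb
    have : |-ν l * b| ≤ |b| := by
      rw [abs_mul, abs_neg]
      exact mul_le_of_le_one_left (abs_nonneg _) n3
    have := abs_le.1 (this.trans hb)
    have := abs_le.1 ha
    rw [abs_le]
    constructor <;> linarith
  rw [e, D_lin a1 a2, D_lin a1 a2, D_lin (cD a1 k) (cD a2 k)]
  exact ⟨fin r1.1 r2.1, fin r1.2 r2.2⟩

theorem op_le {F : Type} [NormedAddCommGroup F] [NormedSpace ℝ F] (M : E n →L[ℝ] F) {B : ℝ}
    (hB : 0 ≤ B) (h : ∀ i, ‖M (EuclideanSpace.single i 1)‖ ≤ B) : ‖M‖ ≤ n * B := by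
  refine M.opNorm_le_bound (by positivity) fun w => ?_
  rw [map_eq_sum M w]
  refine (norm_sum_le _ _).trans ((Finset.sum_le_card_nsmul _ _ (B * ‖w‖) fun i _ => ?_).trans
    (by simp [mul_assoc]))
  rw [norm_smul, mul_comm]
  exact mul_le_mul (h i) (PiLp.norm_apply_le w i) (norm_nonneg _) hB

theorem vec_le (w : E n) {B : ℝ} (hB : 0 ≤ B) (h : ∀ i, |w i| ≤ B) : ‖w‖ ≤ n * B := by
  rw [← innerSL_apply_norm ℝ w]
  exact op_le _ hB fun i => by simpa [EuclideanSpace.inner_single_right] using h i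

theorem D_pe {u : E n → ℝ} (h : Id1 u) (j l : Fin n) :
    D j (pe u (EuclideanSpace.single l 1)) = fun y => SS u y (EuclideanSpace.single j 1) l := by
  funext y
  rw [D, ← inner_grad, h.gp, h.sy, EuclideanSpace.inner_single_left]
  simp

theorem both (n : ℕ) : ∃ K : ℝ, ∀ v : (Fin n → ℝ) → ℝ, Sol v → Id0 (up v) → Id1 (up v) →
    ∀ C ≥ K, B0 n C (up v) ∧ B1 n C (up v) := by
  obtain ⟨K, K0, hK⟩ := entries n
  refine ⟨max (n * (n * K)) (n * (n * (n * K))), fun v hv j0 j1 C hC => ⟨fun x => ?_, fun x => ?_⟩⟩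
  · refine (op_le _ (B := n * (K * √(qq (up v) x))) (by positivity) fun j =>
      vec_le _ (by positivity) fun l => ?_).trans ?_
    · simpa [D_pe j1] using (hK v hv j0 j1 x j j l).1
    · simp only [← mul_assoc]
      gcongr
      exact le_trans (by simp [mul_assoc]) hC
  · refine (op_le _ (B := n * (n * (K * √(qq (up v) x)))) (by positivity) fun j =>
      op_le _ (by positivity) fun k => vec_le _ (by positivity) fun l => ?_).trans ?_
    · have d : DifferentiableAt ℝ (SS (up v)) x :=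
        (((smooth_gradient j1.smp).fderiv_right (m := ∞) le_rfl).differentiable (by simp)) x
      have e := (((EuclideanSpace.proj l : E n →L[ℝ] ℝ) ∘L ContinuousLinearMap.apply ℝ (E n)
        (EuclideanSpace.single k 1 : E n)).hasFDerivAt.comp x d.hasFDerivAt).fderiv
      have := (hK v hv j0 j1 x j k l).2
      rw [D_pe j1, D] at this
      erw [e] at this
      simpa using this
    · simp only [← mul_assoc]
      gcongr
      exact le_trans (by simp [mul_assoc]) hC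

end KB

theorem kb0 : KB0 := fun n =>
  (KB.both n).imp fun _ h v hv j0 j1 _ C hC => (h v hv.toSol j0 j1 C hC).1

end Vale.Agent.P134B
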