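import Vale.Agent.P134B.KB0

/-!
# P134B: the bound for the third derivatives of the phase
-/

namespace Vale.Agent.P134B

theorem kb1 : KB1 := fun _ _ n =>
  (KB.both n).imp fun _ h v hv j0 j1 _ C hC => (h v hv.toSol j0 j1 C hC).2

end Vale.Agent.P134B
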