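import Vale.Agent.P134B.Spec

/-!
# P134B, row KI1: the first order identities for the phase
-/

open MeasureTheory Metric Filter Topology Set
open scoped ContDiff RealInnerProductSpace
open Vale.Agent.P366.Stmt (E)
open Vale.Agent.P366W (Fr adj dvg trc inner_grad smooth_gradient dvg_smul dvg_eq)

noncomputable section

namespace Vale.Agent.P134B

namespace Ki1

variable {n : ℕ} {u : E n → ℝ}

theorem s2 : (√2 : ℝ) * √2 = 2 := Real.mul_self_sqrt (by norm_num)

theorem s0 : (0 : ℝ) < √2 := Real.sqrt_pos.2 (by norm_num)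

theorem th {a : ℝ} (h : |a| < 1) :
    a = Real.tanh ((Real.log (1 + a) - Real.log (1 - a)) / √2 / √2) := by
  obtain ⟨h1, h2⟩ := abs_lt.1 h
  have p1 : 0 < 1 + a := by linarith
  have p2 : 0 < 1 - a := by linarith
  rw [div_div, s2]
  set s := (Real.log (1 + a) - Real.log (1 - a)) / 2 with hs
  have e : Real.exp s * Real.exp s * (1 - a) = 1 + a := by
    rw [← Real.exp_add, show s + s = Real.log (1 + a) - Real.log (1 - a) by rw [hs]; ring,
      Real.exp_sub, Real.exp_log p1, Real.exp_log p2]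
    field_simp
  have p := Real.exp_pos s
  rw [Real.tanh_eq_sinh_div_cosh, Real.sinh_eq, Real.cosh_eq, Real.exp_neg]
  field_simp
  nlinarith

theorem ex {a : ℝ} (h : |a| < 1) :
    Real.exp (-(√2 * |(Real.log (1 + a) - Real.log (1 - a)) / √2|)) = (1 - |a|) / (1 + |a|) := by
  obtain ⟨h1, h2⟩ := abs_lt.1 h
  have p1 : 0 < 1 + a := by linarith
  have p2 : 0 < 1 - a := by linarith
  rw [abs_div, abs_of_pos s0, mul_div_cancel₀ _ s0.ne']
  rcases le_total 0 a with ha | ha
  · rw [abs_of_nonneg ha, abs_of_nonneg (sub_nonneg.2 (Real.log_le_log p2 (by linarith))), neg_sub,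
      Real.exp_sub, Real.exp_log p1, Real.exp_log p2]
  · rw [abs_of_nonpos ha, abs_of_nonpos (sub_nonpos.2 (Real.log_le_log p1 (by linarith))), neg_neg,
      Real.exp_sub, Real.exp_log p1, Real.exp_log p2, sub_neg_eq_add, ← sub_eq_add_neg]

theorem f0 (h : Id0 u) (x : E n) : 0 < ff u x :=
  div_pos (by nlinarith [abs_lt.1 (h.lt x)]) s0

theorem smp (h : Id0 u) : ContDiff ℝ ∞ (ps u) :=
  (((contDiff_const.add h.sm).log fun x => by linarith [abs_lt.1 (h.lt x)]).sub
    ((contDiff_const.sub h.sm).log fun x => by linarith [abs_lt.1 (h.lt x)])).div_const _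

theorem smf (h : Id0 u) : ContDiff ℝ ∞ (ff u) := (contDiff_const.sub (h.sm.pow 2)).div_const _

theorem smpp (h : Id0 u) : ContDiff ℝ ∞ (pp u) := smooth_gradient (smp h)

theorem gu (h : Id0 u) (x : E n) : gradient u x = ff u x • pp u x := by
  obtain ⟨h1, h2⟩ := abs_lt.1 (h.lt x)
  have p1 : 1 + u x ≠ 0 := by linarith
  have p2 : 1 - u x ≠ 0 := by linarith
  have d := (h.sm.differentiable (by simp) x).hasFDerivAt
  have e := ((((d.const_add 1).log p1).sub ((d.const_sub 1).log p2)).mul_const (√2)⁻¹).fderiv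
  refine ext_inner_right ℝ fun v => ?_
  have e' : fderiv ℝ (ps u) x = _ := e
  rw [inner_smul_left, pp, inner_grad, inner_grad, e']
  simp only [ff, conj_trivial, smul_apply, sub_apply,
    neg_apply, smul_eq_mul]
  have := s0.ne'
  field_simp
  rw [Real.sq_sqrt (by norm_num)]
  ring

theorem gf (h : Id0 u) (x : E n) : gradient (ff u) x = (-(√2 * u x * ff u x)) • pp u x := by
  have d := (h.sm.differentiable (by simp) x).hasFDerivAt
  have e := (((d.pow 2).const_sub 1).mul_const (√2)⁻¹).fderiv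
  refine ext_inner_right ℝ fun v => ?_
  have e' : fderiv ℝ (ff u) x = _ := e
  have g := congrArg (fun w => ⟪w, v⟫) (gu h x)
  simp only [inner_grad, inner_smul_left, conj_trivial] at g
  rw [inner_smul_left, inner_grad, e']
  simp only [conj_trivial, smul_apply, neg_apply,
    smul_eq_mul, nsmul_eq_mul, g]
  have := s0.ne'
  field_simp
  rw [Real.sq_sqrt (by norm_num)]
  norm_num
  ring

theorem tr (h : Id0 u) (x : E n) : trc (SS u x) = -(√2 * u x * qq u x) := by
  have e := h.eq x
  have g : gradient u = fun y => ff u y • pp u y := funext (gu h)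
  rw [lap, g, dvg_smul ((smf h).differentiable (by simp) x) ((smpp h).differentiable (by simp) x),
    ← inner_grad, gf h, inner_smul_left, real_inner_self_eq_norm_sq, dvg_eq, conj_trivial] at e
  have e2 : u x ^ 3 - u x = -(√2 * u x * ff u x) := by
    have := s0.ne'
    rw [ff]
    field_simp
    ring
  refine mul_left_cancel₀ (f0 h x).ne' ?_
  rw [e2] at e
  rw [qq, SS]
  linear_combination e

theorem inn (h : Id0 u) (x v w : E n) : ⟪SS u x v, w⟫ = fderiv ℝ (fderiv ℝ (ps u)) x v w := by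
  have d := ((smpp h).differentiable (by simp) x).hasFDerivAt
  have d2 : HasFDerivAt (fderiv ℝ (ps u)) (fderiv ℝ (fderiv ℝ (ps u)) x) x :=
    (((smp h).fderiv_right (m := 1) (by norm_cast)).differentiable one_ne_zero x).hasFDerivAt
  have e1 := (d.inner ℝ (hasFDerivAt_const w x)).fderiv
  have e2 := (d2.clm_apply (hasFDerivAt_const w x)).fderiv
  have e3 : (fun y => ⟪pp u y, w⟫) = fun y => fderiv ℝ (ps u) y w := funext fun y => inner_grad _ _ _
  rw [e3, e2] at e1
  simpa [SS] using (congrArg (fun l => l v) e1).symm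

theorem sy (h : Id0 u) (x v w : E n) : ⟪SS u x v, w⟫ = ⟪v, SS u x w⟫ := by
  rw [real_inner_comm (SS u x w), inn h, inn h]
  exact ((smp h).contDiffAt.isSymmSndFDerivAt (by simp; norm_cast)) v w

theorem gq (h : Id0 u) (x : E n) : gradient (qq u) x = (-2 : ℝ) • SS u x (pp u x) := by
  have d := ((smpp h).differentiable (by simp) x).hasFDerivAt
  have e : fderiv ℝ (qq u) x = _ := (d.norm_sq.const_sub 1).fderiv
  refine ext_inner_right ℝ fun v => ?_
  rw [inner_grad, e, inner_smul_left, sy h]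
  simp [SS]

theorem gp (h : Id0 u) (e x : E n) : gradient (pe u e) x = SS u x e := by
  have d := ((smpp h).differentiable (by simp) x).hasFDerivAt
  have e1 : fderiv ℝ (pe u e) x = _ := (d.inner ℝ (hasFDerivAt_const e x)).fderiv
  refine ext_inner_right ℝ fun v => ?_
  rw [inner_grad, e1, sy h, real_inner_comm]
  simp [SS]

end Ki1

theorem ki1 : KI1 := fun n u h => by
  refine ⟨Ki1.smp h, fun x => Ki1.th (h.lt x), fun x => ?_, fun x => ?_, Ki1.gu h, Ki1.gf h,
    Ki1.tr h, Ki1.sy h, Ki1.gq h, Ki1.gp h⟩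
  · have a0 := abs_nonneg (u x)
    have a1 := h.lt x
    rw [ps, Ki1.ex a1, ff, ← sq_abs]
    refine div_le_div_of_nonneg_right ?_ Ki1.s0.le
    rw [div_le_iff₀ (by linarith)]
    nlinarith [mul_nonneg a0 (sub_pos.2 a1).le, mul_nonneg a0 (mul_nonneg a0 (sub_pos.2 a1).le)]
  · have a0 := abs_nonneg (u x)
    have a1 := h.lt x
    rw [ps, Ki1.ex a1, ff, ← sq_abs, div_le_iff₀ Ki1.s0,
      show ∀ c : ℝ, 2 * √2 * c * √2 = 4 * c from fun c => by linear_combination 2 * c * Ki1.s2,
      ← mul_div_assoc, le_div_iff₀ (by linarith)]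
    nlinarith [mul_nonneg (sub_pos.2 a1).le (mul_nonneg (sub_pos.2 a1).le (by linarith : 0 ≤ 3 + |u x|))]

end Vale.Agent.P134B
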