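import Vale.Agent.P134B.Spec

/-!
# P134B, row KI2: the second order identities for the phase
-/

open MeasureTheory Metric Filter Topology Set
open scoped ContDiff RealInnerProductSpace
open Vale.Agent.P366.Stmt (E)
open Vale.Agent.P366W (Fr adj dvg trc inner_grad smooth_gradient dvg_smul dvg_eq dvg_add trc_add
  contDiff_trc)

noncomputable section

namespace Vale.Agent.P134B

namespace Ki2

variable {n : ℕ} {u : E n → ℝ} {p : E n → E n}

theorem dS (hp : ContDiff ℝ ∞ p) (x : E n) :
    HasFDerivAt (fderiv ℝ p) (fderiv ℝ (fderiv ℝ p) x) x :=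
  ((hp.fderiv_right (m := 1) (by norm_cast)).differentiable one_ne_zero x).hasFDerivAt

/-- the trace of the second derivative with one slot filled -/
theorem trc_flip (hp : ContDiff ℝ ∞ p) (x e : E n) :
    trc ((fderiv ℝ (fderiv ℝ p) x).flip e) = fderiv ℝ (fun y => trc (fderiv ℝ p y)) x e := by
  have sy := (hp.contDiffAt (x := x)).isSymmSndFDerivAt (by simp; norm_cast)
  have h : HasFDerivAt (fun y => trc (fderiv ℝ p y)) (∑ i : Fin n,
      ((EuclideanSpace.proj i : E n →L[ℝ] ℝ) ∘L
        (ContinuousLinearMap.apply ℝ (E n) (EuclideanSpace.single i 1 : E n))) ∘L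
          fderiv ℝ (fderiv ℝ p) x) x :=
    HasFDerivAt.fun_sum fun i _ => (((EuclideanSpace.proj i : E n →L[ℝ] ℝ) ∘L
      (ContinuousLinearMap.apply ℝ (E n) (EuclideanSpace.single i 1 : E n))).hasFDerivAt).comp x
        (dS hp x)
  rw [h.fderiv, trc, _root_.sum_apply]
  refine Finset.sum_congr rfl fun i _ => ?_
  simp [sy (EuclideanSpace.single i 1) e]

theorem dvg_col (hp : ContDiff ℝ ∞ p) (x e : E n) :
    dvg (fun y => fderiv ℝ p y e) x = fderiv ℝ (fun y => trc (fderiv ℝ p y)) x e := by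
  rw [dvg_eq, ((dS hp x).clm_apply (hasFDerivAt_const e x)).fderiv, ← trc_flip hp]
  simp

theorem dvg_self (hp : ContDiff ℝ ∞ p) (x : E n)
    (sy : ∀ v w, ⟪fderiv ℝ p x v, w⟫ = ⟪v, fderiv ℝ p x w⟫) :
    dvg (fun y => fderiv ℝ p y (p y)) x =
      hs (fderiv ℝ p x) + fderiv ℝ (fun y => trc (fderiv ℝ p y)) x (p x) := by
  rw [dvg_eq, ((dS hp x).clm_apply (hp.differentiable (by simp) x).hasFDerivAt).fderiv,
    ← trc_flip hp, trc_add]
  congr 1
  refine Finset.sum_congr rfl fun i _ => ?_
  rw [← real_inner_self_eq_norm_sq, ← sy]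
  simp [EuclideanSpace.inner_single_right]

theorem dvg_cmul (c : ℝ) {Y : E n → E n} {x : E n} (hY : DifferentiableAt ℝ Y x) :
    dvg (fun y => c • Y y) x = c * dvg Y x := by
  rw [dvg_smul (differentiableAt_const c) hY]
  simp

theorem fd_mul {f g : E n → ℝ} {x : E n} (hf : DifferentiableAt ℝ f x)
    (hg : DifferentiableAt ℝ g x) (v : E n) : fderiv ℝ (fun y => f y * g y) x v =
      f x * ⟪gradient g x, v⟫ + g x * ⟪gradient f x, v⟫ := by
  rw [fderiv_fun_mul hf hg, inner_grad, inner_grad]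
  simp

theorem smf (h : Id0 u) : ContDiff ℝ ∞ (ff u) := (contDiff_const.sub (h.sm.pow 2)).div_const _

theorem smp (h : Id1 u) : ContDiff ℝ ∞ (pp u) := smooth_gradient h.smp

theorem smq (h : Id1 u) : ContDiff ℝ ∞ (qq u) := contDiff_const.sub ((smp h).norm_sq ℝ)

theorem smS (h : Id1 u) : ContDiff ℝ ∞ (SS u) := (smp h).fderiv_right (m := ∞) (by simp)

theorem jac (h0 : Id0 u) (h : Id1 u) (e x : E n) :
    Lf u (pe u e) x = -(PP u x * pe u e x) := by
  have e1 : gradient (pe u e) = fun y => fderiv ℝ (pp u) y e := funext (h.gp e)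
  have e2 : (fun y => trc (fderiv ℝ (pp u) y)) = fun y => -√2 * (u y * qq u y) :=
    funext fun y => (h.tr y).trans (by ring)
  have du := h0.sm.differentiable (by simp) x
  have dq := (smq h).differentiable (by simp) x
  rw [Lf, lap, h.gp, e1, dvg_col (smp h), e2, fderiv_const_mul (du.fun_mul dq),
    _root_.smul_apply, fd_mul du dq, h.gu, h.gq, inner_smul_left, inner_smul_left,
    h.sy, PP, pe]
  simp only [conj_trivial, smul_eq_mul]
  ring

theorem grE (h0 : Id0 u) (h : Id1 u) (x : E n) : gradient (EE u) x = (ff u x * ff u x) •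
    ((-2 : ℝ) • SS u x (pp u x) + (2 : ℝ) • trc (SS u x) • pp u x) := by
  have df := (smf h0).differentiable (by simp) x
  have dq := (smq h).differentiable (by simp) x
  refine ext_inner_right ℝ fun v => ?_
  rw [inner_grad, show EE u = fun y => ff u y * ff u y * qq u y from
    funext fun y => by rw [EE, sq], fd_mul (df.fun_mul df) dq, inner_grad (fun y => ff u y * ff u y),
    fd_mul df df, h.gq, h.gf, h.tr]
  simp only [inner_smul_left, inner_add_left, conj_trivial]
  ring

theorem lE (h0 : Id0 u) (h : Id1 u) (x : E n) :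
    lap (EE u) x + 2 * √2 * u x * ⟪pp u x, gradient (EE u) x⟫ =
      2 * ff u x ^ 2 * (trc (SS u x) ^ 2 - hs (SS u x)) := by
  have df := (smf h0).differentiable (by simp) x
  have dp := (smp h).differentiable (by simp) x
  have d1 : DifferentiableAt ℝ (fun y => SS u y (pp u y)) x :=
    ((smS h).clm_apply (smp h)).differentiable (by simp) x
  have d2 : DifferentiableAt ℝ (fun y => trc (SS u y)) x :=
    (contDiff_trc.comp (smS h)).differentiable (by simp) x
  have e1 : dvg (fun y => SS u y (pp u y)) x =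
      hs (SS u x) + fderiv ℝ (fun y => trc (SS u y)) x (pp u x) := dvg_self (smp h) x (h.sy x)
  have e2 : dvg (pp u) x = trc (SS u x) := rfl
  rw [lap, funext (grE h0 h), dvg_smul (df.fun_mul df)
    ((d1.fun_const_smul _).fun_add ((d2.fun_smul dp).fun_const_smul _)),
    dvg_add (d1.fun_const_smul _) ((d2.fun_smul dp).fun_const_smul _), dvg_cmul _ d1,
    dvg_cmul _ (d2.fun_smul dp), dvg_smul d2 dp, e1, e2, fd_mul df df, h.gf]
  simp only [inner_smul_left, inner_smul_right, conj_trivial]
  ring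

end Ki2

theorem ki2 : KI2 := fun _ _ h0 h => ⟨Ki2.jac h0 h, Ki2.lE h0 h⟩

end Vale.Agent.P134B
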