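import Vale.Agent.P134B.Spec

/-!
# P134B, row KQ1: the gradient of `qq` and the decay of `ff`
-/

set_option linter.all false

open MeasureTheory Metric Filter Topology Set
open scoped ContDiff RealInnerProductSpace
open Vale.Agent.P366.Stmt (E)

namespace Vale.Agent.P134B

namespace Kq1

variable {n : ℕ}

theorem grad_up {v : (Fin n → ℝ) → ℝ} (h : Differentiable ℝ v) (x : E n) :
    gradient (up v) x = WithLp.toLp 2 fun i => P134.pd i v x.ofLp :=
  HasGradientAt.gradient (P134.H821.hasFDerivAt_eu h x)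

theorem norm_grad (f : E n → ℝ) (x : E n) : ‖gradient f x‖ = ‖fderiv ℝ f x‖ :=
  LinearIsometryEquiv.norm_map _ _

theorem ee {v : (Fin n → ℝ) → ℝ} (h : P134Y.St v) (j : Id1 (up v)) :
    EE (up v) = up (P134.defi v) := by
  funext x
  have e := congrArg (fun w => ‖w‖ ^ 2) (j.gu x)
  simp only [grad_up (h.c2.differentiable (by norm_num)), EuclideanSpace.real_norm_sq_eq,
    norm_smul, mul_pow, Real.norm_eq_abs, sq_abs] at e
  simp only [EE, qq, up, P134.defi, P134.psi, e, EuclideanSpace.real_norm_sq_eq, ff, div_pow,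
    Real.sq_sqrt zero_le_two]
  ring

end Kq1

open Kq1 in
/-- row KQ1 -/
theorem kq1 : KQ1 := by
  have s0 : (0 : ℝ) < √2 := by positivity
  have s1 : (1 : ℝ) < √2 := Real.one_lt_sqrt_two
  refine ⟨fun n => ⟨√n * (2 * P134.H283.cH n 2) + 2 * √2, fun v hv j0 j1 _ C hC x => ?_⟩,
    fun n => ?_⟩
  · refine le_trans ?_ (mul_le_mul_of_nonneg_right hC (j0.q0 x))
    have c0 := P134.H283.cH_pos n zero_le_two
    have f0 : 0 < ff (up v) x := div_pos (by nlinarith [abs_lt.1 (j0.lt x)]) s0
    have df : Differentiable ℝ (ff (up v)) :=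
      ((contDiff_const.sub (j0.sm.pow 2)).div_const _).differentiable (by simp)
    have dq : Differentiable ℝ (qq (up v)) := (differentiable_const _).sub
      (((P366W.smooth_gradient j1.smp).norm_sq ℝ).differentiable (by simp))
    have dE : Differentiable ℝ (EE (up v)) := (df.pow 2).mul dq
    have dd : Differentiable ℝ (P134.defi v) := by
      rw [ee hv j1] at dE
      exact dE.comp (PiLp.continuousLinearEquiv 2 ℝ fun _ : Fin n => ℝ).symm.differentiable
    have E0 : 0 ≤ EE (up v) x := mul_nonneg (sq_nonneg _) (j0.q0 x)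
    have b1 : ‖fderiv ℝ (EE (up v)) x‖ ≤ √n * (2 * P134.H283.cH n 2 * EE (up v) x) := by
      rw [← norm_grad, ← Real.sqrt_sq (show 0 ≤ 2 * P134.H283.cH n 2 * EE (up v) x by positivity),
        ← Real.sqrt_mul (Nat.cast_nonneg _), ee hv j1, grad_up dd, EuclideanSpace.norm_eq]
      refine Real.sqrt_le_sqrt ((Finset.sum_le_card_nsmul _ _ _ fun i _ => pow_le_pow_left₀
        (norm_nonneg _) (P134.H283.abs_pd_defi_le hv.toSol i x.ofLp) 2).trans_eq ?_)
      simp [up]
    have b2 : ‖fderiv ℝ (ff (up v)) x‖ ≤ √2 * ff (up v) x := by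
      rw [← norm_grad, j1.gf, norm_smul, norm_neg, norm_mul, norm_mul, Real.norm_of_nonneg s0.le,
        Real.norm_of_nonneg f0.le]
      refine (mul_le_of_le_one_right (by positivity)
        ((sq_le_one_iff₀ (norm_nonneg _)).1 (sub_nonneg.1 (j0.q0 x)))).trans ?_
      exact mul_le_mul_of_nonneg_right (mul_le_of_le_one_right s0.le (j0.lt x).le) f0.le
    have e : ff (up v) x ^ 2 • fderiv ℝ (qq (up v)) x = fderiv ℝ (EE (up v)) x -
        qq (up v) x • (2 * ff (up v) x) • fderiv ℝ (ff (up v)) x := by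
      rw [show fderiv ℝ (EE (up v)) x = _ from
        (((df x).hasFDerivAt.pow 2).mul (dq x).hasFDerivAt).fderiv]
      simp
    have b3 := (congrArg norm e).le.trans (norm_sub_le _ _)
    have q0 := j0.q0 x
    rw [norm_smul, norm_smul, norm_smul, Real.norm_of_nonneg (sq_nonneg _), Real.norm_of_nonneg q0,
      Real.norm_of_nonneg (by positivity)] at b3
    rw [norm_grad]
    refine le_of_mul_le_mul_left (b3.trans ?_) (pow_pos f0 2)
    have b4 := mul_le_mul_of_nonneg_left (mul_le_mul_of_nonneg_left b2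
      (show 0 ≤ 2 * ff (up v) x by positivity)) q0
    rw [EE] at b1
    linarith
  · obtain ⟨C, C0, h⟩ := P134.H291.dec_psi n (√2 - 1) (by linarith)
    refine ⟨C, fun v hv j0 _ _ C' hC x r hr hz => ?_⟩
    have k := h v hv.toSol x.ofLp r hr fun y hy => hz (WithLp.toLp 2 y) (by
      rw [mem_ball, dist_comm, dist_eq_norm]
      exact (P134.H291.eno_eq (x.ofLp - y)).symm.trans_lt hy)
    rw [sub_sub_cancel, one_mul] at k
    refine (div_le_self (by nlinarith [abs_lt.1 (j0.lt x)]) s1.le).trans (k.trans ?_)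
    gcongr

end Vale.Agent.P134B
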