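import Vale.Agent.P134B.Spec
import Vale.Agent.P134.H283.Har2

/-!
# P134B, row KQ2: the second derivatives of `qq`
-/

open MeasureTheory Metric Filter Topology Set
open scoped ContDiff RealInnerProductSpace
open Vale.Agent.P366.Stmt (E)
open Vale.Agent.P366W

noncomputable section

namespace Vale.Agent.P134B

namespace Kq2

open Vale.Agent.P134 Vale.Agent.P134.SM

variable {n : ℕ}

theorem fd_up (g : (Fin n → ℝ) → ℝ) (x : E n) (k : Fin n) :
    fderiv ℝ (up g) x (EuclideanSpace.single k 1) = pd k g x.ofLp :=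
  DFunLike.congr_fun ((PiLp.continuousLinearEquiv 2 ℝ fun _ : Fin n => ℝ).comp_right_fderiv
    (f := g) (x := x)) _

theorem grad_up (g : (Fin n → ℝ) → ℝ) (x : E n) (k : Fin n) :
    gradient (up g) x k = pd k g x.ofLp := by
  rw [← fd_up, ← inner_grad, EuclideanSpace.inner_single_right]
  simp

theorem hess_up {g : (Fin n → ℝ) → ℝ} {x : E n} (h : DifferentiableAt ℝ (gradient (up g)) x)
    (j k : Fin n) :
    fderiv ℝ (gradient (up g)) x (EuclideanSpace.single j 1) k = pd j (pd k g) x.ofLp := by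
  rw [← fd_up, show up (pd k g) = fun y => gradient (up g) y k from
    funext fun y => (grad_up g y k).symm]
  exact (DFunLike.congr_fun (((EuclideanSpace.proj k : E n →L[ℝ] ℝ).hasFDerivAt.comp x
    h.hasFDerivAt).fderiv) _).symm

theorem opn {A : E n →L[ℝ] E n} {M : ℝ} (hM : 0 ≤ M)
    (h : ∀ j k, |A (EuclideanSpace.single j 1) k| ≤ M) : ‖A‖ ≤ n * (n * M) := by
  have h1 : ∀ j, ‖A (EuclideanSpace.single j 1)‖ ≤ n * M := fun j => by
    rw [← sum_single (A (EuclideanSpace.single j 1))]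
    refine (norm_sum_le _ _).trans ((Finset.sum_le_sum (g := fun _ => M) fun k _ => ?_).trans
      (by simp))
    simpa [norm_smul] using h j k
  refine A.opNorm_le_bound (by positivity) fun w => ?_
  rw [map_eq_sum]
  refine (norm_sum_le _ _).trans ((Finset.sum_le_sum (g := fun _ => n * M * ‖w‖)
    fun k _ => ?_).trans (by simp [mul_assoc]))
  rw [norm_smul, mul_comm]
  exact mul_le_mul (h1 k) (PiLp.norm_apply_le w k) (norm_nonneg _) (by positivity)

theorem EE_up {v : (Fin n → ℝ) → ℝ} (h : Id1 (up v)) : EE (up v) = up (defi v) := by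
  funext x
  have h1 : ∑ i, pd i v x.ofLp ^ 2 = ff (up v) x ^ 2 * ‖pp (up v) x‖ ^ 2 := by
    rw [← sq_abs (ff _ _), ← Real.norm_eq_abs, ← mul_pow, ← norm_smul, ← h.gu,
      EuclideanSpace.real_norm_sq_eq]
    simp only [grad_up]
  change _ = defi v x.ofLp
  rw [defi, h1, EE, qq, mul_sub, mul_one, ff, div_pow, Real.sq_sqrt (by norm_num)]
  rfl

variable {u : E n → ℝ} (h0 : Id0 u) (h1 : Id1 u)
include h0 h1

omit h0 in
theorem sp : ContDiff ℝ ∞ (pp u) := smooth_gradient h1.smp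

omit h0 in
theorem sq' : ContDiff ℝ ∞ (qq u) := contDiff_const.sub ((sp h1).norm_sq ℝ)

omit h1 in
theorem sf : ContDiff ℝ ∞ (ff u) := (contDiff_const.sub (h0.sm.pow 2)).div_const _

theorem sE : ContDiff ℝ ∞ (EE u) := ((sf h0).pow 2).mul (sq' h1)

omit h1 in
theorem f01 (x : E n) : 0 < ff u x ∧ ff u x ≤ 1 := by
  have h2 : u x ^ 2 < 1 := (sq_lt_one_iff_abs_lt_one _).2 (h0.lt x)
  have h3 : (1 : ℝ) ≤ √2 := Real.one_le_sqrt.2 (by norm_num)
  exact ⟨div_pos (by linarith) (by positivity),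
    (div_le_one (by positivity)).2 (by linarith [sq_nonneg (u x)])⟩

omit h1 in
theorem p1 (x : E n) : ‖pp u x‖ ≤ 1 := by
  have := h0.q0 x
  rw [qq] at this
  exact abs_le_of_sq_le_sq' (by linarith) zero_le_one |>.2

omit h0 h1 in
theorem q1 (x : E n) : qq u x ≤ 1 := sub_le_self _ (sq_nonneg _)

omit h0 h1 in
theorem hd {g : E n → ℝ} (hg : ContDiff ℝ ∞ g) (x : E n) :
    HasFDerivAt g (innerSL ℝ (gradient g x)) x :=
  (hg.differentiable (by simp) x).hasFDerivAt.congr_fderiv (by ext w; simp)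

theorem grad_E (x : E n) : gradient (EE u) x =
    ff u x ^ 2 • (gradient (qq u) x - (2 * √2 * (u x * qq u x)) • pp u x) := by
  refine ext_inner_right ℝ fun w => ?_
  rw [inner_grad, show fderiv ℝ (EE u) x = _ from
    (((hd (sf h0) x).pow 2).mul (hd (sq' h1) x)).fderiv, h1.gf]
  simp [inner_sub_left, inner_smul_left]
  ring

theorem hess_E (x w : E n) : ff u x ^ 2 • fderiv ℝ (gradient (qq u)) x w =
    fderiv ℝ (gradient (EE u)) x w + ff u x ^ 2 • ((2 * √2 * (u x * qq u x)) • SS u x w +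
      (2 * √2 * (u x * ⟪gradient (qq u) x, w⟫ + qq u x * (ff u x * ⟪pp u x, w⟫))) • pp u x +
      (2 * √2 * (u x * ⟪pp u x, w⟫)) •
        (gradient (qq u) x - (2 * √2 * (u x * qq u x)) • pp u x)) := by
  have a1 := ((smooth_gradient (sq' h1)).differentiable (by simp) x).hasFDerivAt
  have a2 := ((sp h1).differentiable (by simp) x).hasFDerivAt
  have a3 := (((hd (sf h0) x).pow 2).smul (a1.sub
    ((((hd h0.sm x).mul (hd (sq' h1) x)).const_mul (2 * √2)).smul a2))).fderiv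
  rw [show gradient (EE u) = _ from funext (grad_E h0 h1)]
  erw [a3]
  rw [h1.gf, h1.gu]
  simp [SS]
  module

theorem q2 {a b c : ℝ} (ha : 0 ≤ a) (hb : 0 ≤ b) (hc : 0 ≤ c) (hQ : Q1 n a u) (hB : B0 n b u)
    (hE : ∀ x, ‖fderiv ℝ (gradient (EE u)) x‖ ≤ c * EE u x) :
    Q2 n (c + 3 * b + 3 * (a + 1) + 3 * (a + 3)) u := fun x => by
  have q0 := h0.q0 x
  obtain ⟨f0, f1⟩ := f01 h0 x
  have u1 := (h0.lt x).le
  have p1 := p1 h0 x
  have r0 : (0 : ℝ) ≤ 2 * √2 := by positivity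
  have r3 : 2 * √2 ≤ (3 : ℝ) := by
    have : √2 ≤ (3 / 2 : ℝ) := Real.sqrt_le_iff.2 ⟨by norm_num, by norm_num⟩
    linarith
  refine ContinuousLinearMap.opNorm_le_bound _ (by positivity) fun w => ?_
  have w0 := norm_nonneg w
  have ns : ∀ {s M : ℝ} {y : E n} {N : ℝ}, |s| ≤ M → ‖y‖ ≤ N → ‖(2 * √2 * s) • y‖ ≤ 3 * (M * N) :=
    fun hs hy => by
      rw [norm_smul, Real.norm_eq_abs, abs_mul, abs_of_nonneg r0, mul_assoc]
      exact mul_le_mul r3 (mul_le_mul hs hy (norm_nonneg _) ((abs_nonneg _).trans hs))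
        (by positivity) (by norm_num)
  have um : ∀ s, |u x * s| ≤ |s| := fun s => by
    rw [abs_mul]; exact mul_le_of_le_one_left (abs_nonneg _) u1
  have b1 : |u x * qq u x| ≤ qq u x := (um _).trans_eq (abs_of_nonneg q0)
  have b2 : |⟪pp u x, w⟫| ≤ ‖w‖ :=
    (abs_real_inner_le_norm _ _).trans (mul_le_of_le_one_left w0 p1)
  have b3 : ‖SS u x w‖ ≤ b * ‖w‖ := ((SS u x).le_opNorm w).trans (mul_le_mul_of_nonneg_right
    ((hB x).trans (mul_le_of_le_one_right hb (Real.sqrt_le_one.2 (q1 x)))) w0)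
  have b4 : |⟪gradient (qq u) x, w⟫| ≤ a * qq u x * ‖w‖ :=
    (abs_real_inner_le_norm _ _).trans (mul_le_mul_of_nonneg_right (hQ x) w0)
  have b5 : |qq u x * (ff u x * ⟪pp u x, w⟫)| ≤ qq u x * ‖w‖ := by
    rw [abs_mul, abs_mul, abs_of_nonneg q0, abs_of_pos f0]
    exact mul_le_mul_of_nonneg_left ((mul_le_of_le_one_left (abs_nonneg _) f1).trans b2) q0
  have c1 := ns b1 b3
  have c2 := ns ((abs_add_le _ _).trans (add_le_add ((um _).trans b4) b5)) p1
  have c3 := ns ((um _).trans b2) ((norm_sub_le _ _).trans (add_le_add (hQ x) (ns b1 p1)))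
  have c4 := ((fderiv ℝ (gradient (EE u)) x).le_opNorm w).trans
    (mul_le_mul_of_nonneg_right (hE x) w0)
  have c5 := (norm_add₃_le).trans (add_le_add_three c1 c2 c3)
  have c6 := congrArg norm (hess_E h0 h1 x w)
  have f2 : 0 < ff u x ^ 2 := by positivity
  replace c6 := c6.trans_le (norm_add_le _ _)
  rw [norm_smul, norm_smul (ff u x ^ 2), Real.norm_of_nonneg f2.le] at c6
  refine le_of_mul_le_mul_left (c6.trans ((add_le_add c4
    (mul_le_mul_of_nonneg_left c5 f2.le)).trans_eq ?_)) f2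
  rw [EE]
  ring

theorem b2 {b c : ℝ} (hb : 0 ≤ b) (hc : 0 ≤ c) (hB : B0 n b u) (hQ : Q2 n c u) :
    B2 n (c + b ^ 2) u := fun x => by
  have q0 := h0.q0 x
  have a2 := (sp h1).differentiable (by simp) x
  have a3 : DifferentiableAt ℝ (SS u) x :=
    ((sp h1).fderiv_right (m := ∞) (by simp)).differentiable (by simp) x
  refine ContinuousLinearMap.opNorm_le_bound _ (by positivity) fun w => ?_
  have w0 := norm_nonneg w
  have e1 : fderiv ℝ (gradient (qq u)) x w =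
      (-2 : ℝ) • (SS u x (SS u x w) + fderiv ℝ (SS u) x w (pp u x)) := by
    rw [show gradient (qq u) = _ from funext h1.gq]
    erw [((a3.hasFDerivAt.clm_apply a2.hasFDerivAt).const_smul (-2 : ℝ)).fderiv]
    simp [SS]
  have e2 : fderiv ℝ (SS u) x w (pp u x) = fderiv ℝ (SS u) x (pp u x) w :=
    ((sp h1).of_le (m := 2) (WithTop.coe_le_coe.2 le_top)).contDiffAt.isSymmSndFDerivAt
      (by simp) w (pp u x)
  have e3 : fderiv ℝ (SS u) x (pp u x) w =
      (-(1 / 2) : ℝ) • fderiv ℝ (gradient (qq u)) x w - SS u x (SS u x w) := by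
    rw [e1, e2]; module
  have c1 := ((fderiv ℝ (gradient (qq u)) x).le_opNorm w).trans
    (mul_le_mul_of_nonneg_right (hQ x) w0)
  have c2 : ‖SS u x (SS u x w)‖ ≤ b * √(qq u x) * (b * √(qq u x) * ‖w‖) :=
    ((SS u x).le_opNorm _).trans (mul_le_mul (hB x) (((SS u x).le_opNorm w).trans
      (mul_le_mul_of_nonneg_right (hB x) w0)) (norm_nonneg _) (by positivity))
  have c3 : b * √(qq u x) * (b * √(qq u x) * ‖w‖) = b ^ 2 * qq u x * ‖w‖ := by
    linear_combination (b ^ 2 * ‖w‖) * Real.mul_self_sqrt q0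
  rw [e3]
  refine (norm_sub_le _ _).trans ?_
  rw [norm_smul, norm_neg, Real.norm_of_nonneg (by norm_num)]
  linarith [norm_nonneg (fderiv ℝ (gradient (qq u)) x w)]

end Kq2

open Kq2 in
/-- **KQ2** -/
theorem kq2 : KQ2 := by
  intro hQ hB
  have key : ∀ n, ∃ b c : ℝ, 0 ≤ b ∧ 0 ≤ c ∧ ∀ v : (Fin n → ℝ) → ℝ, P134Y.St v → Id0 (up v) →
      Id1 (up v) → Id2 (up v) → B0 n b (up v) ∧ Q2 n c (up v) := fun n => by
    obtain ⟨a, ha⟩ := hQ n
    obtain ⟨b, hb⟩ := hB n
    obtain ⟨c, c0, hc⟩ := P134.H283.exists_defi2_bound n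
    refine ⟨|b|, n * (n * c) + 3 * |b| + 3 * (|a| + 1) + 3 * (|a| + 3), abs_nonneg b,
      by positivity, fun v hv h0 h1 h2 => ?_⟩
    have k := hb v hv h0 h1 h2 _ (le_abs_self b)
    refine ⟨k, q2 h0 h1 (abs_nonneg a) (abs_nonneg b) (by positivity)
      (ha v hv h0 h1 h2 _ (le_abs_self a)) k fun x => ?_⟩
    have d := (smooth_gradient (sE h0 h1)).differentiable (by simp) x
    rw [EE_up h1] at d ⊢
    refine (opn (mul_nonneg c0.le (hv.toSol.defi_nonneg x.ofLp)) fun j k => ?_).trans_eq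
      (by rw [up]; ring)
    rw [hess_up d]
    exact hc v hv.toSol j k _
  refine ⟨fun n => ?_, fun n => ?_⟩
  · obtain ⟨b, c, -, -, h⟩ := key n
    exact ⟨c, fun v hv h0 h1 h2 C hC x => ((h v hv h0 h1 h2).2 x).trans
      (mul_le_mul_of_nonneg_right hC (h0.q0 x))⟩
  · obtain ⟨b, c, b0, c0, h⟩ := key n
    exact ⟨c + b ^ 2, fun v hv h0 h1 h2 C hC x => (b2 h0 h1 b0 c0 (h v hv h0 h1 h2).1
      (h v hv h0 h1 h2).2 x).trans (mul_le_mul_of_nonneg_right hC (h0.q0 x))⟩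

end Vale.Agent.P134B
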