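import Vale.Agent.P134B.Spec

/-!
# P134B: a graph in the good region is a layer
-/

set_option linter.all false

open MeasureTheory Metric Filter Topology Set
open scoped ContDiff RealInnerProductSpace
open Vale.Agent.P366.Stmt (E)
open Vale.Agent.P366W

noncomputable section

namespace Vale.Agent.P134B

variable {n m : ℕ}

theorem Zn.mono {δ δ' : ℝ} {u : E n → ℝ} {e x : E n} (h : Zn δ u e x) (hd : δ ≤ δ') :
    Zn δ' u e x :=
  ⟨h.t0.trans hd, fun τ hτ => (h.t1 τ hτ).trans (mul_le_mul_of_nonneg_right hd (norm_nonneg _)),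
    h.t2.trans hd, h.t3.imp (fun a => a.trans hd) fun a => by linarith⟩

theorem Gr.mono {u : E (m + 1) → ℝ} {z e : E (m + 1)} {L : E m →ₗᵢ[ℝ] E (m + 1)} {r θ θ' : ℝ}
    {h : E m → ℝ} (g : Gr u z e L r h θ) (hθ : θ ≤ θ') : Gr u z e L r h θ' :=
  ⟨g.fr, g.sm, g.ze, fun y hy => (g.ti y hy).trans hθ⟩

theorem pt_sub (z e : E (m + 1)) (L : E m →ₗᵢ[ℝ] E (m + 1)) (y : E m) (s t : ℝ) :
    pt z e L y (s + t) - pt z e L y s = t • e := by
  simp only [pt, add_smul]; abel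

theorem norm_pt_le {e : E (m + 1)} {L : E m →ₗᵢ[ℝ] E (m + 1)} (hF : Fr e L) (z : E (m + 1))
    (y : E m) (s : ℝ) : ‖pt z e L y s - z‖ ≤ ‖y‖ + |s| := by
  rw [pt, add_assoc, add_sub_cancel_left]
  refine (norm_add_le _ _).trans (le_of_eq ?_)
  rw [L.norm_map, norm_smul, hF.one, mul_one, Real.norm_eq_abs]

theorem unit_near {p e : E n} {θ : ℝ} (he : ‖e‖ = 1) (h : ‖p - e‖ ≤ θ) (hθ : θ < 1) :
    ‖‖p‖⁻¹ • p‖ = 1 ∧ ‖e - ‖p‖⁻¹ • p‖ ≤ 2 * θ := by
  have h1 : |‖p‖ - 1| ≤ θ := by rw [← he]; exact (abs_norm_sub_norm_le _ _).trans h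
  have h2 : 0 < ‖p‖ := by linarith [(abs_le.1 h1).1]
  refine ⟨by rw [norm_smul, norm_inv, norm_norm, inv_mul_cancel₀ h2.ne'], ?_⟩
  have h3 : ‖p - ‖p‖⁻¹ • p‖ = |‖p‖ - 1| := by
    rw [show p - ‖p‖⁻¹ • p = (1 - ‖p‖⁻¹) • p by rw [sub_smul, one_smul], norm_smul,
      Real.norm_eq_abs]
    calc _ = |(1 - ‖p‖⁻¹) * ‖p‖| := by rw [abs_mul, abs_norm]
      _ = _ := by rw [sub_mul, one_mul, inv_mul_cancel₀ h2.ne']
  have h4 := norm_sub_le_norm_sub_add_norm_sub e p (‖p‖⁻¹ • p)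
  rw [norm_sub_rev e p] at h4
  linarith

theorem one_le_lg {ε : ℝ} (h0 : 0 < ε) (h : ε ≤ Real.exp (-1)) : 1 ≤ lg ε := by
  have := (Real.log_le_iff_le_exp h0).2 h
  rw [lg]; linarith

theorem exists_lg (M : ℝ) : ∃ ε₀ > (0 : ℝ), ∀ ε, 0 < ε → ε ≤ ε₀ → M * lg ε < 1 / ε := by
  have h1 : ContinuousAt (fun x : ℝ => M * (x * Real.log x)) 0 :=
    (continuous_const.mul Real.continuous_mul_log).continuousAt
  obtain ⟨a, ha, h2⟩ := Metric.eventually_nhds_iff.1
    (h1.eventually (lt_mem_nhds (show (-1 : ℝ) < M * (0 * Real.log 0) by simp)))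
  refine ⟨a / 2, by positivity, fun ε h0 h3 => ?_⟩
  have h4 := h2 (y := ε) (by rw [dist_zero_right, Real.norm_eq_abs, abs_of_pos h0]; linarith)
  rw [lt_div_iff₀ h0, lg]
  linarith

theorem lay : rLAY := by
  intro tl zt gd m C M δ hδ hδ1
  obtain ⟨ε₁, hε₁, H⟩ := tl m C (M + 1) (δ / 2) (by positivity)
  obtain ⟨ε₂, hε₂, H2⟩ := exists_lg M
  have hC : 1 ≤ max C 1 := le_max_right _ _
  have hθ : δ / (12 * max C 1) ≤ δ / 12 := by gcongr; linarith
  refine ⟨δ / (12 * max C 1), by positivity, min (min ε₁ ε₂) (Real.exp (-1)), by positivity,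
    fun u ε r z e L h ok h0 hε hM g hG => ?_⟩
  have e1 : ε ≤ ε₁ := hε.trans ((min_le_left _ _).trans (min_le_left _ _))
  have e2 : ε ≤ ε₂ := hε.trans ((min_le_left _ _).trans (min_le_right _ _))
  have e3 : ε ≤ Real.exp (-1) := hε.trans (min_le_right _ _)
  have hl := one_le_lg h0 e3
  have hg : ∀ y ∈ ball (0 : E m) r, Gd u ε (pt z e L y (h y)) (1 / ε) := by
    intro y hy x hx
    have h1 : ‖h y - h 0‖ ≤ 1 * ‖y - 0‖ :=
      (convex_ball (0 : E m) r).norm_image_sub_le_of_norm_fderiv_le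
        (fun w _ => g.sm.differentiable (by simp) w) (fun w hw => by
          rw [← norm_gradient]
          linarith [(gd m C _ r u z e L h ok g (by linarith) w hw).2.2.1])
        (mem_ball_self (pos_of_mem_ball hy)) hy
    rw [one_mul, sub_zero, Real.norm_eq_abs] at h1
    have h2 := norm_pt_le g.fr z y (h y)
    have h3 := mem_ball_zero_iff.1 hy
    have h4 := abs_sub_abs_le_abs_sub (h y) (h 0)
    have h5 := norm_sub_le_norm_sub_add_norm_sub x (pt z e L y (h y)) z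
    have h6 := mem_ball_iff_norm.1 hx
    exact hG x (mem_ball_iff_norm.2 (by linarith))
  have hn : ∀ y t, ‖pt z e L y (h y + t) - pt z e L y (h y)‖ = |t| := fun y t => by
    rw [pt_sub, norm_smul, g.fr.one, mul_one, Real.norm_eq_abs]
  refine ⟨ok, g.mono (by linarith), h0, e3.trans (Real.exp_le_one_iff.2 (by norm_num)), hδ, hδ1,
    by nlinarith, fun y hy t ht => ?_, fun y hy t ht => hg y hy _ ?_⟩
  · have h1 := H u ε _ ok h0 e1 (hg y hy) (g.ze y hy) (pt z e L y (h y + t))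
      (mem_ball_iff_norm.2 (by rw [hn]; linarith))
    obtain ⟨h2, h3⟩ := unit_near g.fr.one (g.ti y hy) (by linarith)
    refine (zt _ C _ _ u _ e _ ok h2 g.fr.one h3 (by positivity) h1).mono ?_
    have h4 : δ / 2 / lg ε ≤ δ / 2 := div_le_self (by positivity) hl
    have h5 : 3 * C * (2 * (δ / (12 * max C 1))) = δ / 2 := by
      rw [max_eq_left ok.C1]
      have : C ≠ 0 := by linarith [ok.C1]
      field_simp
      ring
    linarith
  · exact mem_ball_iff_norm.2 (by rw [hn]; exact ht.trans_lt (H2 ε h0 e2))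

end Vale.Agent.P134B
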