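import Vale.Agent.P134B.Spec

/-!
# P134B, row LN: the restriction to a vertical line
-/

open MeasureTheory Metric Filter Topology Set
open scoped ContDiff RealInnerProductSpace
open Vale.Agent.P366.Stmt (E)
open Vale.Agent.P366W (Fr adj smooth_gradient inner_grad)

noncomputable section

namespace Vale.Agent.P134B

theorem ln : LN := by
  intro m C ε δ r T u z e L h H y hy
  have ok := H.ok
  have fr := H.gr.fr
  have dγ : ∀ t, HasDerivAt (fun t => pt z e L y (h y + t)) e t := fun t => by
    simpa [pt] using (((hasDerivAt_id t).const_add (h y)).smul_const e).const_add (z + L y)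
  have cγ : Continuous fun t => pt z e L y (h y + t) :=
    continuous_iff_continuousAt.2 fun t => (dγ t).continuousAt
  have ch : ∀ {f : E (m + 1) → ℝ}, ContDiff ℝ ∞ f → ∀ t, HasDerivAt
      (fun t => f (pt z e L y (h y + t))) ⟪gradient f (pt z e L y (h y + t)), e⟫ t :=
    fun hf t => by
      rw [inner_grad]
      exact (hf.differentiable (by simp) _).hasFDerivAt.comp_hasDerivAt t (dγ t)
  have sp : ContDiff ℝ ∞ (pp u) := smooth_gradient ok.smp
  have dp : ∀ t, HasDerivAt (fun t => pp u (pt z e L y (h y + t)))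
      (SS u (pt z e L y (h y + t)) e) t := fun t =>
    (sp.differentiable (by simp) _).hasFDerivAt.comp_hasDerivAt t (dγ t)
  have cS : Continuous (SS u) := sp.continuous_fderiv (by simp)
  have py : ∀ x, pe u e x ^ 2 + qq u x = 1 - ‖pp u x - pe u e x • e‖ ^ 2 := fun x => by
    rw [norm_sub_sq_real, inner_smul_right, norm_smul, fr.one, qq, pe]
    simp only [Real.norm_eq_abs, mul_one, sq_abs]
    ring
  have t0 : ∀ x, Zn δ u e x → 1 - δ ^ 2 ≤ pe u e x ^ 2 + qq u x := fun x hx => by
    rw [py]
    exact sub_le_sub_left (pow_le_pow_left₀ (norm_nonneg _) hx.t0 2) _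
  have sq : ∀ x, pe u e x ^ 2 + qq u x ≤ 1 := fun x => (py x).le.trans (sub_le_self _ (sq_nonneg _))
  have a1 : ∀ s, adj L (pt z e L y s - z) = y := fun s => by
    rw [pt, add_assoc, add_sub_cancel_left, fr.adj_pt]
  have a2 : ∀ s, ⟪e, pt z e L y s - z⟫ = s := fun s => by
    rw [pt, add_assoc, add_sub_cancel_left, fr.e_pt]
  refine ⟨⟨H.e0, H.e1, H.d0, H.d1, H.T1, ch ok.smp, fun t => ?_, fun t => ?_,
    ((cS.comp cγ).clm_apply continuous_const).inner continuous_const,
    continuous_const.sub ((sp.continuous.comp cγ).norm.pow 2), ?_, ?_, fun _ => ok.th _,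
    fun _ => rfl, fun _ => ok.flo _, fun _ => ok.fhi _, fun _ => ok.q0 _, fun _ => sq _,
    fun t ht => t0 _ (H.zn y hy t ht), fun t ht => (H.zn y hy t ht).t2,
    fun t ht => (H.zn y hy t ht).t3, H.gd y hy⟩, fun c t => ?_, fun T' t => ?_,
    fun t => ⟨dp t, ?_, fun ht hs => ?_⟩⟩
  · simpa [pe] using (dp t).inner ℝ (hasDerivAt_const t e)
  · simpa [ok.gu, inner_smul_left, pe] using ch ok.sm t
  · simp [ps, H.gr.ze y hy]
  · have := (abs_real_inner_le_norm _ e).trans
      (mul_le_mul_of_nonneg_right (H.gr.ti y hy) (norm_nonneg e))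
    rw [inner_sub_left, fr.ee, fr.one] at this
    simp only [add_zero, pe]
    linarith [(abs_le.1 this).1]
  · simp only [Wr, Wn, Iv, mem_ofPred_eq, a1, a2, add_sub_cancel_left, mem_ball_zero_iff.1 hy,
      true_and]
    refine and_congr_right' ?_
    conv_lhs => rw [show uIcc (h y) (h y + t) = (h y + ·) '' uIcc 0 t by simp [add_comm],
      forall_mem_image]
  · rw [cut, a1, a2, add_sub_cancel_left]
  · have := ok.q0 (pt z e L y (h y + t))
    rw [qq] at this
    exact abs_le_of_sq_le_sq' (by linarith) zero_le_one |>.2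
  · have zn := H.zn y hy t ht
    generalize pt z e L y (h y + t) = x at zn hs
    have C0 := zero_le_one.trans ok.C1
    have q0 := ok.q0 x
    have h1 : ‖SS u x (pp u x)‖ ≤ C * qq u x / 2 := by
      have := ok.q1 x
      rw [ok.gq, norm_smul] at this
      norm_num at this
      linarith
    have s1 : pe u e x ≤ 1 := by nlinarith [sq x]
    have h2 : ‖e - pp u x‖ ≤ qq u x + 2 * δ := by
      have := norm_sub_le_norm_sub_add_norm_sub e (pe u e x • e) (pp u x)
      rw [norm_sub_rev (pe u e x • e), show e - pe u e x • e = (1 - pe u e x) • e by module,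
        norm_smul, fr.one, Real.norm_of_nonneg (sub_nonneg.2 s1)] at this
      nlinarith [zn.t0, t0 x zn, H.d0, H.d1]
    have h3 := ((SS u x).le_opNorm (e - pp u x)).trans
      (mul_le_mul (ok.S0 x) h2 (norm_nonneg _) (by positivity))
    have h4 : √(qq u x) ≤ 1 := Real.sqrt_le_one.2 (sub_le_self _ (sq_nonneg _))
    have := norm_add_le (SS u x (pp u x)) (SS u x (e - pp u x))
    rw [← map_add, add_sub_cancel] at this
    nlinarith [mul_nonneg (mul_nonneg C0 q0) (sub_nonneg.2 h4), mul_nonneg C0 q0]

end Vale.Agent.P134B
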