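import Vale.Agent.P134B.Spec2

/-!
# P134B, row LN0: the restriction to a line
-/

open MeasureTheory Metric Filter Topology Set
open scoped ContDiff RealInnerProductSpace
open Vale.Agent.P366.Stmt (E)
open Vale.Agent.P366W (Fr adj smooth_gradient inner_grad)

noncomputable section

namespace Vale.Agent.P134B

theorem ln0 : LN0 := by
  intro n C ε δ T u z e ok e0 e1 d0 d1 T1 one z0 ti H
  have dγ : ∀ t : ℝ, HasDerivAt (fun t : ℝ => z + t • e) e t := fun t => by
    simpa using ((hasDerivAt_id t).smul_const e).const_add z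
  have cγ : Continuous fun t : ℝ => z + t • e :=
    continuous_iff_continuousAt.2 fun t => (dγ t).continuousAt
  have ch : ∀ {f : E n → ℝ}, ContDiff ℝ ∞ f → ∀ t : ℝ, HasDerivAt
      (fun t : ℝ => f (z + t • e)) ⟪gradient f (z + t • e), e⟫ t :=
    fun hf t => by
      rw [inner_grad]
      exact (hf.differentiable (by simp) _).hasFDerivAt.comp_hasDerivAt t (dγ t)
  have sp : ContDiff ℝ ∞ (pp u) := smooth_gradient ok.smp
  have dp : ∀ t : ℝ, HasDerivAt (fun t : ℝ => pp u (z + t • e)) (SS u (z + t • e) e) t := fun t =>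
    (sp.differentiable (by simp) _).hasFDerivAt.comp_hasDerivAt t (dγ t)
  have cS : Continuous (SS u) := sp.continuous_fderiv (by simp)
  have py : ∀ x, pe u e x ^ 2 + qq u x = 1 - ‖pp u x - pe u e x • e‖ ^ 2 := fun x => by
    rw [norm_sub_sq_real, inner_smul_right, norm_smul, one, qq, pe]
    simp only [Real.norm_eq_abs, mul_one, sq_abs]
    ring
  have t0 : ∀ x, Zn δ u e x → 1 - δ ^ 2 ≤ pe u e x ^ 2 + qq u x := fun x hx => by
    rw [py]
    exact sub_le_sub_left (pow_le_pow_left₀ (norm_nonneg _) hx.t0 2) _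
  have sq : ∀ x, pe u e x ^ 2 + qq u x ≤ 1 := fun x => (py x).le.trans (sub_le_self _ (sq_nonneg _))
  refine ⟨e0, e1, d0, d1, T1, ch ok.smp, fun t => ?_, fun t => ?_,
    ((cS.comp cγ).clm_apply continuous_const).inner continuous_const,
    continuous_const.sub ((sp.continuous.comp cγ).norm.pow 2), ?_, ?_, fun _ => ok.th _,
    fun _ => rfl, fun _ => ok.flo _, fun _ => ok.fhi _, fun _ => ok.q0 _, fun _ => sq _,
    fun t ht => t0 _ (H t ht).1, fun t ht => (H t ht).1.t2,
    fun t ht => (H t ht).1.t3, fun t ht => (H t ht).2⟩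
  · simpa [pe] using (dp t).inner ℝ (hasDerivAt_const t e)
  · simpa [ok.gu, inner_smul_left, pe] using ch ok.sm t
  · simp [ps, z0]
  · have := (abs_real_inner_le_norm _ e).trans (mul_le_mul_of_nonneg_right ti (norm_nonneg e))
    rw [inner_sub_left, real_inner_self_eq_norm_sq, one] at this
    simp only [zero_smul, add_zero, pe]
    linarith [(abs_le.1 this).1]

end Vale.Agent.P134B
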