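import Vale.Agent.P134B.Spec2

/-!
# P134B, row LOC: the profile of the test function in the window
-/

open MeasureTheory Metric Filter Topology Set
open scoped ContDiff RealInnerProductSpace
open Vale.Agent.P366.Stmt (E)

noncomputable section

namespace Vale.Agent.P134B

namespace Loc

variable {τ B : ℝ} {β Λ χ χ' : ℝ → ℝ}

theorem be (P : Prf τ B β Λ χ χ') {s : ℝ} (hs : s ≤ 1) : β s ≤ 1 ∧ β s ^ 2 ≤ max s 0 := by
  rcases le_total s 0 with h | h
  · rw [P.β0 s h]
    simp
  · have h1 := P.β1 s h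
    have h2 := P.cβ.nn s
    rw [max_eq_left h]
    exact ⟨by linarith, by nlinarith⟩

theorem pe_neg {n : ℕ} (u : E n → ℝ) (e x : E n) : pe u (-e) x = -pe u e x := inner_neg_right _ _

end Loc

open Loc in
theorem loc : rLOC := fun reg cv m C B => by
  refine ⟨0, le_rfl, fun ε δ r T τ u z e L h₀ h₁ β Λ χ χ' hp hτ P x hx => ?_⟩
  have o := hp.l0.ok
  obtain ⟨-, o0, r0⟩ := reg m C ε δ r T (-(19 / 20)) u z e L h₀ hp.l0 le_rfl (by norm_num)
  obtain ⟨-, o1, r1⟩ := reg m C ε δ r T (-(19 / 20)) u z (-e) L _ hp.l1 le_rfl (by norm_num)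
  have cs : Continuous (pe u e) :=
    (Vale.Agent.P366W.smooth_gradient o.smp).continuous.inner continuous_const
  have s1 : |pe u e x| ≤ 1 := by
    have h1 := abs_real_inner_le_norm (pp u x) e
    have h2 := o.q0 x
    rw [hp.l0.gr.fr.one] at h1
    rw [qq] at h2
    rw [pe]
    nlinarith [norm_nonneg (pp u x)]
  obtain ⟨s2, s3⟩ := abs_le.1 s1
  have p0 : 0 ≤ τ * PP u x :=
    mul_nonneg hτ (mul_nonneg (mul_nonneg (by positivity) (le_trans (by positivity) (o.flo x)))
      (o.q0 x))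
  have n0 : x ∉ W0 u z e L r h₀ T →
      ∀ᶠ y in 𝓝 x, y ∈ W0 u z e L r h₀ T → pe u e y < -(9 / 10) := fun h => by
    rcases r0 x hx.1 h with k | k
    · exact (cs.continuousAt.eventually_lt continuousAt_const (by rw [k]; norm_num)).mono
        fun y hy _ => hy
    · exact k.mono fun y hy hy' => (hy hy').elim
  have n1 : x ∉ W1 u z e L r h₁ T →
      ∀ᶠ y in 𝓝 x, y ∈ W1 u z e L r h₁ T → 9 / 10 < pe u e y := fun h => by
    rcases r1 x hx.2 h with k | k
    · rw [pe_neg, neg_inj] at k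
      exact (continuousAt_const.eventually_lt cs.continuousAt (by rw [k]; norm_num)).mono
        fun y hy _ => hy
    · exact k.mono fun y hy hy' => (hy hy').elim
  have m0 : x ∈ W0 u z e L r h₀ T → ∀ᶠ y in 𝓝 x, y ∈ W0 u z e L r h₀ T := fun h => o0.mem_nhds h
  have m1 : x ∈ W1 u z e L r h₁ T → ∀ᶠ y in 𝓝 x, y ∈ W1 u z e L r h₁ T := fun h => o1.mem_nhds h
  unfold GG HH
  generalize hM : MM u z e L r h₀ h₁ T β Λ = M
  unfold MM at hM
  generalize W0 u z e L r h₀ T = A at *
  generalize W1 u z e L r h₁ T = D at *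
  have i3 : 0 ≤ (A ∩ {x | pe u e x ≤ 9 / 10}).indicator (fun _ => (1 : ℝ)) x :=
    indicator_nonneg (fun _ _ => zero_le_one) x
  by_cases a : x ∈ A <;> by_cases d : x ∈ D
  · have ev : M =ᶠ[𝓝 x] fun y => Λ (pe u e y) := by
      filter_upwards [m0 a, m1 d] with y ha hd
      rw [← hM]
      simp only [indicator_of_mem ha, indicator_of_mem hd, indicator_of_mem (mem_inter ha hd)]
      ring
    obtain ⟨c1, c2⟩ := cv _ C τ u M e x Λ o hτ P.cΛ ev (P.Λ1 _ s1)
    have g := mul_le_mul_of_nonneg_right (P.gn (pe u e x)) (sq_nonneg ‖SS u x e‖)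
    simp only [indicator_of_mem a, indicator_of_mem d, indicator_of_mem (mem_inter a d)]
    refine ⟨c1, by linarith, ?_⟩
    rw [ev.eq_of_nhds]
    have t1 := le_max_right (pe u e x) 0
    have t2 := le_max_right (-pe u e x) 0
    by_cases k : pe u e x ≤ 9 / 10
    · rw [indicator_of_mem (mem_inter a k)]
      nlinarith [P.Λ1 _ s1, P.cΛ.nn (pe u e x)]
    · rw [P.Λβ _ (le_abs.2 (.inl (by linarith))), P.β0 (-pe u e x) (by linarith), add_zero]
      linarith [(be P s3).2]
  · have ev : M =ᶠ[𝓝 x] fun y => β (pe u e y) := by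
      filter_upwards [m0 a, n1 d] with y ha hd
      rw [← hM]
      by_cases k : y ∈ D
      · simp only [indicator_of_mem ha, indicator_of_mem k, indicator_of_mem (mem_inter ha k)]
        rw [P.Λβ _ (le_abs.2 (.inl (hd k).le)), P.β0 (-pe u e y) (by linarith [hd k])]
        ring
      · simp [ha, k]
    obtain ⟨c1, c2⟩ := cv _ C τ u M e x β o hτ P.cβ ev (be P s3).1
    have g := mul_nonneg (mul_nonneg (P.cβ.nn (pe u e x)) (P.cβ.cv (pe u e x)))
      (sq_nonneg ‖SS u x e‖)
    simp only [indicator_of_mem a, indicator_of_notMem d,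
      indicator_of_notMem (show x ∉ A ∩ D from fun k => d k.2)]
    refine ⟨c1, by linarith, ?_⟩
    rw [ev.eq_of_nhds]
    linarith [(be P s3).2]
  · have ev : M =ᶠ[𝓝 x] fun y => β (pe u (-e) y) := by
      filter_upwards [n0 a, m1 d] with y ha hd
      rw [← hM, pe_neg]
      by_cases k : y ∈ A
      · simp only [indicator_of_mem hd, indicator_of_mem k, indicator_of_mem (mem_inter k hd)]
        rw [P.Λβ _ (le_abs.2 (.inr (by linarith [ha k]))), P.β0 (pe u e y) (by linarith [ha k])]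
        ring
      · simp [hd, k]
    have s4 : pe u (-e) x ≤ 1 := by rw [pe_neg]; linarith
    obtain ⟨c1, c2⟩ := cv _ C τ u M (-e) x β o hτ P.cβ ev (be P s4).1
    have g := mul_nonneg (mul_nonneg (P.cβ.nn (pe u (-e) x)) (P.cβ.cv (pe u (-e) x)))
      (sq_nonneg ‖SS u x (-e)‖)
    simp only [indicator_of_mem d, indicator_of_notMem a,
      indicator_of_notMem (show x ∉ A ∩ D from fun k => a k.1)]
    refine ⟨c1, by linarith, ?_⟩
    rw [ev.eq_of_nhds, ← pe_neg]
    linarith [(be P s4).2]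
  · have ev : M =ᶠ[𝓝 x] fun _ => 0 := by
      filter_upwards [n0 a, n1 d] with y ha hd
      rw [← hM]
      by_cases k : y ∈ A <;> by_cases k' : y ∈ D
      · linarith [ha k, hd k']
      · simp [k, k', P.β0 (pe u e y) (by linarith [ha k])]
      · simp [k, k', P.β0 (-pe u e y) (by linarith [hd k'])]
      · simp [k, k']
    refine ⟨contDiffAt_const.congr_of_eventuallyEq ev, ?_, ?_⟩ <;> rw [ev.eq_of_nhds] <;>
      simp [a, d]

end Vale.Agent.P134B
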