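import Vale.Agent.P134B.Spec

/-!
# P134B: the derivatives at a local maximum
-/

open Metric Filter Topology Set
open scoped RealInnerProductSpace
open Vale.Agent.P366.Stmt (E)
open Vale.Agent.P366W (dvg trc inner_grad)

noncomputable section

namespace Vale.Agent.P134B

theorem second_le {g g' : ℝ → ℝ} {a : ℝ} (h1 : ∀ᶠ t in 𝓝 (0 : ℝ), HasDerivAt g (g' t) t)
    (h2 : HasDerivAt g' a 0) (hm : IsLocalMax g 0) : a ≤ 0 := by
  by_contra h
  have e1 : deriv g =ᶠ[𝓝 0] g' := h1.mono fun t ht => ht.deriv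
  have e2 : deriv (deriv g) 0 = a := by rw [e1.deriv_eq, h2.deriv]
  have hmin : IsLocalMin g 0 := isLocalMin_of_deriv_deriv_pos (by rw [e2]; exact not_le.1 h)
    hm.deriv_eq_zero h1.self_of_nhds.continuousAt
  have e3 : g =ᶠ[𝓝 0] fun _ => g 0 := by
    filter_upwards [hm, hmin] with t a1 a2 using le_antisymm a1 a2
  rw [e3.deriv.deriv_eq] at e2
  simp at e2
  exact h e2.ge

theorem max' : MAX := fun n φ x hφ hm => by
  refine ⟨by simp [gradient, hm.fderiv_eq_zero], ?_⟩
  have d1 : ∀ᶠ y in 𝓝 x, DifferentiableAt ℝ φ y :=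
    (hφ.eventually (by simp)).mono fun y hy => hy.differentiableAt (by simp)
  have d2 : DifferentiableAt ℝ (gradient φ) x :=
    (InnerProductSpace.toDual ℝ (E n)).symm.toContinuousLinearEquiv.differentiableAt.comp x
      ((hφ.fderiv_right (m := 1) (by norm_num)).differentiableAt (by simp))
  show ∑ i, fderiv ℝ (gradient φ) x (EuclideanSpace.single i 1) i ≤ 0
  refine Finset.sum_nonpos fun i _ => ?_
  set v : E n := EuclideanSpace.single i 1 with hv
  have hl : ∀ t : ℝ, HasDerivAt (fun t : ℝ => x + t • v) v t := fun t => by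
    simpa using ((hasDerivAt_id t).smul_const v).const_add x
  have ht : Tendsto (fun t : ℝ => x + t • v) (𝓝 0) (𝓝 x) := by
    simpa using (hl 0).continuousAt.tendsto
  have key := second_le (g := fun t => φ (x + t • v)) (g' := fun t => ⟪gradient φ (x + t • v), v⟫)
    (a := ⟪fderiv ℝ (gradient φ) x v, v⟫) ?_ ?_ ?_
  · simpa [hv, EuclideanSpace.inner_single_right] using key
  · filter_upwards [ht.eventually d1] with t h
    rw [inner_grad]
    exact h.hasFDerivAt.comp_hasDerivAt t (hl t)
  · have a : HasFDerivAt (gradient φ) (fderiv ℝ (gradient φ) x) (x + (0 : ℝ) • v) := by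
      simpa using d2.hasFDerivAt
    simpa using (a.comp_hasDerivAt (0 : ℝ) (hl 0)).inner ℝ (hasDerivAt_const (0 : ℝ) v)
  · have a : IsLocalMax φ (x + (0 : ℝ) • v) := by simpa using hm
    exact a.comp_continuous (g := fun t : ℝ => x + t • v) (hl 0).continuousAt

end Vale.Agent.P134B
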