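import Vale.Agent.P134B.Spec2
import Vale.Agent.P134T.Calc

/-!
# P134B, row MP1: the barriers for the deficit
-/

open MeasureTheory Metric Filter Topology Set
open scoped ContDiff RealInnerProductSpace
open Vale.Agent.P366.Stmt (E)
open Vale.Agent.P366W (Fr adj dvg trc)
open Vale.Agent.P134T

noncomputable section

namespace Vale.Agent.P134B

namespace Mp1A

variable {n : ℕ}

theorem cd_term (l : ℝ) (x₀ : E n) (i : Fin n) :
    ContDiff ℝ 2 fun x : E n => Real.cosh (l * (x i - x₀ i)) :=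
  Real.contDiff_cosh.comp (contDiff_const.mul
    ((EuclideanSpace.proj i : E n →L[ℝ] ℝ).contDiff.sub contDiff_const))

theorem cd_ch (l : ℝ) (x₀ : E n) : ContDiff ℝ 2 (ch l x₀) :=
  ContDiff.sum fun i _ => cd_term l x₀ i

theorem lap_term (l : ℝ) (x₀ x : E n) (i : Fin n) :
    lap (fun x : E n => Real.cosh (l * (x i - x₀ i))) x = l ^ 2 * Real.cosh (l * (x i - x₀ i)) := by
  have e : ∀ y : E n, y i - x₀ i = ⟪y - x₀, EuclideanSpace.single i (1 : ℝ)⟫ := fun y => by
    simp [EuclideanSpace.inner_single_right]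
  simp only [e]
  rw [lap_comp (φ := fun s => Real.cosh (l * s)) (φ₁ := fun s => Real.sinh (l * s) * (l * 1))
    (cd_lin x₀ _) (fun y => ((hasDerivAt_id _).const_mul l).cosh)
    (((hasDerivAt_id _).const_mul l).sinh.mul_const _), lap_lin, grad_lin]
  simp only [id, PiLp.norm_single, norm_one]
  ring

theorem lap_sum {ι : Type} (s : Finset ι) {f : ι → E n → ℝ} (hf : ∀ i, ContDiff ℝ 2 (f i))
    (x : E n) : lap (fun y => ∑ i ∈ s, f i y) x = ∑ i ∈ s, lap (f i) x := by
  classical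
  induction s using Finset.induction_on with
  | empty => simpa using lap_const 0 x
  | insert a s ha ih =>
    simp only [Finset.sum_insert ha]
    rw [lap_add (hf a) (ContDiff.sum fun i _ => hf i), ih]

theorem lap_ch (l : ℝ) (x₀ x : E n) : lap (ch l x₀) x = l ^ 2 * ch l x₀ x := by
  unfold ch
  rw [lap_sum _ (cd_term l x₀), Finset.mul_sum]
  exact Finset.sum_congr rfl fun i _ => lap_term l x₀ x i

theorem le_ch (l : ℝ) (x₀ x : E n) : (n : ℝ) ≤ ch l x₀ x := by
  simpa [ch] using Finset.card_nsmul_le_sum Finset.univ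
    (fun i => Real.cosh (l * (x i - x₀ i))) 1 fun i _ => Real.one_le_cosh _

theorem exp_le_ch (x₀ x : E n) :
    Real.exp (‖x - x₀‖ / (2 * (n + 1))) / 2 - 1 ≤ ch (1 / 2) x₀ x := by
  rcases isEmpty_or_nonempty (Fin n) with h | h
  · have := le_ch (1 / 2) x₀ x
    have h0 : (0 : ℝ) ≤ n := n.cast_nonneg
    rw [Subsingleton.elim (x - x₀) 0, norm_zero, zero_div, Real.exp_zero]
    linarith
  obtain ⟨i, -, hi⟩ := Finset.exists_max_image Finset.univ (fun i => |x i - x₀ i|)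
    Finset.univ_nonempty
  have h0 : (0 : ℝ) ≤ n := n.cast_nonneg
  have h1 : ‖x - x₀‖ ≤ (n + 1) * |x i - x₀ i| := by
    refine le_of_sq_le_sq ?_ (by positivity)
    rw [EuclideanSpace.real_norm_sq_eq]
    have h2 := Finset.sum_le_card_nsmul Finset.univ (fun j => (x - x₀) j ^ 2)
      (|x i - x₀ i| ^ 2) fun j _ => by
        rw [← sq_abs]
        exact pow_le_pow_left₀ (abs_nonneg _) (hi j (Finset.mem_univ j)) 2
    rw [Finset.card_univ, Fintype.card_fin, nsmul_eq_mul] at h2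
    refine h2.trans ?_
    rw [mul_pow]
    exact mul_le_mul_of_nonneg_right (by nlinarith) (sq_nonneg _)
  have h3 : Real.exp (‖x - x₀‖ / (2 * (n + 1))) ≤ Real.exp (1 / 2 * |x i - x₀ i|) := by
    rw [Real.exp_le_exp, div_le_iff₀ (by positivity)]
    linarith
  have h4 : Real.cosh (1 / 2 * (x i - x₀ i)) ≤ ch (1 / 2) x₀ x :=
    Finset.single_le_sum (f := fun i => Real.cosh (1 / 2 * (x i - x₀ i)))
      (fun j _ => (Real.cosh_pos _).le) (Finset.mem_univ i)
  rw [← Real.cosh_abs, abs_mul, abs_of_pos (show (0 : ℝ) < 1 / 2 by norm_num), Real.cosh_eq] at h4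
  linarith [Real.exp_pos (-(1 / 2 * |x i - x₀ i|))]

theorem hs_le (A : E n →L[ℝ] E n) : hs A ≤ n * ‖A‖ ^ 2 := by
  simpa [hs] using Finset.sum_le_card_nsmul Finset.univ
    (fun i => ‖A (EuclideanSpace.single i 1)‖ ^ 2) (‖A‖ ^ 2) fun i _ =>
      pow_le_pow_left₀ (norm_nonneg _) (by simpa using A.le_opNorm (EuclideanSpace.single i 1)) 2

end Mp1A

open Mp1A in
theorem mp1 : MP1 := by
  intro n C u x₀ h
  have cf := c2 h.tcf
  have s2 : √2 * √2 = 2 := Real.mul_self_sqrt (by norm_num)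
  refine ⟨cf.mul (cd_ch _ _), cf.inv fun y => (h.tff_pos y).ne',
    (cf.pow 2).mul (contDiff_const.sub ((h.tcp.of_le (by norm_cast)).norm_sq ℝ)), by simp [ch],
    fun x => ⟨le_ch _ _ _, exp_le_ch _ _, ?_, fun hq => ?_⟩⟩
  · rw [La, h.lE]
    have := mul_le_mul_of_nonneg_left (hs_le (SS u x)) (sq_nonneg (ff u x))
    have := mul_nonneg (sq_nonneg (ff u x)) (sq_nonneg (trc (SS u x)))
    linarith
  have f0 := h.tff_pos x
  have k3 : √2 * ff u x = 1 - u x ^ 2 := by unfold ff; field_simp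
  have kp : ‖pp u x‖ ^ 2 = 1 - qq u x := by unfold qq; ring
  have lf : lap (ff u) x = ff u x * (3 * u x ^ 2 - 1 + (1 - u x ^ 2) * qq u x) := by
    rw [h.tlf, EE, ← k3]; ring
  have q0 := h.q0 x
  have u0 := sq_nonneg (u x)
  constructor
  · have c0 : 0 ≤ ch (1 / 2) x₀ x := n.cast_nonneg.trans (le_ch _ _ _)
    have e : La u (fun y => ff u y * ch (1 / 2) x₀ y) x = ff u x * ch (1 / 2) x₀ x *
        (1 / 4 - 1 - u x ^ 2 + qq u x * (1 + 3 * u x ^ 2)) := by
      rw [La, lap_mul cf (cd_ch _ _), grad_mul (d2 cf x) (d2 (cd_ch _ _) x), lap_ch, lf, h.gf]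
      simp only [inner_add_right, inner_smul_left, inner_smul_right, conj_trivial,
        real_inner_self_eq_norm_sq, kp]
      linear_combination (-2 * u x ^ 2 * ff u x * ch (1 / 2) x₀ x * (1 - qq u x)) * s2
    rw [e]
    have h1 : 1 / 4 - 1 - u x ^ 2 + qq u x * (1 + 3 * u x ^ 2) ≤ -(1 / 4) := by nlinarith
    have h2 := mul_le_mul_of_nonneg_left h1 (mul_nonneg f0.le c0)
    linarith
  · have d1 : ∀ y, HasDerivAt (fun s : ℝ => s⁻¹) (-(ff u y ^ 2)⁻¹) (ff u y) := fun y =>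
      hasDerivAt_inv (h.tff_pos y).ne'
    have d3 : HasDerivAt (fun s : ℝ => -(s ^ 2)⁻¹) (2 / ff u x ^ 3) (ff u x) :=
      ((hasDerivAt_pow 2 (ff u x)).inv (pow_pos f0 2).ne').neg.congr_deriv (by
        field_simp
        simp [mul_comm])
    have e : La u (fun y => (ff u y)⁻¹) x = (ff u x)⁻¹ *
        (1 - qq u x + u x ^ 2 * (5 - 7 * qq u x)) := by
      rw [La, lap_comp (φ := fun s : ℝ => s⁻¹) (φ₁ := fun s : ℝ => -(s ^ 2)⁻¹) cf d1 d3,
        grad_comp (φ := fun s : ℝ => s⁻¹) (d1 x) (d2 cf x), lf, h.gf, norm_smul, mul_pow,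
        Real.norm_eq_abs, sq_abs]
      simp only [inner_smul_right, real_inner_self_eq_norm_sq, kp]
      field_simp
      linear_combination (4 * u x ^ 2 * (1 - qq u x)) * s2
    rw [e]
    have h1 : 1 / 2 ≤ 1 - qq u x + u x ^ 2 * (5 - 7 * qq u x) := by nlinarith
    have h2 := mul_le_mul_of_nonneg_left h1 (inv_pos.2 f0).le
    linarith

end Vale.Agent.P134B
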