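import Vale.Agent.P134B.Spec2

/-!
# P134B: the Hessian below the ridges (row MP2)

We follow the flow line of the gradient of `ps u` down to the zero set.
-/

open MeasureTheory Metric Filter Topology Set
open scoped ContDiff RealInnerProductSpace
open Vale.Agent.P366.Stmt (E)

noncomputable section

namespace Vale.Agent.P134B

namespace MP2a

variable {n : ℕ} {C : ℝ} {u : E n → ℝ}

theorem f_mono (h : Ok C u) {x y : E n} (k : |ps u y| ≤ |ps u x|) : ff u x ≤ ff u y := by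
  have e : ∀ t, 1 - Real.tanh t ^ 2 = (Real.cosh t ^ 2)⁻¹ := fun t => by
    have := Real.cosh_pos t
    rw [Real.tanh_eq_sinh_div_cosh]
    field_simp
    exact Real.cosh_sq_sub_sinh_sq t
  rw [ff, ff, h.th x, h.th y, e, e]
  refine div_le_div_of_nonneg_right (inv_anti₀ (pow_pos (Real.cosh_pos _) 2)
    (pow_le_pow_left₀ (Real.cosh_pos _).le (Real.cosh_le_cosh.2 ?_) 2)) (by positivity)
  rw [abs_div, abs_div]
  exact div_le_div_of_nonneg_right k (abs_nonneg _)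

theorem sm_p (h : Ok C u) : ContDiff ℝ 2 (pp u) :=
  (InnerProductSpace.toDual ℝ (E n)).symm.contDiff.comp
    (h.smp.fderiv_right (WithTop.coe_le_coe.2 le_top))

theorem p_le (h : Ok C u) (x : E n) : ‖pp u x‖ ≤ 1 :=
  (pow_le_one_iff_of_nonneg (norm_nonneg _) two_ne_zero).1 (sub_nonneg.1 (h.q0 x))

/-- the flow line -/
theorem flow (h : Ok C u) {σ T : ℝ} (hσ : |σ| = 1) (hT : 0 ≤ T) (x : E n) :
    ∃ γ : ℝ → E n, γ 0 = x ∧ ContinuousOn γ (Icc 0 T) ∧
      ∀ t ∈ Ico 0 T, HasDerivWithinAt γ (σ • pp u (γ t)) (Ici t) t := by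
  have C0 : 0 ≤ C := zero_le_one.trans h.C1
  have l : LipschitzWith ⟨C, C0⟩ fun y => σ • pp u y := by
    have d := (sm_p h).differentiable two_ne_zero
    refine lipschitzWith_of_nnnorm_fderiv_le (𝕜 := ℝ) (d.const_smul σ) fun y => ?_
    change ‖_‖ ≤ C
    rw [fderiv_fun_const_smul (d y), norm_smul, Real.norm_eq_abs, hσ, one_mul]
    refine (h.S0 y).trans (mul_le_of_le_one_right C0 (Real.sqrt_le_one.2 ?_))
    exact sub_le_self _ (sq_nonneg _)
  obtain ⟨γ, g0, g1⟩ := IsPicardLindelof.exists_eq_forall_mem_Icc_hasDerivWithinAt₀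
    (f := fun _ y => σ • pp u y) (tmin := 0) (tmax := T) (t₀ := ⟨0, le_rfl, hT⟩) (x₀ := x)
    (a := ⟨T, hT⟩) (L := 1) (K := ⟨C, C0⟩)
    ⟨fun _ _ => l.lipschitzOnWith, fun _ _ => continuousOn_const, fun _ _ y _ => by
      rw [norm_smul, Real.norm_eq_abs, hσ, one_mul]
      exact p_le h y, by
      change 1 * max (T - 0) (0 - 0) ≤ T - 0
      simp [hT]⟩
  exact ⟨γ, g0, fun t ht => (g1 t ht).continuousWithinAt, fun t ht =>
    (g1 t (Ico_subset_Icc_self ht)).mono_of_mem_nhdsWithin (Icc_mem_nhdsGE_of_mem ht)⟩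

theorem q_le {q f ε a : ℝ} (q0 : 0 ≤ q) (f0 : 0 < f) (e0 : 0 < ε) (a0 : 0 < a) (h1 : q ≤ a ^ 4)
    (h2 : f ^ 2 * q ≤ ε ^ 2) : q ≤ a * √(ε / f) ^ 3 := by
  have h3 : q ≤ √(ε / f) ^ 4 := by
    rw [show 4 = 2 * 2 from rfl, pow_mul, Real.sq_sqrt (by positivity), div_pow,
      le_div_iff₀ (by positivity)]
    linarith
  refine (pow_le_pow_iff_left₀ q0 (by positivity) four_ne_zero).1 ?_
  calc q ^ 4 = q * q ^ 3 := by ring
    _ ≤ a ^ 4 * (√(ε / f) ^ 4) ^ 3 := by gcongr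
    _ = _ := by ring

theorem w_le (h : Ok C u) {x y : E n} {ε s : ℝ} (e0 : 0 < ε) (s0 : 0 ≤ s)
    (k : |ps u y| ≤ |ps u x| - s / 2) :
    √(ε / ff u y) ^ 3 ≤ 8 * √(ε / ff u x) ^ 3 * Real.exp (-s) := by
  have r2 : 0 < √2 := by positivity
  have fx : 0 < ff u x := lt_of_lt_of_le (by positivity) (h.flo x)
  have fy : 0 < ff u y := lt_of_lt_of_le (by positivity) (h.flo y)
  have r3 : 4 / 3 ≤ √2 := Real.le_sqrt_of_sq_le (by norm_num)
  have h1 : ff u x ≤ 4 * ff u y * Real.exp (-(s / 3)) ^ 2 := by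
    have a1 := (div_le_iff₀ r2).1 (h.flo y)
    have a2 : Real.exp (-(√2 * |ps u x|)) ≤
        Real.exp (-(√2 * |ps u y|)) * Real.exp (-(s / 3)) ^ 2 := by
      rw [sq, ← Real.exp_add, ← Real.exp_add]
      exact Real.exp_le_exp.2 (by nlinarith)
    calc ff u x ≤ 2 * √2 * (ff u y * √2 * Real.exp (-(s / 3)) ^ 2) :=
          (h.fhi x).trans (mul_le_mul_of_nonneg_left (a2.trans (by gcongr)) (by positivity))
      _ = 2 * (√2 * √2) * ff u y * Real.exp (-(s / 3)) ^ 2 := by ring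
      _ = _ := by rw [Real.mul_self_sqrt two_pos.le]; ring
  have h2 : √(ε / ff u y) ≤ 2 * √(ε / ff u x) * Real.exp (-(s / 3)) := by
    refine Real.sqrt_le_iff.2 ⟨by positivity, ?_⟩
    rw [mul_pow, mul_pow, Real.sq_sqrt (by positivity), div_le_iff₀ fy]
    calc ε = ε / ff u x * ff u x := by field_simp
      _ ≤ ε / ff u x * (4 * ff u y * Real.exp (-(s / 3)) ^ 2) := by gcongr
      _ = _ := by ring
  refine (pow_le_pow_left₀ (Real.sqrt_nonneg _) h2 3).trans (le_of_eq ?_)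
  rw [mul_pow, mul_pow, ← Real.exp_nat_mul]
  congr 2
  · norm_num
  · push_cast; ring

theorem ps_lt (h : Ok C u) {x : E n} {κ ε : ℝ} (e0 : 0 < ε) (e1 : ε ≤ κ / 8)
    (k : κ * ε ^ 2 < ff u x ^ 2) : 2 * |ps u x| < 3 * lg ε := by
  by_contra l
  have fx : 0 < ff u x := lt_of_lt_of_le (by positivity) (h.flo x)
  have r3 : 1 ≤ √2 := Real.le_sqrt_of_sq_le (by norm_num)
  have a1 : Real.exp (-(√2 * |ps u x|)) ^ 2 ≤ ε ^ 3 := by
    rw [← Real.exp_log e0, ← Real.exp_nat_mul, ← Real.exp_nat_mul]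
    refine Real.exp_le_exp.2 ?_
    rw [lg] at l
    push_cast
    nlinarith [abs_nonneg (ps u x)]
  have a2 := pow_le_pow_left₀ fx.le (h.fhi x) 2
  rw [mul_pow, mul_pow, Real.sq_sqrt two_pos.le] at a2
  nlinarith [mul_le_mul_of_nonneg_right e1 (sq_nonneg ε)]

end MP2a

open MP2a in
/-- Row MP2. -/
theorem mp2 : MP2 := by
  intro n C κ hκ
  refine ⟨8 * |C|, by positivity, 1 / 2, one_half_pos, κ / 8, by positivity,
    fun u ε a l x h e0 e1 a0 a1 gd fl hq hx => ?_⟩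
  have C0 : 0 ≤ C := zero_le_one.trans h.C1
  rw [abs_of_nonneg C0]
  obtain ⟨σ, s1, s2⟩ : ∃ σ : ℝ, |σ| = 1 ∧ σ * ps u x = |ps u x| := by
    rcases le_total 0 (ps u x) with k | k
    · exact ⟨1, abs_one, by rw [one_mul, abs_of_nonneg k]⟩
    · exact ⟨-1, by simp, by rw [neg_one_mul, abs_of_nonpos k]⟩
  have s3 : σ * σ = 1 := by rw [← abs_mul_abs_self, s1, one_mul]
  obtain ⟨T, hT⟩ : ∃ T, T = 2 * |ps u x| := ⟨_, rfl⟩
  have T0 : 0 ≤ T := by rw [hT]; positivity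
  have T1 : T < 3 * lg ε := hT ▸ ps_lt h e0 e1 hx
  obtain ⟨γ, g0, g1, g2⟩ := flow h (σ := -σ) (by rw [abs_neg, s1]) T0 x
  have b : ∀ s ∈ Icc 0 T, γ s ∈ ball x (3 * lg ε) := fun s hs => by
    have := norm_image_sub_le_of_norm_deriv_right_le_segment (C := 1) g1 g2 (fun t _ => by
      rw [norm_smul, Real.norm_eq_abs, abs_neg, s1, one_mul]
      exact p_le h _) s hs
    rw [g0] at this
    exact mem_ball_iff_norm.2 (by linarith [hs.2])
  have dψ := h.smp.differentiable (by simp)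
  have c1 : ContinuousOn (fun s => σ * ps u (γ s)) (Icc 0 T) :=
    continuousOn_const.mul (dψ.continuous.comp_continuousOn g1)
  have d1 : ∀ t ∈ Ico 0 T, HasDerivWithinAt (fun s => σ * ps u (γ s)) (qq u (γ t) - 1) (Ici t) t :=
    fun t ht => by
      refine (((dψ (γ t)).hasFDerivAt.comp_hasDerivWithinAt t (g2 t ht)).const_mul σ).congr_deriv ?_
      rw [map_smul, ← inner_gradient_left, smul_eq_mul, ← pp, real_inner_self_eq_norm_sq, qq]
      linear_combination -‖pp u (γ t)‖ ^ 2 * s3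
  have mono : ∀ s ∈ Icc 0 T, ∀ t ∈ Icc s T, σ * ps u (γ t) ≤ σ * ps u (γ s) := fun s hs t ht =>
    image_le_of_deriv_right_le_deriv_boundary (B := fun _ => σ * ps u (γ s)) (B' := fun _ => 0)
      (c1.mono (Icc_subset_Icc_left hs.1)) (fun t ht => d1 t ⟨hs.1.trans ht.1, ht.2⟩) le_rfl
      continuousOn_const (fun _ _ => hasDerivWithinAt_const _ _ _)
      (fun t _ => by rw [qq]; nlinarith [sq_nonneg ‖pp u (γ t)‖]) ht
  have ab : ∀ s, 0 ≤ σ * ps u (γ s) → |ps u (γ s)| = σ * ps u (γ s) := fun s k => by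
    rw [← abs_of_nonneg k, abs_mul, s1, one_mul]
  have q4 : ∀ s ∈ Icc 0 T, 0 ≤ σ * ps u (γ s) → qq u (γ s) ≤ a ^ 4 := fun s hs k => by
    have := mono 0 ⟨le_rfl, T0⟩ s hs
    rw [g0, s2, ← ab s k] at this
    exact hq _ (b s hs) (hx.trans_le (pow_le_pow_left₀
      (le_trans (by positivity) (h.flo x)) (f_mono h this) 2))
  have fast : ∀ t ∈ Icc 0 T, 0 ≤ σ * ps u (γ t) → ∀ s ∈ Icc 0 t,
      σ * ps u (γ s) ≤ |ps u x| - s / 2 := fun t ht k s hs =>
    image_le_of_deriv_right_le_deriv_boundary (B := fun s => |ps u x| - s / 2)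
      (B' := fun _ => -(1 / 2)) (c1.mono (Icc_subset_Icc_right ht.2))
      (fun r hr => d1 r ⟨hr.1, hr.2.trans_le ht.2⟩) (by simp [g0, s2]) (by fun_prop)
      (fun r _ => (((hasDerivAt_id r).div_const 2).const_sub _).hasDerivWithinAt)
      (fun r hr => by
        have r1 : r ∈ Icc 0 T := ⟨hr.1, hr.2.le.trans ht.2⟩
        have := q4 r r1 (k.trans (mono r r1 t ⟨hr.2.le, ht.2⟩))
        have a2 : a ^ 4 ≤ (1 / 2) ^ 4 := by gcongr
        linarith) hs
  obtain ⟨t, ht, t0⟩ : ∃ t ∈ Icc 0 T, σ * ps u (γ t) = 0 := by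
    refine intermediate_value_Icc' T0 c1 ⟨not_lt.1 fun k => ?_, by simp [g0, s2]⟩
    have := fast T ⟨T0, le_rfl⟩ k.le T ⟨T0, le_rfl⟩
    linarith
  have dS : Differentiable ℝ (SS u) :=
    ((sm_p h).fderiv_right (m := 1) (by norm_num)).differentiable one_ne_zero
  have est := image_norm_le_of_norm_deriv_right_le_deriv_boundary (a := 0) (b := t)
    (f := fun s => SS u (γ s) - SS u x)
    (f' := fun s => fderiv ℝ (SS u) (γ s) ((-σ) • pp u (γ s)))
    (B := fun s => 8 * C * a * √(ε / ff u x) ^ 3 * (1 - Real.exp (-s)))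
    (B' := fun s => 8 * C * a * √(ε / ff u x) ^ 3 * Real.exp (-s))
    ((dS.continuous.comp_continuousOn (g1.mono (Icc_subset_Icc_right ht.2))).sub continuousOn_const)
    (fun s hs => ((dS (γ s)).hasFDerivAt.comp_hasDerivWithinAt s
      (g2 s ⟨hs.1, hs.2.trans_le ht.2⟩)).sub_const _) (by simp [g0])
    (fun s => (((hasDerivAt_neg s).exp.const_sub 1).const_mul
      (8 * C * a * √(ε / ff u x) ^ 3)).congr_deriv (by ring))
    (fun s hs => by
      have r1 : s ∈ Icc 0 T := ⟨hs.1, hs.2.le.trans ht.2⟩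
      have k := t0.ge.trans (mono s r1 t ⟨hs.2.le, ht.2⟩)
      have k1 := q_le (h.q0 _) (lt_of_lt_of_le (by positivity) (h.flo _)) e0 a0 (q4 s r1 k)
        (gd _ (b s r1))
      have k2 := w_le h e0 hs.1 ((ab s k).trans_le (fast t ht t0.ge s (Ico_subset_Icc_self hs)))
      rw [map_smul, norm_smul, Real.norm_eq_abs, abs_neg, s1, one_mul]
      calc _ ≤ C * (a * (8 * √(ε / ff u x) ^ 3 * Real.exp (-s))) :=
            (h.S2 _).trans (by gcongr; exact k1.trans (by gcongr))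
        _ = _ := by ring) ⟨ht.1, le_rfl⟩
  have z : u (γ t) = 0 := by
    rw [h.th, (mul_eq_zero.1 t0).resolve_left fun k => by simp [k] at s1]
    simp
  have e2 := fl _ (b t ht) z
  have e3 := norm_sub_norm_le (SS u x) (SS u (γ t))
  rw [norm_sub_rev] at e3
  have e4 : 0 ≤ 8 * C * a * √(ε / ff u x) ^ 3 * Real.exp (-t) := by positivity
  linarith

end Vale.Agent.P134B
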