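import Vale.Agent.P134B.Spec2
import Vale.Agent.P134B.LAY
import Vale.Agent.P134T.Calc

/-!
# P134B: there is a high ridge
-/

open MeasureTheory Metric Filter Topology Set
open scoped ContDiff RealInnerProductSpace
open Vale.Agent.P366.Stmt (E)
open Vale.Agent.P134T

noncomputable section

namespace Vale.Agent.P134B

variable {n : ℕ}

theorem La_lin {u φ ψ χ : E n → ℝ} (h1 : ContDiff ℝ 2 φ) (h2 : ContDiff ℝ 2 ψ)
    (h3 : ContDiff ℝ 2 χ) (a b c : ℝ) (x : E n) :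
    La u (fun y => φ y - a * ψ y + b * χ y - c) x = La u φ x - a * La u ψ x + b * La u χ x := by
  have k2 := (contDiff_const (c := a)).mul h2
  have k3 := (contDiff_const (c := b)).mul h3
  rw [La, lap_sub ((h1.sub k2).add k3) contDiff_const, lap_add (h1.sub k2) k3, lap_sub h1 k2,
    lap_cmul a h2, lap_cmul b h3, lap_const,
    grad_sub (d2 ((h1.sub k2).add k3) x) (differentiableAt_const c),
    grad_add (d2 (h1.sub k2) x) (d2 k3 x), grad_sub (d2 h1 x) (d2 k2 x), grad_cmul a (d2 h2 x),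
    grad_cmul b (d2 h3 x), grad_const]
  simp only [La, sub_zero, inner_add_right, inner_sub_right, inner_smul_right]
  ring

theorem mpe : rMPE := by
  intro _ mp1 mp2 m C
  obtain ⟨K, K0, a₀, a0, ε₁, e1, H⟩ := mp2 (m + 1) C (1 / 16) (by norm_num)
  obtain ⟨N, hN⟩ : ∃ N : ℝ, N = (m + 1 : ℕ) := ⟨_, rfl⟩
  have N1 : 1 ≤ N := by rw [hN]; exact_mod_cast Nat.le_add_left 1 m
  obtain ⟨ε₂, e2, G⟩ := exists_lg (2 * (8 * (N + 1) + 3))
  obtain ⟨a, ha, a1, a2, a3⟩ : ∃ a > (0 : ℝ), a ≤ a₀ ∧ a ≤ 1 / 2 ∧ 32 * N * (K + 1) * a ≤ 1 :=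
    ⟨min (min a₀ (1 / 2)) (32 * N * (K + 1))⁻¹, by positivity,
      (min_le_left _ _).trans (min_le_left _ _), (min_le_left _ _).trans (min_le_right _ _),
      (le_div_iff₀' (by positivity)).1 ((min_le_right _ _).trans_eq (one_div _).symm)⟩
  refine ⟨1 / 16, by norm_num, a ^ 4, by positivity, 1 / (16 * N), by positivity,
    min (min ε₁ ε₂) (1 / (8 * N)), by positivity, fun u ε x₀ hu ε0 hε gd fl hE => ?_⟩
  simp only [le_min_iff] at hε
  obtain ⟨⟨hε1, hε2⟩, hε3⟩ := hε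
  have e3 : 8 * N * ε ≤ 1 := by rwa [le_div_iff₀' (by positivity)] at hε3
  have e4 : ε ≤ 1 / 8 := by nlinarith
  obtain ⟨η, hη⟩ : ∃ η, η = 1 / (16 * N) := ⟨_, rfl⟩
  have η1 : 16 * N * η = 1 := by rw [hη]; field_simp
  have η0 : 0 < η := by rw [hη]; positivity
  rw [← hη] at fl
  by_contra hn
  push Not at hn
  obtain ⟨c1, c2, c3, c4, c5⟩ := mp1 (m + 1) C u x₀ hu
  simp only [← hN] at c4 c5
  have l0 : 0 ≤ lg ε := neg_nonneg.2 (Real.log_nonpos ε0.le (by linarith))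
  have l1 : (8 * (N + 1) + 3) * lg ε < 1 / (2 * ε) := by
    rw [one_div, mul_inv, ← one_div ε]
    linarith [G ε ε0 hε2]
  have l2 : 1 / (2 * ε) ≤ 1 / ε := one_div_le_one_div_of_le ε0 (by linarith)
  have fp := fun x => hu.tff_pos x
  have Ef : ∀ x, EE u x ≤ ff u x ^ 2 := fun x => mul_le_of_le_one_right (sq_nonneg _) (qq_le u x)
  have f4 : ∀ x, ε / 4 ≤ ff u x → (ff u x)⁻¹ ≤ 4 / ε := fun x h => by
    rw [← inv_div]
    exact inv_anti₀ (by positivity) h
  have hq : ∀ y, ‖y - x₀‖ < 1 / (2 * ε) → 1 / 16 * ε ^ 2 < ff u y ^ 2 → qq u y ≤ a ^ 4 :=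
    fun y hy h => not_lt.1 fun k => (hn y (mem_ball_iff_norm.2 hy) k.le).not_ge h.le
  obtain ⟨a₁, ha₁⟩ : ∃ a₁, a₁ = 16 * η ^ 2 * ε ^ 2 + 16 * ε ^ 5 := ⟨_, rfl⟩
  obtain ⟨b, hb⟩ : ∃ b, b = 8 * N * K ^ 2 * a ^ 2 * ε ^ 3 := ⟨_, rfl⟩
  have p1 : 0 < a₁ := by rw [ha₁]; positivity
  have p2 : 0 ≤ b := by rw [hb]; positivity
  have cf := hu.tcf.continuous
  have key := mp (K := closedBall x₀ (8 * (N + 1) * lg ε) ∩ {y | ε / 4 ≤ ff u y})
    (f := fun y => EE u y - a₁ * (ff u y * ch (1 / 2) x₀ y) + b * (ff u y)⁻¹ -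
      (ε ^ 2 / 16 + b * (4 / ε)))
    ((isCompact_closedBall _ _).inter_right (isClosed_le continuous_const cf))
    (((c3.sub (contDiff_const.mul c1)).add (contDiff_const.mul c2)).sub contDiff_const) (by
      rintro y ⟨y1, y2⟩ hy
      rw [mem_closedBall_iff_norm] at y1
      replace y2 : ε / 4 ≤ ff u y := y2
      obtain ⟨d1, d2, d3, d4⟩ := c5 y
      have f0 := fp y
      have t1 := mul_le_mul_of_nonneg_left (f4 y y2) p2
      have t2 : 0 < a₁ * (ff u y * ch (1 / 2) x₀ y) := mul_pos p1 (mul_pos f0 (by linarith))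
      have y3 : 1 / 16 * ε ^ 2 < ff u y ^ 2 := by linarith [Ef y]
      have y4 : ε / 4 < ff u y := lt_of_pow_lt_pow_left₀ 2 f0.le (by linarith)
      have y5 : ‖y - x₀‖ < 8 * (N + 1) * lg ε := by
        refine y1.lt_of_ne fun k => ?_
        rw [k, show 8 * (N + 1) * lg ε / (2 * (N + 1)) = (4 : ℕ) * Real.log ε⁻¹ by
          rw [lg, Real.log_inv]; field_simp; push_cast; ring, Real.exp_nat_mul,
          Real.exp_log (by positivity)] at d2
        have s1 : 1 / 4 ≤ ε ^ 4 * ch (1 / 2) x₀ y := by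
          have := mul_le_mul_of_nonneg_left d2 (pow_pos ε0 4).le
          rw [mul_sub, ← mul_div_assoc, ← mul_pow, mul_inv_cancel₀ ε0.ne'] at this
          have := pow_le_pow_left₀ ε0.le e4 4
          linarith
        have s2 : 16 * ε ^ 5 * (ε / 4 * ch (1 / 2) x₀ y) ≤ a₁ * (ff u y * ch (1 / 2) x₀ y) := by
          have : 0 ≤ ch (1 / 2) x₀ y := by linarith
          gcongr
          rw [ha₁]
          exact le_add_of_nonneg_left (by positivity)
        have s3 := gd y (mem_ball_iff_norm.2 (by linarith only [y1, l0, l1, l2]))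
        linarith only [mul_le_mul_of_nonneg_left s1 (sq_nonneg ε), s2, s3, t1, hy, sq_nonneg ε]
      refine ⟨inter_mem (closedBall_mem_nhds_of_mem (mem_ball_iff_norm.2 y5))
        ((cf.continuousAt.eventually (lt_mem_nhds y4)).mono fun z hz => hz.le), fun g0 => ?_⟩
      have hb3 : ∀ z ∈ ball y (3 * lg ε), ‖z - x₀‖ < 1 / (2 * ε) := fun z hz => by
        linarith [norm_sub_le_norm_sub_add_norm_sub z y x₀, mem_ball_iff_norm.1 hz]
      have hS := H u ε a (η * ε) y hu ε0 hε1 ha a1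
        (fun z hz => gd z (mem_ball_iff_norm.2 ((hb3 z hz).trans_le l2)))
        (fun z hz => fl z (mem_ball_iff_norm.2 ((hb3 z hz).trans_le l2)))
        (fun z hz => hq z (hb3 z hz)) y3
      obtain ⟨d5, d6⟩ := d4 ((hq y (by linarith only [y1, l0, l1]) y3).trans
        ((pow_le_pow_left₀ ha.le a2 4).trans (by norm_num)))
      have e := La_lin (u := u) c3 c1 c2 a₁ b (ε ^ 2 / 16 + b * (4 / ε)) y
      rw [La, g0, inner_zero_right, mul_zero, add_zero] at e
      rw [e]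
      have s1 : ‖SS u y‖ ^ 2 ≤ 2 * (η * ε) ^ 2 + 2 * (K ^ 2 * a ^ 2 * (ε / ff u y) ^ 3) := by
        have := pow_le_pow_left₀ (norm_nonneg _) hS 2
        have k : (K * a * √(ε / ff u y) ^ 3) ^ 2 = K ^ 2 * a ^ 2 * (ε / ff u y) ^ 3 := by
          rw [mul_pow, mul_pow, ← pow_mul, mul_comm 3 2, pow_mul, Real.sq_sqrt (by positivity)]
        linarith only [sq_nonneg (η * ε - K * a * √(ε / ff u y) ^ 3), this, k]
      have s2 : 2 * N * ff u y ^ 2 * (2 * (K ^ 2 * a ^ 2 * (ε / ff u y) ^ 3)) =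
          b * ((ff u y)⁻¹ / 2) := by
        rw [hb]; field_simp; ring
      have s3 : 2 * N * ff u y ^ 2 * (2 * (η * ε) ^ 2) < a₁ * (ff u y * ch (1 / 2) x₀ y / 4) := by
        have k1 : ff u y ^ 2 ≤ ff u y := by nlinarith only [ff_le u y, f0]
        calc _ ≤ 2 * N * ff u y * (2 * (η * ε) ^ 2) := by gcongr
          _ = 16 * η ^ 2 * ε ^ 2 * (ff u y * N / 4) := by ring
          _ < a₁ * (ff u y * N / 4) := by
            gcongr
            rw [ha₁]
            exact lt_add_of_pos_right _ (by positivity)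
          _ ≤ _ := by gcongr
      have s4 := mul_le_mul_of_nonneg_left s1 (show 0 ≤ 2 * N * ff u y ^ 2 by positivity)
      have s5 := mul_le_mul_of_nonneg_left d5 p1.le
      have s6 := mul_le_mul_of_nonneg_left d6 p2
      linarith only [s2, s3, s4, s5, s6, d3])
  have f0 : ε / 4 ≤ ff u x₀ :=
    le_of_sq_le_sq (by linarith only [Ef x₀, sq_nonneg ε, hE]) (fp x₀).le
  have k := key x₀ ⟨mem_closedBall_self (by positivity), f0⟩
  rw [c4] at k
  have s1 : a₁ * (ff u x₀ * N) ≤ a₁ * N := by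
    gcongr
    exact mul_le_of_le_one_left (by positivity) (ff_le u x₀)
  have s2 : b * (4 / ε) = 32 * N * (K * a) * (K * a) * ε ^ 2 := by rw [hb]; field_simp; ring
  have s3 : 32 * N * (K * a) * (K * a) ≤ 1 / 32 := by
    have k1 : 32 * N * (K * a) ≤ 1 := by linarith only [mul_pos (zero_lt_one.trans_le N1) ha, a3]
    have k2 : K * a ≤ 1 / 32 := by nlinarith only [mul_nonneg K0 ha.le, k1, N1]
    nlinarith only [mul_nonneg K0 ha.le, k1, k2]
  have s4 : a₁ * N = (η + 2 * (8 * N * ε) * ε ^ 2) * ε ^ 2 := by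
    rw [ha₁]
    linear_combination η * ε ^ 2 * η1
  have s5 : η ≤ 1 / 16 := by nlinarith only [η1, η0, N1]
  have s6 : 2 * (8 * N * ε) * ε ^ 2 ≤ 1 / 32 := by
    nlinarith only [pow_le_pow_left₀ ε0.le e4 2, e3, sq_nonneg ε]
  have s7 := mul_nonneg p2 (inv_pos.2 (fp x₀)).le
  have s8 := mul_le_mul_of_nonneg_right (add_le_add s3 (add_le_add s5 s6)) (sq_nonneg ε)
  linarith only [pow_pos ε0 2, s1, s2, s4, s7, s8, k, hE]

end Vale.Agent.P134B
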