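import Vale.Agent.P134B.Spec

/-!
# P134B: sheets do not cross
-/

open MeasureTheory Metric Filter Topology Set
open scoped ContDiff RealInnerProductSpace
open Vale.Agent.P366.Stmt (E)
open Vale.Agent.P366W (inner_grad smooth_gradient)

noncomputable section

namespace Vale.Agent.P134B

theorem nc : NC := fun m C u z e L U g₁ g₂ hu hU c1 c2 h y₀ hy₀ h0 y hy => by
  refine (hU.induction₂' (fun x y => g₁ x < g₂ x → g₁ y < g₂ y) (fun x hx => ?_)
    (fun _ _ _ _ _ _ a b c => b (a c)) hy₀ hy) h0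
  rcases lt_trichotomy (g₁ x) (g₂ x) with h1 | h1 | h1
  · exact ((c1 x hx).eventually_lt (c2 x hx) h1).mono fun y h2 => ⟨fun _ => h2, fun _ => h1⟩
  swap
  · exact ((c2 x hx).eventually_lt (c1 x hx) h1).mono fun y h2 =>
      ⟨fun h3 => absurd h3 h1.not_gt, fun h3 => absurd h3 h2.not_gt⟩
  have c3 : Continuous fun p : E m × ℝ => pe u e (pt z e L p.1 p.2) :=
    ((smooth_gradient hu.smp).continuous.comp (by unfold pt; fun_prop)).inner continuous_const
  obtain ⟨δ, d0, d1⟩ := Metric.eventually_nhds_iff.1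
    (c3.continuousAt.eventually_ne (x := (x, g₁ x)) (h x hx).2.2)
  filter_upwards [self_mem_nhdsWithin, mem_nhdsWithin_of_mem_nhds (ball_mem_nhds x d0),
    (c1 x hx).eventually (ball_mem_nhds _ d0), (c2 x hx).eventually (ball_mem_nhds _ d0)]
    with y y0 y1 y2 y3
  refine ⟨fun h3 => absurd h3 h1.not_lt, fun h3 => ?_⟩
  have dv : ∀ t, HasDerivAt (fun t => ps u (pt z e L y t)) (pe u e (pt z e L y t)) t := fun t => by
    have d : HasDerivAt (fun t => pt z e L y t) e t := by
      simpa [pt] using ((hasDerivAt_id t).smul_const e).const_add (z + L y)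
    rw [pe, pp, inner_grad]
    exact (hu.smp.differentiable (by simp) _).hasFDerivAt.comp_hasDerivAt t d
  obtain ⟨c, a1, a2⟩ := exists_hasDerivAt_eq_zero h3
    (fun t _ => (dv t).continuousAt.continuousWithinAt)
    (by simp [ps, (h y y0).1, (h y y0).2.1]) fun t _ => dv t
  rw [← h1] at y3
  refine absurd a2 (d1 (y := (y, c)) (max_lt y1 ?_))
  rw [Real.dist_eq, abs_lt] at y2 y3 ⊢
  exact ⟨by linarith [a1.1, y2.1], by linarith [a1.2, y3.2]⟩

end Vale.Agent.P134B
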