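import Vale.Agent.P134B.Spec2
import Vale.Agent.P134T.Calc

/-!
# P134B: the nearest zero
-/

open MeasureTheory Metric Filter Topology Set
open scoped ContDiff RealInnerProductSpace
open Vale.Agent.P366.Stmt (E)
open Vale.Agent.P366W (inner_grad)

noncomputable section

namespace Vale.Agent.P134B

theorem near : NEAR := by
  intro n C r u x h r0 hf hx
  obtain ⟨y, hy, y0⟩ : ∃ y ∈ ball x r, u y = 0 := by
    by_contra hn
    push Not at hn
    linarith [h.dec x r r0 hn]
  have cu := h.sm.continuous
  obtain ⟨z, z0, hz⟩ := (isClosed_eq cu continuous_const).exists_infDist_eq_dist ⟨y, y0⟩ x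
  have z1 : u z = 0 := z0
  have hm : ∀ w, u w = 0 → ‖x - z‖ ≤ ‖x - w‖ := fun w hw => by
    rw [← dist_eq_norm, ← dist_eq_norm, ← hz]
    exact infDist_le_dist_of_mem hw
  have t0 : 0 < ‖x - z‖ := norm_pos_iff.2 (sub_ne_zero.2 fun e => by simp [e, z1] at hx)
  set t := ‖x - z‖ with ht
  set e := t⁻¹ • (x - z) with he
  have e1 : ‖e‖ = 1 := by rw [he, norm_smul, norm_inv, norm_norm, inv_mul_cancel₀ t0.ne']
  have e2 : x = z + t • e := by rw [he, smul_inv_smul₀ t0.ne']; abel
  clear_value e t
  have pos : ∀ w ∈ ball x t, 0 < u w := fun w hw => by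
    by_contra hn
    obtain ⟨w', h1, h2⟩ := (convex_ball x t).isPreconnected.intermediate_value hw
      (mem_ball_self t0) cu.continuousOn (⟨not_lt.1 hn, hx.le⟩ : (0 : ℝ) ∈ Icc (u w) (u x))
    have := hm w' h2
    rw [mem_ball, dist_comm, dist_eq_norm] at h1
    linarith
  have dir : ∀ v, 0 < ⟪v, e⟫ → 0 ≤ ⟪pp u z, v⟫ := fun v hv => by
    have d0 : HasDerivAt (fun s : ℝ => z + s • v) v 0 := by
      simpa using ((hasDerivAt_id (0 : ℝ)).smul_const v).const_add z
    have d1 := (h.sm.differentiable (by simp) (z + (0 : ℝ) • v)).hasFDerivAt.comp_hasDerivAt 0 d0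
    rw [← inner_grad, h.gu, zero_smul, add_zero, inner_smul_left] at d1
    have d2 : 0 ≤ ff u z * ⟪pp u z, v⟫ := by
      refine ge_of_tendsto d1.tendsto_slope_zero_right ?_
      have : ∀ᶠ s in 𝓝[>] (0 : ℝ), s * ‖v‖ ^ 2 < 2 * t * ⟪v, e⟫ :=
        nhdsWithin_le_nhds ((continuous_id.mul continuous_const).continuousAt.eventually_lt
          continuousAt_const (by simpa using mul_pos (mul_pos two_pos t0) hv))
      filter_upwards [this, self_mem_nhdsWithin] with s h1 h2
      have s0 : 0 < s := h2
      have := pos (z + s • v) (by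
        rw [mem_ball, dist_eq_norm, e2, add_sub_add_left_eq_sub]
        refine lt_of_pow_lt_pow_left₀ 2 t0.le ?_
        rw [norm_sub_sq_real, norm_smul, norm_smul, e1, inner_smul_left, inner_smul_right]
        simp only [Real.norm_eq_abs, mul_pow, sq_abs, conj_trivial]
        nlinarith)
      simp only [Function.comp, zero_add, zero_smul, add_zero, z1, sub_zero, smul_eq_mul]
      positivity
    exact nonneg_of_mul_nonneg_right d2 (h.tff_pos z) |> fun k => k
  refine ⟨z, e, t, t0, (hm y y0).trans ?_, z1, e1, e2, ?_, fun s hs => pos _ ?_⟩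
  · rw [mem_ball, dist_comm, dist_eq_norm] at hy
    exact hy.le
  · have c : ⟪pp u z, e⟫ ≤ ‖pp u z‖ := by simpa [e1] using real_inner_le_norm (pp u z) e
    have ee : ⟪e, e⟫ = 1 := by rw [real_inner_self_eq_norm_sq, e1, one_pow]
    have k : ‖pp u z‖ ^ 2 ≤ ‖pp u z‖ * ⟪pp u z, e⟫ := by
      refine le_of_forall_pos_le_add fun η hη => ?_
      have := dir (‖pp u z‖ • e - pp u z + η • e) (by
        rw [inner_add_left, inner_sub_left, inner_smul_left, inner_smul_left, ee]
        simp only [conj_trivial]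
        linarith)
      rw [inner_add_right, inner_sub_right, inner_smul_right, inner_smul_right,
        real_inner_self_eq_norm_sq] at this
      nlinarith [h.tpp_le z]
    rw [← sub_eq_zero, ← norm_eq_zero, ← pow_eq_zero_iff two_ne_zero]
    refine le_antisymm ?_ (sq_nonneg _)
    rw [norm_sub_sq_real, norm_smul, e1, inner_smul_right, norm_norm]
    linarith
  · rw [mem_ball, dist_eq_norm, e2, add_sub_add_left_eq_sub, ← sub_smul, norm_smul, e1,
      Real.norm_eq_abs, mul_one, abs_lt]
    constructor <;> linarith [hs.1, hs.2]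

end Vale.Agent.P134B
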