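import Vale.Agent.P134B.Spec2

/-!
# P134B, row NMON: monotonicity of the normal
-/

open scoped RealInnerProductSpace
open Vale.Agent.P366.Stmt (E)

noncomputable section

namespace Vale.Agent.P134B

theorem nmon_aux {t ρ : ℝ} (h0 : 0 ≤ t) (h : t ≤ ρ) : ∃ α : ℝ, α = (√(1 + t ^ 2))⁻¹ ∧ 0 < α ∧
    α ≤ 1 ∧ 1 - ρ ^ 2 / 2 ≤ α ∧ α ^ 2 * t ^ 2 = 1 - α ^ 2 := by
  have h1 : 1 ≤ √(1 + t ^ 2) := Real.le_sqrt_of_sq_le (by nlinarith)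
  have h2 : √(1 + t ^ 2) ^ 2 = 1 + t ^ 2 := Real.sq_sqrt (by positivity)
  have h3 : (√(1 + t ^ 2))⁻¹ ^ 2 * t ^ 2 = 1 - (√(1 + t ^ 2))⁻¹ ^ 2 := by
    rw [inv_pow, h2]
    field_simp
    ring
  have h4 : (√(1 + t ^ 2))⁻¹ ≤ 1 := inv_le_one_of_one_le₀ h1
  have h5 : 0 < (√(1 + t ^ 2))⁻¹ := by positivity
  refine ⟨_, rfl, h5, h4, ?_, h3⟩
  have h6 : √(1 + t ^ 2) ≤ 1 + t ^ 2 / 2 := Real.sqrt_le_iff.2 ⟨by positivity, by nlinarith⟩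
  have h7 : t ^ 2 ≤ ρ ^ 2 := pow_le_pow_left₀ h0 h 2
  refine le_trans ?_ (inv_anti₀ (by positivity) h6)
  rw [inv_eq_one_div, le_div_iff₀ (by positivity)]
  nlinarith [sq_nonneg t, mul_nonneg (sq_nonneg t) (sq_nonneg ρ)]

theorem nmon : NMON := by
  intro m a b ρ ha hb
  obtain ⟨α, e1, a0, a1, a2, a3⟩ := nmon_aux (norm_nonneg a) ha
  obtain ⟨β, e2, b0, b1, b2, b3⟩ := nmon_aux (norm_nonneg b) hb
  rw [Nn, Nn, ← e1, ← e2]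
  have hd : ‖a - b‖ ^ 2 = ‖a‖ ^ 2 - 2 * ⟪a, b⟫ + ‖b‖ ^ 2 := norm_sub_sq_real a b
  have hαβ : 0 < α * β := mul_pos a0 b0
  constructor
  · have h1 : ⟪α • a - β • b, a - b⟫ =
        (α + β) / 2 * ‖a - b‖ ^ 2 + (α - β) / 2 * (‖a‖ ^ 2 - ‖b‖ ^ 2) := by
      rw [hd]
      simp only [inner_sub_left, inner_sub_right, inner_smul_left, conj_trivial,
        real_inner_self_eq_norm_sq, real_inner_comm a b]
      ring
    have h2 : (α - β) * (α + β) = -((α * β) ^ 2 * (‖a‖ ^ 2 - ‖b‖ ^ 2)) := by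
      linear_combination β ^ 2 * a3 - α ^ 2 * b3
    have h3 : (‖a‖ ^ 2 - ‖b‖ ^ 2) ^ 2 ≤ 4 * ρ ^ 2 * ‖a - b‖ ^ 2 := by
      have k1 : (‖a‖ - ‖b‖) ^ 2 ≤ ‖a - b‖ ^ 2 := by
        rw [← sq_abs]
        exact pow_le_pow_left₀ (abs_nonneg _) (abs_norm_sub_norm_le a b) 2
      have k2 : (‖a‖ + ‖b‖) ^ 2 ≤ (2 * ρ) ^ 2 := pow_le_pow_left₀ (by positivity) (by linarith) 2
      calc _ = (‖a‖ + ‖b‖) ^ 2 * (‖a‖ - ‖b‖) ^ 2 := by ring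
        _ ≤ (2 * ρ) ^ 2 * ‖a - b‖ ^ 2 := mul_le_mul k2 k1 (sq_nonneg _) (sq_nonneg _)
        _ = _ := by ring
    have h4 : 2 * (α * β) ^ 2 ≤ α + β := by
      have k1 : α * β ≤ α := mul_le_of_le_one_right a0.le b1
      have k2 : α * β ≤ β := mul_le_of_le_one_left b0.le a1
      nlinarith
    have h5 : -(ρ ^ 2 * ‖a - b‖ ^ 2) ≤ (α - β) / 2 * (‖a‖ ^ 2 - ‖b‖ ^ 2) := by
      refine le_of_mul_le_mul_right ?_ (add_pos a0 b0)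
      have k1 : (α - β) / 2 * (‖a‖ ^ 2 - ‖b‖ ^ 2) * (α + β) =
          -((α * β) ^ 2 * (‖a‖ ^ 2 - ‖b‖ ^ 2) ^ 2 / 2) := by
        linear_combination (‖a‖ ^ 2 - ‖b‖ ^ 2) / 2 * h2
      have k2 := mul_le_mul_of_nonneg_left h3 (sq_nonneg (α * β))
      have k3 := mul_le_mul_of_nonneg_left h4 (mul_nonneg (sq_nonneg ρ) (sq_nonneg ‖a - b‖))
      rw [k1]
      linarith
    have h6 := mul_le_mul_of_nonneg_right (show 1 - ρ ^ 2 / 2 ≤ (α + β) / 2 by linarith)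
      (sq_nonneg ‖a - b‖)
    have h7 := mul_nonneg (sq_nonneg ρ) (sq_nonneg ‖a - b‖)
    rw [h1]
    linarith
  · refine le_of_sq_le_sq ?_ (norm_nonneg _)
    have h1 : ‖α • a - β • b‖ ^ 2 =
        α * β * ‖a - b‖ ^ 2 + (α - β) * (α * ‖a‖ ^ 2 - β * ‖b‖ ^ 2) := by
      rw [hd, norm_sub_sq_real, norm_smul, norm_smul, mul_pow, mul_pow, Real.norm_eq_abs,
        Real.norm_eq_abs, sq_abs, sq_abs, inner_smul_left, inner_smul_right, conj_trivial]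
      ring
    have h2 : (α - β) * (α * ‖a‖ ^ 2 - β * ‖b‖ ^ 2) ≤ 0 := by
      refine nonpos_of_mul_nonpos_left (b := α * β) ?_ hαβ
      have k1 : (α - β) * (α * ‖a‖ ^ 2 - β * ‖b‖ ^ 2) * (α * β) =
          -((α - β) ^ 2 * (1 + α * β)) := by
        linear_combination (α - β) * β * a3 - (α - β) * α * b3
      rw [k1, neg_nonpos]
      positivity
    have h3 := mul_le_mul_of_nonneg_right (mul_le_one₀ a1 b0.le b1) (sq_nonneg ‖a - b‖)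
    rw [h1]
    linarith

end Vale.Agent.P134B
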