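import Vale.Agent.P134B.Spec2
import Vale.Agent.P134B.COL

/-!
# P134B: the next zero behind a high ridge
-/

open Metric Filter Topology Set

noncomputable section

namespace Vale.Agent.P134B

namespace Ode

variable {ε δ T : ℝ} {ψ s d q u f : ℝ → ℝ}

theorem key (h : Ln ε δ T ψ s d q u f) {t : ℝ} (h0 : 0 ≤ t) (ht : t ≤ T) (hu : 0 < u t) :
    1 - s t ^ 2 ≤ -d t + 3 * δ := by
  have ht' : |t| ≤ T := by rwa [abs_of_nonneg h0]
  have d0 := h.d0
  have d1 := h.d1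
  have q0 := h.q0 t
  have a0 := h.t0 t ht'
  have a1 := (abs_le.1 (h.t2 t ht')).2
  have b1 := Col.r2.1
  have a2 : δ ^ 2 ≤ δ := by nlinarith
  rcases h.t3 t ht' with a3 | a3
  · have : 0 ≤ √2 * u t * q t := by positivity
    linarith
  · rw [abs_of_pos hu] at a3
    have a4 : 1 ≤ √2 * u t := by nlinarith
    nlinarith

theorem s_le (h : Ln ε δ T ψ s d q u f) (t : ℝ) : -1 ≤ s t ∧ s t ≤ 1 :=
  abs_le_of_sq_le_sq' (by linarith [h.sq t, h.q0 t]) zero_le_one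

/-- the time which is needed to rise -/
theorem rise (h : Ln ε δ T ψ s d q u f) {q₁ t₁ : ℝ} (hδ : 3 * δ < q₁) (h0 : 0 < t₁) (hT : t₁ ≤ T)
    (hu : ∀ t ∈ Ioc 0 t₁, 0 < u t) (hq : q₁ ≤ q t₁) :
    q₁ * t₁ ≤ q₁ * ψ t₁ + 4 + 6 * δ * t₁ := by
  have d0 := h.d0
  have c1 : q₁ ≤ 1 - s t₁ ^ 2 := by linarith [h.sq t₁]
  have a1 := Col.barrier (g := fun r => s (t₁ - r)) (g' := fun r => d (t₁ - r) * -1) (a := 0)
    (b := t₁) (c := s t₁)
    (fun r => (h.ds (t₁ - r)).comp r (by simpa using (hasDerivAt_id r).const_sub t₁))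
    (by simp) fun x hx e => by
      have := key h (t := t₁ - x) (by linarith [hx.2]) (by linarith [hx.1])
        (hu _ ⟨by linarith [hx.2], by linarith [hx.1]⟩)
      rw [e] at this
      linarith
  have a2 := Col.lower (g := fun r => q₁ * ψ r - 2 * s r) (g' := fun r => q₁ * s r - 2 * d r)
    (k := q₁ - 6 * δ) (fun r => ((h.dψ r).const_mul q₁).sub ((h.ds r).const_mul 2)) h0.le
    fun x hx => by
      have b1 := key h hx.1.le (hx.2.le.trans hT) (hu x ⟨hx.1, hx.2.le⟩)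
      have b2 := a1 (t₁ - x) ⟨by linarith [hx.2], by linarith [hx.1]⟩
      simp only [sub_sub_cancel] at b2
      obtain ⟨b3, b4⟩ := s_le h x
      obtain ⟨b5, b6⟩ := s_le h t₁
      have b7 : q₁ ≤ 2 * (1 + s x) := by nlinarith
      nlinarith
  simp only [h.ψ0] at a2
  obtain ⟨b3, b4⟩ := s_le h 0
  obtain ⟨b5, b6⟩ := s_le h t₁
  nlinarith

/-- the time which is needed to descend -/
theorem fall (h : Ln ε δ T ψ s d q u f) {q₁ t₁ t : ℝ} (hδ : 3 * δ < q₁) (h0 : 0 < t₁)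
    (ht : t₁ ≤ t) (hT : t ≤ T) (hu : ∀ r ∈ Ico t₁ t, 0 < u r) (hq : q₁ ≤ q t₁) :
    q₁ * (t - t₁) + q₁ * ψ t ≤ q₁ * ψ t₁ + 4 + 6 * δ * (t - t₁) := by
  have d0 := h.d0
  have c1 : q₁ ≤ 1 - s t₁ ^ 2 := by linarith [h.sq t₁]
  have a1 := Col.barrier (g := fun r => -s r) (g' := fun r => -d r) (a := t₁) (b := t)
    (c := -s t₁) (fun r => (h.ds r).neg) le_rfl fun x hx e => by
      have := key h (t := x) (by linarith [hx.1]) (by linarith [hx.2]) (hu x hx)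
      rw [neg_inj.1 e] at this
      linarith
  have a2 := Col.lower (g := fun r => -(q₁ * ψ r) - 2 * s r)
    (g' := fun r => -(q₁ * s r) - 2 * d r) (k := q₁ - 6 * δ)
    (fun r => ((h.dψ r).const_mul q₁).neg.sub ((h.ds r).const_mul 2)) ht fun x hx => by
      have b1 := key h (t := x) (by linarith [hx.1]) (hx.2.le.trans hT) (hu x ⟨hx.1.le, hx.2⟩)
      have b2 := a1 x ⟨hx.1.le, hx.2.le⟩
      obtain ⟨b3, b4⟩ := s_le h x
      obtain ⟨b5, b6⟩ := s_le h t₁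
      have b7 : q₁ ≤ 2 * (1 - s x) := by nlinarith
      nlinarith
  obtain ⟨b3, b4⟩ := s_le h t
  obtain ⟨b5, b6⟩ := s_le h t₁
  nlinarith

theorem height (h : Ln ε δ T ψ s d q u f) {κ t : ℝ} (hκ : 0 < κ) (hu : 0 < u t)
    (hf : κ * ε ^ 2 ≤ f t ^ 2) : 2 * ψ t ≤ √2 * lg ε + |Real.log (8 / κ)| := by
  have e0 := h.e0
  have p0 := (Col.u_pos h t).1 hu
  have a0 := h.fhi t
  have a1 := h.flo t
  rw [abs_of_pos p0] at a0 a1
  have s2 : √2 * √2 = (2 : ℝ) := Real.mul_self_sqrt (by norm_num)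
  obtain ⟨b1, b2⟩ := Col.r2
  have f0 : 0 ≤ f t := le_trans (by positivity) a1
  have a2 : f t ^ 2 ≤ 8 * Real.exp (-(√2 * ψ t)) ^ 2 := by
    calc f t ^ 2 ≤ (2 * √2 * Real.exp (-(√2 * ψ t))) ^ 2 := by gcongr
      _ = 4 * (√2 * √2) * Real.exp (-(√2 * ψ t)) ^ 2 := by ring
      _ = _ := by
        rw [s2]
        ring
  have a3 : ε ^ 2 ≤ 8 / κ * Real.exp (-(√2 * ψ t)) ^ 2 := by
    rw [div_mul_eq_mul_div, le_div_iff₀ hκ]
    linarith
  have a4 := Real.log_le_log (by positivity) a3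
  rw [Real.log_mul (by positivity) (by positivity), Real.log_pow, Real.log_pow, Real.log_exp] at a4
  have a5 := le_abs_self (Real.log (8 / κ))
  have a6 := abs_nonneg (Real.log (8 / κ))
  have a7 : √2 * (2 * ψ t) ≤ √2 * (√2 * lg ε + |Real.log (8 / κ)|) := by
    unfold lg
    push_cast at a4
    rw [mul_add, ← mul_assoc √2 √2, s2]
    nlinarith
  exact le_of_mul_le_mul_left a7 (by linarith)

end Ode

theorem ode : ODE := fun κ q₁ hκ hq₁ => by
  obtain ⟨K, hK⟩ : ∃ K, K = |Real.log (8 / κ)| + 8 / q₁ + 15 := ⟨_, rfl⟩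
  have K1 : 1 ≤ K := by
    have : 0 ≤ |Real.log (8 / κ)| + 8 / q₁ := by positivity
    linarith
  refine ⟨K, q₁ / 4, by positivity, Real.exp (-K), Real.exp_pos _,
    fun ε δ t₁ ψ s d q u f h hε hδ h0 h1 hu hq hf => ?_⟩
  have hl : K ≤ lg ε := by
    have := Real.log_le_log h.e0 hε
    rw [Real.log_exp] at this
    unfold lg
    linarith
  have d0 := h.d0
  have hδ' : 3 * δ < q₁ := by nlinarith
  have hT : t₁ ≤ 10 * lg ε := by linarith
  have u1 := hu t₁ ⟨h0, le_rfl⟩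
  have a1 := Ode.rise h hδ' h0 hT hu hq
  have a2 := Ode.height h hκ u1 hf
  have a3 : ∀ t, t₁ ≤ t → t ≤ 10 * lg ε → (∀ r ∈ Ico t₁ t, 0 < u r) → 0 ≤ ψ t →
      t ≤ √2 * lg ε + K := fun t b1 b2 b3 b4 => by
    have c1 := Ode.fall h hδ' h0 b1 b2 b3 hq
    have c2 : δ * t ≤ δ * (10 * lg ε) := by gcongr
    have c3 : 0 ≤ q₁ * ψ t := by positivity
    have c4 : q₁ * (8 / q₁) = 8 := by field_simp
    have c5 : q₁ * t ≤ q₁ * (2 * ψ t₁ + 8 / q₁ + 15) := by nlinarith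
    have c6 := le_of_mul_le_mul_left c5 hq₁
    linarith
  have cu : Continuous u := continuous_iff_continuousAt.2 fun x => (h.du x).continuousAt
  by_cases hz : ∀ r ∈ Icc t₁ (10 * lg ε), 0 < u r
  · have c1 := a3 _ hT le_rfl (fun r hr => hz r ⟨hr.1, hr.2.le⟩)
      ((Col.u_pos h _).1 (hz _ ⟨hT, le_rfl⟩)).le
    have := Col.r2.2
    nlinarith
  · push Not at hz
    obtain ⟨r, hr, hr'⟩ := hz
    obtain ⟨t, ht, e, hs⟩ := Col.first cu hr.1 u1 hr'
    refine ⟨t, h0.trans ht.1, a3 t ht.1.le (ht.2.trans hr.2) hs ((Col.u_zero h t).1 e).ge, e,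
      fun t' ht' => ?_⟩
    rcases le_total t' t₁ with c | c
    · exact (hu t' ⟨ht'.1, c⟩).ne'
    · exact (hs t' ⟨c, ht'.2⟩).ne'

end Vale.Agent.P134B
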