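import Vale.Agent.P134B.Spec2

/-! P134B: the row ORD (no third sheet in the gap). -/

open MeasureTheory Metric Filter Topology Set
open scoped ContDiff RealInnerProductSpace
open Vale.Agent.P366.Stmt (E)
open Vale.Agent.P366W (Fr adj dvg trc)

noncomputable section

namespace Vale.Agent.P134B

namespace Ord

variable {n m : ℕ}

lemma inner_ne {p e : E n} {σ θ : ℝ} (he : ‖σ • e‖ = 1) (h : ‖p - σ • e‖ ≤ θ) (hθ : θ < 1) :
    ⟪p, e⟫ ≠ 0 := by
  intro h0
  have h1 : ⟪p - σ • e, σ • e⟫ = -1 := by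
    rw [inner_sub_left, real_inner_self_eq_norm_sq, he, inner_smul_right, h0]
    norm_num
  have h2 := abs_real_inner_le_norm (p - σ • e) (σ • e)
  rw [h1, he] at h2
  norm_num at h2
  linarith

lemma near_pm {p e : E n} {δ : ℝ} (he : ‖e‖ = 1) (h0 : 0 < δ) (_ : δ ≤ 1)
    (ht : ‖p - ⟪p, e⟫ • e‖ ≤ δ) (hq : 1 - ‖p‖ ^ 2 ≤ δ) (hp : 0 ≤ 1 - ‖p‖ ^ 2) :
    ∃ σ : ℝ, (σ = 1 ∨ σ = -1) ∧ ‖p - σ • e‖ ≤ 3 * δ := by
  obtain ⟨s, hs⟩ : ∃ s, s = ⟪p, e⟫ := ⟨_, rfl⟩
  have e1 : ‖p - s • e‖ ^ 2 = ‖p‖ ^ 2 - s ^ 2 := by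
    rw [norm_sub_sq_real, inner_smul_right, norm_smul, he, ← hs, mul_one, Real.norm_eq_abs, sq_abs]
    ring
  rw [← hs] at ht
  have e2 : ‖p - s • e‖ ^ 2 ≤ δ ^ 2 := pow_le_pow_left₀ (norm_nonneg _) ht 2
  have e3 : 0 ≤ ‖p - s • e‖ ^ 2 := sq_nonneg _
  have key : ∀ σ : ℝ, |s - σ| ≤ 2 * δ → ‖p - σ • e‖ ≤ 3 * δ := by
    intro σ hσ
    have e4 : p - σ • e = (p - s • e) + (s - σ) • e := by rw [sub_smul]; abel
    rw [e4]
    refine (norm_add_le _ _).trans ?_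
    rw [norm_smul, he, mul_one, Real.norm_eq_abs]
    linarith
  rcases le_total 0 s with h | h
  · refine ⟨1, Or.inl rfl, key 1 (abs_le.2 ⟨?_, ?_⟩)⟩ <;> nlinarith
  · refine ⟨-1, Or.inr rfl, key (-1) (abs_le.2 ⟨?_, ?_⟩)⟩ <;> nlinarith

lemma abs_le_of_grad {h : E m → ℝ} {r : ℝ} (hs : ContDiff ℝ ∞ h) (h0 : h 0 = 0)
    (hg : ∀ y ∈ ball (0 : E m) r, ‖gradient h y‖ ≤ 1) {y : E m} (hy : y ∈ ball (0 : E m) r) :
    |h y| ≤ r := by
  have hr : ‖y‖ < r := by simpa using hy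
  have h1 := (convex_ball (0 : E m) r).norm_image_sub_le_of_norm_fderiv_le (𝕜 := ℝ) (f := h)
    (C := 1) (fun x _ => hs.differentiable (by simp) x) (fun x hx => by
      have := hg x hx
      rwa [gradient, LinearIsometryEquiv.norm_map] at this)
    (mem_ball_self ((norm_nonneg y).trans_lt hr)) hy
  rw [h0, sub_zero, sub_zero, one_mul, Real.norm_eq_abs] at h1
  linarith

end Ord

theorem ord : rORD := by
  intro hGR hGD hNC m C
  obtain ⟨ε₀, hε₀, hG⟩ := hGR m C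
  refine ⟨ε₀, hε₀, ?_⟩
  intro ε δ r T l u z e L h₀ h₁ hε hl hlr l0 l1 h00 hgd hfl hne y hy hT t ht hu
  have hyr : ‖y‖ < r := by simpa using hy
  have hr : 0 < r := (norm_nonneg y).trans_lt hyr
  have d0 := l0.d0
  have d1 := l0.d1
  have T1 := l0.T1
  have he : ‖e‖ = 1 := l0.gr.fr.one
  have hz := l0.zn y hy (t - h₀ y) (abs_le.2 ⟨by linarith [ht.1], by linarith [ht.2]⟩)
  rw [add_sub_cancel] at hz
  have hq : qq u (pt z e L y t) ≤ δ := hz.t3.resolve_right (by rw [hu, abs_zero]; linarith)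
  obtain ⟨σ, hσ, hp⟩ := Ord.near_pm he d0 (by linarith) hz.t0 hq (l0.ok.q0 _)
  have hσ2 : σ * σ = 1 := by rcases hσ with rfl | rfl <;> norm_num
  have hσa : |σ| = 1 := by rcases hσ with rfl | rfl <;> norm_num
  have hF : Fr (σ • e) L := by
    rcases hσ with rfl | rfl
    · rw [one_smul]; exact l0.gr.fr
    · rw [neg_one_smul]; exact l1.gr.fr
  have hh : |h₀ y| ≤ r := Ord.abs_le_of_grad l0.gr.sm h00 (fun x hx =>
    (hGD m C δ r u z e L h₀ l0.ok l0.gr (by linarith) x hx).2.2.1.trans (by linarith)) hy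
  have hta : |σ * t| ≤ r + T / 8 := by
    rw [abs_mul, hσa, one_mul, abs_le]
    have := abs_le.1 hh
    constructor <;> linarith [ht.1, ht.2]
  have hsub : ball (z + L y) (|σ * t| + 3 * (2 * r) + 3) ⊆ ball z (8 * r + T + 3) := by
    refine ball_subset_ball' ?_
    rw [dist_eq_norm, add_sub_cancel_left, L.norm_map]
    linarith
  have hx : z + L y + (σ * t) • σ • e = pt z e L y t := by
    rw [smul_smul, mul_right_comm, hσ2, one_mul]; rfl
  obtain ⟨h, ha, hg⟩ := hG u ε (σ * t) (2 * r) (3 * δ) l (z + L y) (σ • e) L l0.ok hF l0.e0 hε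
    (by linarith) hl (fun x hx => hgd x (hsub hx)) (fun x hx => hfl x (hsub hx))
    (by rw [hx]; exact hu) (by rw [hx]; exact hp) (by linarith)
  have e1 : ∀ y', pt (z + L y) (σ • e) L (y' - y) (h (y' - y))
      = pt z e L y' (σ * h (y' - y)) := by
    intro y'
    unfold pt
    rw [map_sub, smul_smul, mul_comm]
    abel
  have m2 : ∀ y' ∈ ball (0 : E m) r, y' - y ∈ ball (0 : E m) (2 * r) := by
    intro y' hy'
    have : ‖y'‖ < r := by simpa using hy'
    rw [mem_ball_zero_iff]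
    linarith [norm_sub_le y' y]
  have c2 : ContinuousOn (fun y' => σ * h (y' - y)) (ball (0 : E m) r) :=
    (continuous_const.mul (hg.sm.continuous.comp (continuous_id.sub continuous_const))).continuousOn
  have z2 : ∀ y' ∈ ball (0 : E m) r, u (pt z e L y' (σ * h (y' - y))) = 0 := fun y' hy' => by
    rw [← e1]; exact hg.ze _ (m2 y' hy')
  have z1 : ∀ y' ∈ ball (0 : E m) r, u (pt z e L y' (h₁ y')) = 0 := fun y' hy' => by
    have := l1.gr.ze y' hy'
    unfold pt at this ⊢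
    rwa [neg_smul_neg] at this
  have c1 : Continuous h₁ := by
    exact continuous_neg_iff.1 l1.gr.sm.continuous
  have ey : σ * h (y - y) = t := by rw [sub_self, ha, ← mul_assoc, hσ2, one_mul]
  have k1 := hNC m C u z e L (ball 0 r) h₀ _ l0.ok (convex_ball _ _).isPreconnected
    l0.gr.sm.continuous.continuousOn c2 (fun y' hy' => ⟨l0.gr.ze y' hy', z2 y' hy',
      Ord.inner_ne (σ := 1) (θ := δ) (by rw [one_smul]; exact he)
        (by rw [one_smul]; exact l0.gr.ti y' hy') (by linarith)⟩) y hy (by rw [ey]; exact ht.1) 0 (mem_ball_self hr)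
  have k2 := hNC m C u z e L (ball 0 r) _ h₁ l0.ok (convex_ball _ _).isPreconnected c2
    c1.continuousOn (fun y' hy' => ⟨z2 y' hy', z1 y' hy',
      Ord.inner_ne (θ := 3 * δ + 2 * l * (2 * r)) hF.one
        (by rw [← e1]; exact hg.ti _ (m2 y' hy')) (by linarith)⟩)
    y hy (by rw [ey]; exact ht.2) 0 (mem_ball_self hr)
  rw [h00] at k1
  exact hne _ ⟨k1, k2⟩ (z2 0 (mem_ball_self hr))

end Vale.Agent.P134B
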