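import Vale.Agent.P134B.Spec

/-!
# P134B: close sheets are parallel
-/

open MeasureTheory Metric Filter Topology Set
open scoped ContDiff RealInnerProductSpace
open Vale.Agent.P366.Stmt (E)

noncomputable section

namespace Vale.Agent.P134B

theorem par : rPAR := fun seg n C => by
  obtain ⟨K, K1, hK⟩ := seg n C 1
  refine ⟨2 * √K, 1 / 8, by norm_num, fun u ε ρ z z' τ hu e0 e1 hg h0 h0' r1 _ hz hτ τ1 => ?_⟩
  obtain ⟨δ, hδ⟩ : ∃ δ, δ = √K * √ε := ⟨_, rfl⟩
  have d0 : 0 < δ := by rw [hδ]; positivity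
  have d1 : δ ^ 2 = K * ε := by
    rw [hδ, mul_pow, Real.sq_sqrt (by linarith), Real.sq_sqrt e0.le]
  have d2 : 2 * δ⁻¹ < 1 / ε := by
    rw [← div_eq_mul_inv, div_lt_div_iff₀ d0 e0, one_mul]
    exact lt_of_pow_lt_pow_left₀ 2 d0.le (by nlinarith)
  have i0 : 0 < δ⁻¹ := inv_pos.2 d0
  have tg : ∀ x d : E n, u x = 0 → ‖x - z‖ ≤ δ⁻¹ → ‖d‖ ≤ δ⁻¹ → ⟪pp u x, d⟫ = 0 →
      ‖pp u (x + d) - pp u x‖ ≤ δ := fun x d x0 x1 h1 h2 => by
    have v1 : ‖δ • d‖ ≤ 1 := by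
      rw [norm_smul, Real.norm_of_nonneg d0.le]
      exact (mul_le_mul_of_nonneg_left h1 d0.le).trans_eq (mul_inv_cancel₀ d0.ne')
    have := (hK u ε x (δ • d) δ⁻¹ hu e0 v1 i0.le (fun t ht => hg _ (by
      rw [mem_ball_iff_norm, add_sub_right_comm]
      refine (norm_add_le _ _).trans_lt ?_
      rw [norm_smul, Real.norm_of_nonneg ht.1]
      linarith [mul_le_of_le_one_right ht.1 v1, ht.2])) (by
        rw [pe, real_inner_smul_right, h2, ← d1, ← mul_pow, mul_inv_cancel₀ d0.ne']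
        simp [ps, x0]) δ⁻¹ ⟨i0.le, le_rfl⟩).1
    rwa [smul_smul, inv_mul_cancel₀ d0.ne', one_smul, ← d1, sq, mul_inv_cancel_right₀ d0.ne']
      at this
  rw [show 2 * √K * ρ * √ε = 2 * ρ * δ by rw [hδ]; ring]
  by_contra! hb
  have p1 : ‖pp u z'‖ ≤ 1 := by
    have := hu.q0 z'
    unfold qq at this
    nlinarith [norm_nonneg (pp u z')]
  have b1 : |pe u τ z'| ≤ 1 :=
    (abs_real_inner_le_norm _ _).trans (mul_le_one₀ p1 (norm_nonneg _) τ1)
  have b0 : 0 < |pe u τ z'| := lt_trans (by positivity) hb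
  have r2 : 2 * ρ ≤ δ⁻¹ := by
    rw [← one_div, le_div_iff₀ d0]; linarith
  obtain ⟨s, hs⟩ : ∃ s, s = ⟪pp u z', z' - z⟫ / pe u τ z' := ⟨_, rfl⟩
  have s1 : 2 * |s| ≤ δ⁻¹ := by
    have a1 : |⟪pp u z', z' - z⟫| ≤ ρ := (abs_real_inner_le_norm _ _).trans
      ((mul_le_of_le_one_left (norm_nonneg _) p1).trans hz)
    rw [hs, abs_div, ← one_div, ← mul_div_assoc, div_le_div_iff₀ b0 d0]
    linarith [mul_le_mul_of_nonneg_right a1 d0.le]
  have s2 : ‖s • τ‖ ≤ |s| := by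
    rw [norm_smul, Real.norm_eq_abs]; exact mul_le_of_le_one_right (abs_nonneg _) τ1
  have a1 := tg z (s • τ) h0 (by simpa using d0.le) (by linarith [abs_nonneg s])
    (by rw [real_inner_smul_right, real_inner_comm, hτ, mul_zero])
  have a2 := tg z' (s • τ - (z' - z)) h0' (by linarith)
    ((norm_sub_le _ _).trans (by linarith)) (by
      rw [inner_sub_right, real_inner_smul_right, hs]
      exact sub_eq_zero.2 (div_mul_cancel₀ _ (abs_pos.1 b0)))
  rw [show z' + (s • τ - (z' - z)) = z + s • τ by abel, norm_sub_rev] at a2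
  have a3 := (abs_real_inner_le_norm (pp u z' - pp u z) τ).trans
    (mul_le_of_le_one_right (norm_nonneg _) τ1)
  rw [inner_sub_left, real_inner_comm τ (pp u z), hτ, sub_zero] at a3
  have a4 := norm_sub_le_norm_sub_add_norm_sub (pp u z') (pp u (z + s • τ)) (pp u z)
  have a5 := mul_le_mul_of_nonneg_right r1 d0.le
  unfold pe at hb
  linarith

end Vale.Agent.P134B
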