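import Vale.Agent.P134B.Spec2
import Vale.Agent.P134T.Calc

/-!
# P134B: the choice of the point
-/

open MeasureTheory Metric Filter Topology Set
open scoped ContDiff RealInnerProductSpace
open Vale.Agent.P366.Stmt (E)

noncomputable section

namespace Vale.Agent.P134B

variable {n : ℕ}

theorem pick_cE {C : ℝ} {u : E n → ℝ} (h : Ok C u) : Continuous (EE u) := by
  have h1 := h.tcf.continuous
  have h2 := h.tcp.continuous
  unfold EE qq
  fun_prop

/-- the point at which the deficit is largest relative to the distance from the boundary -/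
theorem pick_pt {F : E n → ℝ} (hF : Continuous F) (h0 : ∀ y, 0 ≤ F y) (x : E n) {d A : ℝ}
    (hd : 0 < d) (hA : 0 < A) (hx : A ^ 2 < d ^ 2 * F x) :
    ∃ x₀ ρ, 0 < ρ ∧ ball x₀ ρ ⊆ ball x d ∧ A ^ 2 < (2 * ρ) ^ 2 * F x₀ ∧
      ∀ y ∈ ball x₀ ρ, F y ≤ 4 * F x₀ := by
  have hc : Continuous fun y => (d - ‖y - x‖) ^ 2 * F y := by fun_prop
  obtain ⟨x₀, hx₀, hm⟩ := (isCompact_closedBall x d).exists_isMaxOn
    ⟨x, mem_closedBall_self hd.le⟩ hc.continuousOn
  rw [mem_closedBall, dist_eq_norm] at hx₀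
  have h1 : A ^ 2 < (d - ‖x₀ - x‖) ^ 2 * F x₀ := by
    have := hm (mem_closedBall_self hd.le)
    simp only [mem_setOf_eq, sub_self, norm_zero, sub_zero] at this
    linarith
  have h2 : 0 < d - ‖x₀ - x‖ := by
    rcases (sub_nonneg.2 hx₀).eq_or_lt with h | h
    · rw [← h] at h1
      nlinarith
    · exact h
  have h3 : ∀ y ∈ ball x₀ ((d - ‖x₀ - x‖) / 2), (d - ‖x₀ - x‖) / 2 < d - ‖y - x‖ := by
    intro y hy
    rw [mem_ball, dist_eq_norm] at hy
    have := norm_sub_le_norm_sub_add_norm_sub y x₀ x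
    linarith
  refine ⟨x₀, (d - ‖x₀ - x‖) / 2, by positivity, fun y hy => ?_, by
    rwa [mul_div_cancel₀ _ two_ne_zero], fun y hy => ?_⟩
  · rw [mem_ball, dist_eq_norm]
    linarith [h3 y hy]
  · have h4 := h3 y hy
    have h5 := hm (show y ∈ closedBall x d by
      rw [mem_closedBall, dist_eq_norm]
      linarith)
    simp only [mem_setOf_eq] at h5
    have h6 : ((d - ‖x₀ - x‖) / 2) ^ 2 * F y ≤ (d - ‖y - x‖) ^ 2 * F y :=
      mul_le_mul_of_nonneg_right (pow_le_pow_left₀ (by positivity) h4.le 2) (h0 y)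
    have h7 : 0 < (d - ‖x₀ - x‖) ^ 2 := by positivity
    nlinarith

theorem pick : rPICK := by
  intro kk m toda leaf
  obtain ⟨C, hC⟩ := kk (m + 1)
  obtain ⟨η, hη, R₁, hR₁, ε₁, hε₁, T⟩ := toda C
  obtain ⟨R₂, hR₂, ε₂, hε₂, L⟩ := leaf C η hη
  have e0 : 0 < min ε₁ ε₂ := lt_min hε₁ hε₂
  refine ⟨(min ε₁ ε₂) ^ 2 / 4, (R₁ + R₂) ^ 2, by positivity, by positivity,
    fun v hv x d hd hs => ?_⟩
  obtain ⟨ok, st, he⟩ := hC v hv
  by_contra hlt
  rw [not_le, div_lt_iff₀ (by positivity)] at hlt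
  obtain ⟨x₀, ρ, ρ0, hb, h1, h2⟩ := pick_pt (pick_cE ok) ok.tEE_nn (WithLp.toLp 2 x) hd
    (show 0 < R₁ + R₂ by positivity) (by rw [he]; linarith)
  have h3 : 0 < EE (up v) x₀ := by
    rcases (ok.tEE_nn x₀).eq_or_lt with h | h
    · rw [← h] at h1
      nlinarith
    · exact h
  have h4 : EE (up v) x₀ ≤ (min ε₁ ε₂) ^ 2 / 4 := by
    rw [he]
    refine hs _ ?_
    have := hb (mem_ball_self ρ0)
    rw [mem_ball, dist_eq_norm] at this
    have h5 : ‖x₀ - WithLp.toLp 2 x‖ ^ 2 ≤ d ^ 2 := pow_le_pow_left₀ (norm_nonneg _) this.le 2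
    rw [EuclideanSpace.real_norm_sq_eq] at h5
    simpa [P134.SM.eb, P134.SM.dsq] using h5
  set ε := 2 * √(EE (up v) x₀) with hε
  have p0 : 0 < ε := by positivity
  have p2 : ε ^ 2 = 4 * EE (up v) x₀ := by rw [hε, mul_pow, Real.sq_sqrt h3.le]; norm_num
  have p1 : ε ≤ min ε₁ ε₂ := by
    refine abs_le_of_sq_le_sq' (by linarith) e0.le |>.2
  have p3 : (R₁ + R₂) / ε ≤ ρ := by
    rw [div_le_iff₀ p0]
    refine (abs_le_of_sq_le_sq' ?_ (by positivity)).2
    rw [mul_pow, p2]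
    linarith
  have gd : Gd (up v) ε x₀ ((R₁ + R₂) / ε) := fun y hy => by
    rw [p2]
    exact h2 y (ball_subset_ball p3 hy)
  have := T (up v) ε x₀ ok st p0 (p1.trans (min_le_left _ _))
    (fun y hy => gd y (ball_subset_ball (by gcongr; linarith) hy))
    (fun z hz z0 => L (up v) ε z ok st p0 (p1.trans (min_le_right _ _)) (fun y hy => gd y (by
      rw [mem_ball] at hy hz ⊢
      have := dist_triangle y z x₀
      rw [add_div]
      linarith)) z0)
  linarith

end Vale.Agent.P134B
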