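import Vale.Agent.P134B.Spec2

/-!
# P134B, row PRF: the profiles of the test function exist
-/

open Set
open Vale.Agent.P366W (hasDerivAt_pos_pow)

noncomputable section

namespace Vale.Agent.P134B

namespace Prf0

def b0 (x : ℝ) : ℝ :=
  max x 0 ^ 3 - 1 / 2 * max x 0 ^ 4 + max (x - 1) 0 ^ 3 + 1 / 2 * max (x - 1) 0 ^ 4

def b1 (x : ℝ) : ℝ := 3 * max x 0 ^ 2 - 2 * max x 0 ^ 3 + 3 * max (x - 1) 0 ^ 2 + 2 * max (x - 1) 0 ^ 3

def b2 (x : ℝ) : ℝ := 6 * max x 0 - 6 * max x 0 ^ 2 + 6 * max (x - 1) 0 + 6 * max (x - 1) 0 ^ 2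

theorem dp (k : ℕ) (x : ℝ) : HasDerivAt (fun s : ℝ => max (s - 1) 0 ^ (k + 2))
    ((k + 2 : ℝ) * max (x - 1) 0 ^ (k + 1)) x :=
  (hasDerivAt_pos_pow k (x - 1)).comp_sub_const x 1

theorem d0 (x : ℝ) : HasDerivAt b0 (b1 x) x :=
  ((((hasDerivAt_pos_pow 1 x).sub ((hasDerivAt_pos_pow 2 x).const_mul (1 / 2))).add (dp 1 x)).add
    ((dp 2 x).const_mul (1 / 2))).congr_deriv (by rw [b1]; norm_num; ring)

theorem d1 (x : ℝ) : HasDerivAt b1 (b2 x) x :=
  (((((hasDerivAt_pos_pow 0 x).const_mul 3).sub ((hasDerivAt_pos_pow 1 x).const_mul 2)).add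
    ((dp 0 x).const_mul 3)).add ((dp 1 x).const_mul 2)).congr_deriv (by rw [b2]; norm_num; ring)

theorem c2 : Continuous b2 := by unfold b2; fun_prop

theorem lo {x : ℝ} (h : x ≤ 0) : b0 x = 0 ∧ b1 x = 0 ∧ b2 x = 0 := by
  simp [b0, b1, b2, max_eq_right h, max_eq_right (show x - 1 ≤ 0 by linarith)]

theorem mid {x : ℝ} (h : 0 ≤ x) (h' : x ≤ 1) : b0 x = x ^ 3 - 1 / 2 * x ^ 4 ∧
    b1 x = 3 * x ^ 2 - 2 * x ^ 3 ∧ b2 x = 6 * x - 6 * x ^ 2 := by
  simp [b0, b1, b2, max_eq_left h, max_eq_right (show x - 1 ≤ 0 by linarith)]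

theorem hi {x : ℝ} (h : 1 ≤ x) : b0 x = x - 1 / 2 ∧ b1 x = 1 ∧ b2 x = 0 := by
  rw [b0, b1, b2, max_eq_left (show 0 ≤ x by linarith), max_eq_left (show 0 ≤ x - 1 by linarith)]
  exact ⟨by ring, by ring, by ring⟩

theorem all (x : ℝ) : 0 ≤ b0 x ∧ (0 ≤ x → b0 x ≤ x) ∧ (x ≤ 3 → b0 x ≤ 5 / 2) ∧ b1 x ≤ 1 ∧
    0 ≤ b2 x ∧ b2 x ≤ 3 / 2 ∧ -(1 / 2) ≤ b0 x - x * b1 x := by
  rcases le_total x 0 with h | h
  · obtain ⟨e0, e1, e2⟩ := lo h
    rw [e0, e1, e2]
    norm_num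
  rcases le_total x 1 with h' | h'
  · obtain ⟨e0, e1, e2⟩ := mid h h'
    have p3 : 0 ≤ x ^ 3 := by positivity
    have p4 : x ^ 4 ≤ x ^ 3 := pow_le_pow_of_le_one h h' (by norm_num)
    have p5 : x ^ 3 ≤ x ^ 1 := pow_le_pow_of_le_one h h' (by norm_num)
    have p6 : 0 ≤ x ^ 4 := by positivity
    rw [e0, e1, e2]
    refine ⟨by linarith, fun _ => by linarith, fun _ => by linarith, ?_, by nlinarith,
      by nlinarith [sq_nonneg (x - 1 / 2)], ?_⟩
    · nlinarith [mul_nonneg (sq_nonneg (x - 1)) (show 0 ≤ 2 * x + 1 by linarith)]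
    · nlinarith [mul_nonneg (sq_nonneg (x - 1)) (show 0 ≤ 3 * x ^ 2 + 2 * x + 1 by positivity)]
  · obtain ⟨e0, e1, e2⟩ := hi h'
    rw [e0, e1, e2]
    exact ⟨by linarith, fun _ => by linarith, fun _ => by linarith, le_rfl, le_rfl, by norm_num,
      by linarith⟩

theorem cv {τ : ℝ} {f f1 f2 : ℝ → ℝ} (h1 : ∀ s, HasDerivAt f (f1 s) s)
    (h2 : ∀ s, HasDerivAt f1 (f2 s) s) (h3 : Continuous f2) (nn : ∀ s, 0 ≤ f s)
    (c : ∀ s, 0 ≤ f2 s) (tg : ∀ s, -τ ≤ f s - s * f1 s) : Cv τ f ∧ deriv (deriv f) = f2 := by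
  have e1 : deriv f = f1 := funext fun s => (h1 s).deriv
  have e2 : deriv f1 = f2 := funext fun s => (h2 s).deriv
  refine ⟨⟨?_, nn, by rw [e1, e2]; exact c, by rw [e1]; exact tg⟩, by rw [e1, e2]⟩
  rw [show (2 : WithTop ℕ∞) = 1 + 1 from rfl, contDiff_succ_iff_deriv, e1, contDiff_one_iff_deriv,
    e2]
  exact ⟨fun s => (h1 s).differentiableAt, by simp, fun s => (h2 s).differentiableAt, h3⟩

theorem lin (a c s : ℝ) : HasDerivAt (fun s : ℝ => a * s - c) a s := by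
  simpa using ((hasDerivAt_id s).const_mul a).sub_const c

theorem dL1 (s : ℝ) : HasDerivAt (fun s => b1 (20 * s - 17) - b1 (-20 * s - 17))
    (20 * (b2 (20 * s - 17) + b2 (-20 * s - 17))) s :=
  (((d1 _).comp s (lin 20 17 s)).sub ((d1 _).comp s (lin (-20) 17 s))).congr_deriv (by ring)

theorem cL2 : Continuous fun s : ℝ => 20 * (b2 (20 * s - 17) + b2 (-20 * s - 17)) := by
  have := c2
  fun_prop

end Prf0

open Prf0 in
theorem prf : PRF := by
  refine ⟨30, fun τ h0 h1 => ?_⟩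
  have t0 : 0 < 2 * τ := by positivity
  have dβ : ∀ s : ℝ, HasDerivAt (fun s : ℝ => s / (2 * τ)) (1 / (2 * τ)) s := fun s =>
    (hasDerivAt_id s).div_const _
  have hβ := cv (τ := τ) (f := fun s => 2 * τ * b0 (s / (2 * τ))) (f1 := fun s => b1 (s / (2 * τ)))
    (f2 := fun s => b2 (s / (2 * τ)) * (1 / (2 * τ)))
    (fun s => (((d0 _).comp s (dβ s)).const_mul (2 * τ)).congr_deriv (by field_simp))
    (fun s => (d1 _).comp s (dβ s)) (by have := c2; fun_prop)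
    (fun s => mul_nonneg t0.le (all _).1) (fun s => mul_nonneg (all _).2.2.2.2.1 (by positivity))
    (fun s => by
      have := mul_le_mul_of_nonneg_left (all (s / (2 * τ))).2.2.2.2.2.2 t0.le
      rw [mul_sub, ← mul_assoc, mul_div_cancel₀ _ t0.ne'] at this
      linarith)
  have hΛ := cv (τ := τ)
    (f := fun s => 7 / 8 - τ + 1 / 20 * (b0 (20 * s - 17) + b0 (-20 * s - 17)))
    (f1 := fun s => b1 (20 * s - 17) - b1 (-20 * s - 17))
    (f2 := fun s => 20 * (b2 (20 * s - 17) + b2 (-20 * s - 17)))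
    (fun s => (((((d0 _).comp s (lin 20 17 s)).add ((d0 _).comp s (lin (-20) 17 s))).const_mul
      (1 / 20)).const_add (7 / 8 - τ)).congr_deriv (by ring)) dL1 cL2
    (fun s => by linarith [(all (20 * s - 17)).1, (all (-20 * s - 17)).1])
    (fun s => by linarith [(all (20 * s - 17)).2.2.2.2.1, (all (-20 * s - 17)).2.2.2.2.1])
    (fun s => by
      rcases le_total 0 s with hs | hs
      · obtain ⟨e0, e1, -⟩ := lo (show -20 * s - 17 ≤ 0 by linarith)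
        obtain ⟨-, -, -, a1, -, -, a2⟩ := all (20 * s - 17)
        rw [e0, e1]
        linarith
      · obtain ⟨e0, e1, -⟩ := lo (show 20 * s - 17 ≤ 0 by linarith)
        obtain ⟨-, -, -, a1, -, -, a2⟩ := all (-20 * s - 17)
        rw [e0, e1]
        linarith)
  refine ⟨_, _, fun s => (b1 (20 * s - 17) - b1 (-20 * s - 17) + 1) / 2,
    fun s => 20 * (b2 (20 * s - 17) + b2 (-20 * s - 17)) / 2, hβ.1, hΛ.1, fun s hs => ?_,
    fun s hs => ?_, fun s hs => ?_, fun s hs => ?_,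
    ⟨fun s => ((dL1 s).add_const 1).div_const 2, cL2.div_const 2, fun s => ?_, fun s => ?_,
      fun s => ?_, fun s hs => ?_, fun s hs => ?_⟩, fun s => ?_⟩
  · rw [(lo (div_nonpos_of_nonpos_of_nonneg hs t0.le)).1, mul_zero]
  · have := mul_le_mul_of_nonneg_left ((all (s / (2 * τ))).2.1 (by positivity)) t0.le
    rwa [mul_div_cancel₀ _ t0.ne'] at this
  · obtain ⟨a1, a2⟩ := abs_le.1 hs
    rcases le_total 0 s with hs | hs
    · rw [(lo (show -20 * s - 17 ≤ 0 by linarith)).1]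
      linarith [(all (20 * s - 17)).2.2.1 (by linarith)]
    · rw [(lo (show 20 * s - 17 ≤ 0 by linarith)).1]
      linarith [(all (-20 * s - 17)).2.2.1 (by linarith)]
  · rcases le_abs.1 hs with hs | hs
    · rw [(lo (show -20 * s - 17 ≤ 0 by linarith)).1, (hi (show 1 ≤ 20 * s - 17 by linarith)).1,
        (lo (div_nonpos_of_nonpos_of_nonneg (show -s ≤ 0 by linarith) t0.le)).1,
        (hi ((one_le_div t0).2 (show 2 * τ ≤ s by linarith))).1, mul_sub, mul_div_cancel₀ _ t0.ne']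
      ring
    · rw [(lo (show 20 * s - 17 ≤ 0 by linarith)).1, (hi (show 1 ≤ -20 * s - 17 by linarith)).1,
        (lo (div_nonpos_of_nonpos_of_nonneg (show s ≤ 0 by linarith) t0.le)).1,
        (hi ((one_le_div t0).2 (show 2 * τ ≤ -s by linarith))).1, mul_sub, mul_div_cancel₀ _ t0.ne']
      ring
  · linarith [(all (20 * s - 17)).2.2.2.2.1, (all (-20 * s - 17)).2.2.2.2.1]
  · linarith [(all (20 * s - 17)).2.2.2.2.2.1, (all (-20 * s - 17)).2.2.2.2.2.1]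
  · rw [show 20 * -s = -20 * s by ring, show -20 * -s = 20 * s by ring, add_comm]
  · rw [(lo (show 20 * s - 17 ≤ 0 by linarith)).2.1, (hi (show 1 ≤ -20 * s - 17 by linarith)).2.1]
    norm_num
  · rw [(lo (show -20 * s - 17 ≤ 0 by linarith)).2.1, (hi (show 1 ≤ 20 * s - 17 by linarith)).2.1]
    norm_num
  · rw [hΛ.2]
    nlinarith [(all (20 * s - 17)).2.2.2.2.1, (all (-20 * s - 17)).2.2.2.2.1, (all (20 * s - 17)).1,
      (all (-20 * s - 17)).1]

end Vale.Agent.P134B
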