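import Vale.Agent.P134B.Spec2

/-!
# P134B: the row PX
-/

open MeasureTheory Metric Filter Topology Set
open scoped ContDiff RealInnerProductSpace
open Vale.Agent.P366.Stmt (E)
open Vale.Agent.P366W (Fr adj inner_grad)

noncomputable section

namespace Vale.Agent.P134B

namespace Px

variable {n m : ℕ} {C ε θ r : ℝ}

theorem ex_fr {e : E (m + 1)} (he : ‖e‖ = 1) : ∃ L : E m →ₗᵢ[ℝ] E (m + 1), Fr e L := by
  have : Fact (Module.finrank ℝ (E (m + 1)) = m + 1) := ⟨by simp⟩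
  have h0 : e ≠ 0 := by rintro rfl; simp at he
  let b := OrthonormalBasis.fromOrthogonalSpanSingleton (𝕜 := ℝ) m h0
  refine ⟨(ℝ ∙ e)ᗮ.subtypeₗᵢ.comp b.repr.symm.toLinearIsometry, he, fun y => ?_⟩
  exact Submodule.mem_orthogonal_singleton_iff_inner_right.1 (b.repr.symm y).2

/-- the slopes at two consecutive zeros have opposite signs -/
theorem sign {g g' : ℝ → ℝ} {t : ℝ} (hd : ∀ s, HasDerivAt g (g' s) s) (ht : 0 < t) (h0 : g 0 = 0)
    (h1 : g t = 0) (hn : ∀ s ∈ Ioo 0 t, g s ≠ 0) (hp : 0 < g' 0) : g' t ≤ 0 := by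
  by_contra! h
  have a1 := ((hasDerivAt_iff_tendsto_slope.1 (hd 0)).mono_left (nhdsGT_le_nhdsNE 0)).eventually
    (lt_mem_nhds hp)
  have a2 := ((hasDerivAt_iff_tendsto_slope.1 (hd t)).mono_left (nhdsLT_le_nhdsNE t)).eventually
    (lt_mem_nhds h)
  obtain ⟨a, a3, a4⟩ := (a1.and (Ioo_mem_nhdsGT ht)).exists
  obtain ⟨b, b3, b4⟩ := (a2.and (Ioo_mem_nhdsLT ht)).exists
  rw [slope_def_field, h0, sub_zero, sub_zero] at a3
  rw [slope_def_field, h1, sub_zero] at b3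
  have a5 : 0 < g a := (div_pos_iff_of_pos_right a4.1).1 a3
  have b5 : g b < 0 := by
    by_contra! h2
    exact (div_nonpos_of_nonneg_of_nonpos h2 (sub_nonpos.2 b4.2.le)).not_gt b3
  obtain ⟨s, hs, h3⟩ := isPreconnected_Ioo.intermediate_value b4 a4
    (fun s _ => (hd s).continuousAt.continuousWithinAt) ⟨b5.le, a5.le⟩
  exact hn s hs h3

theorem q_le {u : E n → ℝ} {x : E n} (h0 : u x = 0) (h : EE u x ≤ ε ^ 2) : qq u x ≤ 2 * ε ^ 2 := by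
  rw [EE, ff, h0, div_pow, Real.sq_sqrt two_pos.le] at h
  linarith

theorem lg_le (h0 : 0 < ε) : lg ε ≤ 1 / ε / 64 + 63 := by
  have h1 := Real.log_le_sub_one_of_pos (show 0 < 1 / ε / 64 by positivity)
  have h2 := Real.log_le_sub_one_of_pos (show (0 : ℝ) < 64 by norm_num)
  rw [Real.log_div (by positivity) (by norm_num), one_div, Real.log_inv] at h1
  rw [lg, one_div]
  linarith

theorem gr_mono {u : E (m + 1) → ℝ} {z e : E (m + 1)} {L : E m →ₗᵢ[ℝ] E (m + 1)} {h : E m → ℝ}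
    {θ' : ℝ} (g : Gr u z e L r h θ) (h1 : θ ≤ θ') : Gr u z e L r h θ' :=
  ⟨g.fr, g.sm, g.ze, fun y hy => (g.ti y hy).trans h1⟩

theorem tilt0 {p : E n} {c : ℝ} (h0 : 0 ≤ 1 - ‖p‖ ^ 2) (h1 : 1 - ‖p‖ ^ 2 ≤ c) (hc : c < 1) :
    0 < ‖p‖ ∧ ‖p - ‖p‖⁻¹ • p‖ ≤ c := by
  have n0 : 0 < ‖p‖ := by
    by_contra! h
    nlinarith [norm_nonneg p]
  have n1 : ‖p‖ ≤ 1 := by nlinarith
  refine ⟨n0, ?_⟩
  rw [show p - ‖p‖⁻¹ • p = (‖p‖ - 1) • ‖p‖⁻¹ • p by
    rw [sub_smul, smul_inv_smul₀ n0.ne', one_smul], norm_smul,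
    show ‖‖p‖⁻¹ • p‖ = 1 from norm_smul_inv_norm (norm_pos_iff.1 n0), mul_one, Real.norm_eq_abs, abs_of_nonpos (by linarith)]
  nlinarith

theorem tilt1 {p e : E n} {a c : ℝ} (he : ‖e‖ = 1) (b1 : ‖p - ⟪p, e⟫ • e‖ ≤ a) (a1 : a ≤ 1)
    (sg : ⟪p, e⟫ ≤ 0) (h0 : 0 ≤ 1 - ‖p‖ ^ 2) (h1 : 1 - ‖p‖ ^ 2 ≤ c) : ‖p - -e‖ ≤ 2 * a + c := by
  have b4 : ‖p - ⟪p, e⟫ • e‖ ^ 2 = ‖p‖ ^ 2 - ⟪p, e⟫ ^ 2 := by
    rw [norm_sub_sq_real, real_inner_smul_right, norm_smul, he, mul_one, Real.norm_eq_abs, sq_abs]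
    ring
  have a0 := (norm_nonneg _).trans b1
  have b5 := pow_le_pow_left₀ (norm_nonneg _) b1 2
  have b6 : -1 ≤ ⟪p, e⟫ := by nlinarith [sq_nonneg ‖p - ⟪p, e⟫ • e‖]
  have b7 := norm_add_le (p - ⟪p, e⟫ • e) ((⟪p, e⟫ + 1) • e)
  rw [norm_smul, he, mul_one, Real.norm_of_nonneg (by linarith), add_smul, one_smul,
    ← add_assoc, sub_add_cancel] at b7
  rw [sub_neg_eq_add]
  nlinarith

theorem sign' {u : E n → ℝ} {z e : E n} {t : ℝ} (ok : Ok C u) (t4 : 0 < t) (z0 : u z = 0)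
    (z1 : u (z + t • e) = 0) (ne : ∀ s ∈ Ioo 0 t, u (z + s • e) ≠ 0) (h0 : 0 < pe u e z) :
    pe u e (z + t • e) ≤ 0 := by
  refine sign (g := fun s => ps u (z + s • e)) (g' := fun s => pe u e (z + s • e))
    (fun s => ?_) t4 (by simp [ps, z0]) (by simp [ps, z1]) (fun s hs h => ne s hs ?_) (by simpa)
  · rw [pe, pp, inner_grad]
    simpa using! (ok.smp.differentiable (by simp) _).hasFDerivAt.comp_hasDerivAt s
      (((hasDerivAt_id s).smul_const e).const_add z)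
  · rw [ok.th, h, zero_div, Real.tanh_zero]

theorem num {K R t : ℝ} (e0 : 0 < ε) (R1 : 1 ≤ R) (e5 : ε ≤ θ / 8) (e6 : ε ≤ 1 / 2000)
    (e7 : ε ≤ Real.exp (-max 1 K)) (ht : t ≤ √2 * lg ε + K) : 1 ≤ lg ε ∧ t < 3 * lg ε ∧
    lg ε ≤ R / ε / 64 + 63 ∧ 2000 ≤ R / ε ∧ 1 / ε ≤ R / ε ∧ 2 * ε ^ 2 ≤ θ / 4 := by
  have l1 : max 1 K ≤ lg ε := by
    have := Real.log_le_log e0 e7
    rw [Real.log_exp] at this
    rw [lg]
    linarith
  obtain ⟨l1, l2⟩ := max_le_iff.1 l1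
  have x1 : 2000 ≤ 1 / ε := by rw [le_div_iff₀ e0]; linarith
  have x2 : 1 / ε ≤ R / ε := by gcongr
  have s2 : √2 < 2 := Real.sqrt_lt' two_pos |>.2 (by norm_num)
  exact ⟨l1, by nlinarith, by linarith [lg_le e0], by linarith, x2, by nlinarith⟩

end Px

open Px

/-- row PX -/
theorem px : rPX := by
  intro tl gr nc lay ord m C K δ R δ0 δ1 R1
  obtain ⟨θ₁, θ0, ε₁, p1, lay⟩ := lay m C 32 δ δ0 δ1
  obtain ⟨ε₂, p2, gr⟩ := gr m C
  obtain ⟨ε₃, p3, ord⟩ := ord m C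
  obtain ⟨θ, t0, t1, t2⟩ : ∃ θ > (0 : ℝ), θ ≤ θ₁ ∧ θ ≤ 1 / 10 :=
    ⟨min θ₁ (1 / 10), by positivity, min_le_left _ _, min_le_right _ _⟩
  obtain ⟨ε₄, p4, tl⟩ := tl m C 3 (θ / 8) (by positivity)
  refine ⟨θ / (10 * R), by positivity, min (min (min ε₁ ε₂) (min ε₃ ε₄))
    (min (min (θ / 8) (1 / 2000)) (Real.exp (-max 1 K))), by positivity,
    fun u ε t z ok e0 e1 gd fl nx ht => ?_⟩
  simp only [le_min_iff] at e1
  obtain ⟨⟨⟨e1, e2⟩, e3, e4⟩, ⟨e5, e6⟩, e7⟩ := e1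
  obtain ⟨l1, t3, l3, x1, x2, ee⟩ := num e0 R1 e5 e6 e7 ht
  have x3 : 10 * R / ε = 10 * (R / ε) := mul_div_assoc _ _ _
  have x4 : θ / (10 * R) * ε * (R / ε) = θ / 10 := by field_simp
  have gm : ∀ ρ, ρ ≤ 10 * (R / ε) → Gd u ε z ρ := fun ρ h x hx =>
    gd x (ball_subset_ball (h.trans x3.ge) hx)
  have fm : ∀ ρ, ρ ≤ 10 * (R / ε) → Fl u (θ / (10 * R) * ε) z ρ := fun ρ h x hx =>
    fl x (ball_subset_ball (h.trans x3.ge) hx)
  obtain ⟨n0, n1⟩ := tilt0 (ok.q0 z) ((q_le nx.z0 (gd z (mem_ball_self (by positivity)))).trans ee)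
    (by linarith)
  obtain ⟨z0, t4, z1, ne⟩ := nx
  have zn := tl u ε z ok e0 e4 (gm _ (by linarith)) z0
  have e1' : ‖‖pp u z‖⁻¹ • pp u z‖ = 1 := norm_smul_inv_norm (norm_pos_iff.1 n0)
  have sg := sign' ok t4 z0 z1 ne (by
    rw [pe, real_inner_smul_right, real_inner_self_eq_norm_sq]
    positivity)
  generalize ‖pp u z‖⁻¹ • pp u z = e at *
  obtain ⟨L, hF⟩ := ex_fr e1'
  have nt : ‖z + t • e - z‖ = t := by
    rw [add_sub_cancel_left, norm_smul, e1', mul_one, Real.norm_of_nonneg t4.le]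
  have r0 : 0 < R / ε := by linarith
  have l0 : 0 ≤ θ / (10 * R) * ε := by positivity
  obtain ⟨h₀, a0, g0⟩ := gr u ε 0 (R / ε) (θ / 2) _ z e L ok hF e0 e2 r0 l0
    (gm _ (by rw [abs_zero]; linarith)) (fm _ (by rw [abs_zero]; linarith)) (by simpa using z0)
    (by rw [zero_smul, add_zero]; linarith) (by linarith)
  obtain ⟨h, a1, g1⟩ := gr u ε (-t) (R / ε) (θ / 2) _ z (-e) L ok
    ⟨by rw [norm_neg, e1'], fun y => by rw [inner_neg_left, hF.ort, neg_zero]⟩ e0 e2 r0 l0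
    (gm _ (by rw [abs_neg, abs_of_pos t4]; linarith))
    (fm _ (by rw [abs_neg, abs_of_pos t4]; linarith)) (by simpa using z1) (by
      have b1 := (zn (z + t • e) (by rwa [mem_ball_iff_norm, nt])).t0.trans
        (div_le_self (by positivity) l1)
      have b2 := q_le z1 (gm (R / ε) (by linarith) _ (by rw [mem_ball_iff_norm, nt]; linarith))
      rw [neg_smul_neg]
      linarith [tilt1 e1' b1 (by linarith) sg (ok.q0 _) b2]) (by linarith)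
  have y0 := lay u ε _ z e L h₀ ok e0 e1 (by norm_num) (gr_mono g0 (by linarith))
    (gm _ (by rw [a0, abs_zero]; linarith))
  have y1 := lay u ε _ z (-e) L h ok e0 e1 (by norm_num) (gr_mono g1 (by linarith))
    (gm _ (by rw [a1, abs_neg, abs_of_pos t4]; linarith))
  have y2 : Lay C ε δ u z (-e) L (R / ε) (fun y => - -h y) (32 * lg ε) := by simpa using y1
  refine ⟨e, L, h₀, fun y => -h y, a0, by simp [a1], y0, y2, nc m C u z e L _ h₀ _ ok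
    (convex_ball 0 _).isPreconnected g0.sm.continuous.continuousOn g1.sm.continuous.neg.continuousOn
    (fun y hy => ⟨g0.ze y hy, by simpa [pt] using g1.ze y hy, fun h2 => ?_⟩) 0 (mem_ball_self r0)
    (by simpa [a0, a1] using t4), ord ε δ _ _ _ u z e L h₀ _ e3 l0 (by linarith) y0 y2 a0
    (gm _ (by linarith)) (fm _ (by linarith)) fun s hs => by
      simpa [pt] using ne s (by simpa [a1] using hs)⟩
  have := (abs_le.1 ((abs_real_inner_le_norm _ e).trans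
    (((congrArg _ e1').trans (mul_one _)).trans_le (g0.ti y hy)))).1
  rw [inner_sub_left, hF.ee, show ⟪pp u _, e⟫ = 0 from h2] at this
  linarith

end Vale.Agent.P134B
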