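import Vale.Agent.P134B.Spec

/-!
# P134B, row REG: the boundary of the region of a layer
-/

open MeasureTheory Metric Filter Topology Set
open scoped ContDiff RealInnerProductSpace
open Vale.Agent.P366.Stmt (E)
open Vale.Agent.P366W (Fr adj smooth_gradient)

noncomputable section

namespace Vale.Agent.P134B

theorem reg : rREG := by
  intro sym ln col m C ε δ r T c u z e L h H c0 c1
  have fr := H.gr.fr
  have ch : Continuous h := H.gr.sm.continuous
  have cp : Continuous (pp u) := (smooth_gradient H.ok.smp).continuous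
  have cY : Continuous fun x => adj L (x - z) := by fun_prop
  set G : E (m + 1) × ℝ → ℝ := fun p => pe u e (pt z e L (adj L (p.1 - z))
    (h (adj L (p.1 - z)) + p.2 • (⟪e, p.1 - z⟫ - h (adj L (p.1 - z))))) with hG
  have cG : Continuous G := by
    simp only [hG, pe, pt]
    fun_prop
  have mem : ∀ x, x ∈ Wr u z e L r h T c ↔
      x ∈ Wn z e L r h T ∧ ∀ a ∈ Icc (0 : ℝ) 1, c < G (x, a) := fun x => by
    simp only [Wr, mem_ofPred_eq, ← segment_eq_uIcc, segment_eq_image', forall_mem_image, hG]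
  have oW : IsOpen (Wn z e L r h T) :=
    (isOpen_lt cY.norm continuous_const).inter (isOpen_lt (f := fun x =>
      |⟪e, x - z⟫ - h (adj L (x - z))|) (by fun_prop) continuous_const)
  refine ⟨oW, isOpen_iff_mem_nhds.2 fun x hx => ?_, fun x hx hn => ?_⟩
  · rw [mem] at hx
    have := isCompact_Icc.eventually_forall_of_forall_eventually (x₀ := x)
      (P := fun x a => c < G (x, a)) fun a ha =>
        continuous_const.continuousAt.eventually_lt cG.continuousAt (hx.2 a ha)
    filter_upwards [this, oW.mem_nhds hx.1] with x' h1 h2 using (mem x').2 ⟨h2, h1⟩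
  obtain ⟨h1, h2, -⟩ := ln m C ε δ r T u z e L h H _ (mem_ball_zero_iff.2 hx.1)
  set y := adj L (x - z) with hy
  set t := ⟪e, x - z⟫ - h y with ht
  have hx' : pt z e L y (h y + t) = x := by
    rw [pt, ht, add_sub_cancel, add_assoc, fr.dec, add_sub_cancel]
  have hT : |t| < T := hx.2
  have nI := mt (h2 c t).2 (hx'.symm ▸ hn)
  have key : pe u e (pt z e L y (h y + t)) = c ∨
      ∃ t' ∈ uIcc 0 t, pe u e (pt z e L y (h y + t')) < c := by
    rcases le_total 0 t with t0 | t0
    · refine ((col _ _ _ c _ _ _ _ _ _ h1 c0 c1).2.2.2.1 t t0 (abs_lt.1 hT).2 nI).imp_right ?_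
      rintro ⟨t', h3, h4⟩
      exact ⟨t', Icc_subset_uIcc h3, h4⟩
    · refine ((col _ _ _ c _ _ _ _ _ _ (sym.2 _ _ _ _ _ _ _ _ _ h1) c0 c1).2.2.2.1 (-t) (by linarith)
        (by linarith [(abs_lt.1 hT).1]) fun hI => nI ⟨hT, fun t' h3 => ?_⟩).imp (by simp) ?_
      · rw [uIcc_of_ge t0] at h3
        simpa using hI.2 (-t') (Icc_subset_uIcc ⟨by linarith [h3.2], by linarith [h3.1]⟩)
      · rintro ⟨t', h3, h4⟩
        exact ⟨-t', Icc_subset_uIcc' ⟨by linarith [h3.2], by linarith [h3.1]⟩, h4⟩
  rw [hx'] at key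
  refine key.imp_right ?_
  rintro ⟨t', h3, h4⟩
  rw [← segment_eq_uIcc, segment_eq_image'] at h3
  obtain ⟨a, ha, rfl⟩ := h3
  have h5 : G (x, a) < c := by simpa only [zero_add, sub_zero] using h4
  filter_upwards [(cG.comp (Continuous.prodMk_left a)).continuousAt.eventually_lt
    continuous_const.continuousAt h5] with x' h6 h7
  exact h6.not_gt (((mem x').1 h7).2 a ha)

end Vale.Agent.P134B
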