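import Vale.Agent.P134B.All
import Vale.Agent.P134L.Bern6

/-!
# P134B: the decay of the deficit of stable solutions in dimension seven
-/

namespace Vale.Agent.P134B

/-- **blocks (Ia) and (Ib)** -/
theorem rate7 : P134Y.RATE 7 := rate (by norm_num) le_rfl P134L.bern6

end Vale.Agent.P134B
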