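import Vale.Agent.P134B.Spec

/-!
# P134B: row SEG (along a segment on which the phase stays bounded)
-/

open Metric Filter Topology Set
open scoped ContDiff RealInnerProductSpace
open Vale.Agent.P366.Stmt (E)
open Vale.Agent.P366W (smooth_gradient inner_grad)

noncomputable section

namespace Vale.Agent.P134B

variable {n : ℕ} {C : ℝ} {u : E n → ℝ}

namespace Seg

theorem line (x v : E n) (t : ℝ) : HasDerivAt (fun t : ℝ => x + t • v) v t := by
  simpa using ((hasDerivAt_id t).smul_const v).const_add x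

theorem dpp (h : Ok C u) (x v : E n) (t : ℝ) :
    HasDerivAt (fun t : ℝ => pp u (x + t • v)) (SS u (x + t • v) v) t :=
  ((smooth_gradient h.smp).differentiable (by simp) _).hasFDerivAt.comp_hasDerivAt t (line x v t)

theorem dps (h : Ok C u) (x v : E n) (t : ℝ) :
    HasDerivAt (fun t : ℝ => ps u (x + t • v)) (pe u v (x + t • v)) t := by
  rw [pe, pp, inner_grad]
  exact (h.smp.differentiable (by simp) _).hasFDerivAt.comp_hasDerivAt t (line x v t)

/-- bounded phase: the energy controls `qq` -/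
theorem qle (h : Ok C u) {ε B : ℝ} {y : E n} (hE : EE u y ≤ ε ^ 2) (hB : |ps u y| ≤ B) :
    qq u y ≤ (√2 * Real.exp (√2 * B) * ε) ^ 2 := by
  have h1 : 1 ≤ √2 * Real.exp (√2 * B) * ff u y := by
    refine le_trans ?_ (mul_le_mul_of_nonneg_left (h.flo y) (by positivity))
    rw [mul_div_assoc', mul_assoc, mul_div_cancel_left₀ _ (by positivity), ← Real.exp_add]
    exact Real.one_le_exp (by nlinarith [Real.sqrt_nonneg 2])
  calc qq u y ≤ (√2 * Real.exp (√2 * B) * ff u y) ^ 2 * qq u y :=
        le_mul_of_one_le_left (h.q0 y) (one_le_pow₀ h1)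
    _ = (√2 * Real.exp (√2 * B)) ^ 2 * EE u y := by rw [EE]; ring
    _ ≤ _ := by rw [mul_pow _ ε]; gcongr

end Seg

open Seg in
theorem seg : SEG := by
  intro n C A
  set k := √2 * Real.exp (√2 * (A + 1))
  have k0 : 0 ≤ k := by positivity
  have c0 : 0 ≤ |C| * k := by positivity
  set K := 1 + |C| * k + k ^ 2 with hK
  refine ⟨K, by nlinarith, fun u ε x v s h e0 hv s0 hE hA => ?_⟩
  have Ke : 0 ≤ K * ε := by positivity
  have key : ∀ b ≤ s, (∀ t ∈ Icc 0 b, |ps u (x + t • v)| ≤ A + 1) → ∀ t ∈ Icc 0 b,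
      ‖pp u (x + t • v) - pp u x‖ ≤ K * ε * t ∧ qq u (x + t • v) ≤ K * ε ^ 2 := by
    intro b hb hψ t ht
    have q : ∀ t ∈ Icc 0 b, qq u (x + t • v) ≤ (k * ε) ^ 2 := fun t ht =>
      qle h (hE t ⟨ht.1, ht.2.trans hb⟩) (hψ t ht)
    refine ⟨?_, (q t ht).trans (by rw [mul_pow]; gcongr; linarith)⟩
    simpa using norm_image_sub_le_of_norm_deriv_le_segment' (C := K * ε)
      (fun t _ => (dpp h x v t).hasDerivWithinAt) (fun t ht => calc
        ‖SS u (x + t • v) v‖ ≤ ‖SS u (x + t • v)‖ := (SS u _).unit_le_opNorm v hv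
        _ ≤ |C| * (k * ε) := (h.S0 _).trans (mul_le_mul (le_abs_self C)
          (Real.sqrt_le_iff.2 ⟨by positivity, q t (Ico_subset_Icc_self ht)⟩) (Real.sqrt_nonneg _)
          (abs_nonneg C))
        _ ≤ K * ε := by rw [← mul_assoc]; gcongr; nlinarith) t ht
  have cψ : Continuous fun t : ℝ => |ps u (x + t • v)| :=
    (continuous_iff_continuousAt.2 fun t => (dps h x v t).continuousAt).abs
  have n1 := mul_nonneg (abs_nonneg (pe u v x)) s0
  have n2 := mul_nonneg Ke (sq_nonneg s)
  refine key s le_rfl (IsClosed.Icc_subset_of_forall_mem_nhdsGT_of_Icc_subset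
    (s := {t : ℝ | |ps u (x + t • v)| ≤ A + 1})
    ((isClosed_le cψ continuous_const).inter isClosed_Icc) (by simp; linarith) fun b hb hψ => ?_)
  have h1 := norm_image_sub_le_of_norm_deriv_le_segment' (C := |pe u v x| + K * ε * s)
    (fun t _ => (dps h x v t).hasDerivWithinAt) (fun t ht => by
      have a1 := (key b hb.2.le hψ t (Ico_subset_Icc_self ht)).1
      have a2 : |pe u v (x + t • v) - pe u v x| ≤ K * ε * s := by
        rw [pe, pe, ← inner_sub_left]
        exact (abs_real_inner_le_norm _ _).trans ((mul_le_of_le_one_right (norm_nonneg _) hv).trans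
          (a1.trans (mul_le_mul_of_nonneg_left (ht.2.trans hb.2).le Ke)))
      rw [Real.norm_eq_abs]
      linarith [abs_sub_abs_le_abs_sub (pe u v (x + t • v)) (pe u v x)]) b ⟨hb.1, le_rfl⟩
  simp only [zero_smul, add_zero, sub_zero, Real.norm_eq_abs] at h1
  have h2 : (|pe u v x| + K * ε * s) * b ≤ (|pe u v x| + K * ε * s) * s :=
    mul_le_mul_of_nonneg_left hb.2.le (by positivity)
  have h3 : |ps u (x + b • v)| < A + 1 := by
    linarith [abs_sub_abs_le_abs_sub (ps u (x + b • v)) (ps u x)]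
  exact mem_nhdsWithin_of_mem_nhds ((cψ.tendsto b).eventually (ge_mem_nhds h3))

end Vale.Agent.P134B
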