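import Vale.Agent.P134B.Spec2

/-!
# P134B, row ST1: the identity for the stress tensor
-/

open MeasureTheory Metric Filter Topology Set
open scoped ContDiff RealInnerProductSpace
open Vale.Agent.P366.Stmt (E)
open Vale.Agent.P366W (Fr adj dvg smooth_gradient contDiff_gradient inner_grad inner_adj dvg_smul
  dvg_congr dvg_eq integral_dvg_zero trc)

noncomputable section

namespace Vale.Agent.P134B

namespace St1

theorem ev0 {X F : Type} [TopologicalSpace X] [T2Space X] [Zero F] {K : Set X} (hK : IsCompact K)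
    {f : X → F} (h0 : ∀ x ∉ K, f x = 0) {x : X} (hx : x ∉ K) : f =ᶠ[𝓝 x] fun _ => 0 := by
  filter_upwards [hK.isClosed.isOpen_compl.mem_nhds hx] with y hy using h0 y hy

theorem glue {X F : Type} [NormedAddCommGroup X] [MeasurableSpace X] [OpensMeasurableSpace X]
    {μ : Measure X} [IsFiniteMeasureOnCompacts μ] [NormedAddCommGroup F] {K : Set X}
    (hK : IsCompact K) {f : X → F} (h0 : ∀ x ∉ K, f x = 0) (h1 : ∀ x ∈ K, ContinuousAt f x) :
    Integrable f μ := by
  refine Continuous.integrable_of_hasCompactSupport (continuous_iff_continuousAt.2 fun x => ?_)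
    (HasCompactSupport.intro hK h0)
  by_cases hx : x ∈ K
  · exact h1 x hx
  · exact continuousAt_const.congr (ev0 hK h0 hx).symm

variable {m : ℕ} {z e : E (m + 1)} {L : E m →ₗᵢ[ℝ] E (m + 1)} {h : E m → ℝ}

/-- Fubini in the coordinates of the layer -/
theorem fub (fr : Fr e L) (z : E (m + 1)) (ch : Continuous h) {g : E (m + 1) → ℝ}
    (hg : Integrable g) {G : E m → ℝ} (hG : ∀ y, G y = ∫ t : ℝ, g (pt z e L y (h y + t))) :
    Integrable G ∧ ∫ y, G y = ∫ x, g x := by
  have mp : MeasurePreserving (fr.sh z ch) (volume.prod volume) volume := fr.mp z ch.measurable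
  have hi := (mp.integrable_comp_emb (fr.sh z ch).measurableEmbedding).2 hg
  rw [funext hG, ← mp.integral_comp (fr.sh z ch).measurableEmbedding g]
  exact ⟨hi.integral_prod_left, (integral_prod _ hi).symm⟩

theorem a1 (fr : Fr e L) (y : E m) (s : ℝ) : adj L (pt z e L y s - z) = y := by
  rw [pt, add_assoc, add_sub_cancel_left, fr.adj_pt]

theorem a2 (fr : Fr e L) (y : E m) (s : ℝ) : ⟪e, pt z e L y s - z⟫ = s := by
  rw [pt, add_assoc, add_sub_cancel_left, fr.e_pt]

theorem kp0 {T t : ℝ} (T0 : 0 < T) (ht : 3 / 4 * T ≤ |t|) : kp (t / T) = 0 := by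
  refine kp.zero_of_le_dist ?_
  rw [dist_zero_right, Real.norm_eq_abs, abs_div, abs_of_pos T0, le_div_iff₀ T0]
  exact ht

theorem cut_sm (hh : ContDiff ℝ ∞ h) (T : ℝ) : ContDiff ℝ ∞ (cut z e L h T) := by
  have h1 : ContDiff ℝ ∞ fun x : E (m + 1) => x - z := by fun_prop
  exact kp.contDiff.comp (((contDiff_const.inner ℝ h1).sub
    (hh.comp ((adj L).contDiff.comp h1))).div_const T)

theorem cut0 (ch : Continuous h) {T : ℝ} (T0 : 0 < T) {x : E (m + 1)}
    (hx : 3 / 4 * T < |⟪e, x - z⟫ - h (adj L (x - z))|) :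
    cut z e L h T x = 0 ∧ gradient (cut z e L h T) x = 0 := by
  have c : Continuous fun x => |⟪e, x - z⟫ - h (adj L (x - z))| := by fun_prop
  have : cut z e L h T =ᶠ[𝓝 x] fun _ => 0 := by
    filter_upwards [continuous_const.continuousAt.eventually_lt c.continuousAt hx] with y hy
      using kp0 T0 hy.le
  exact ⟨this.eq_of_nhds, by rw [this.gradient_eq]; simp⟩

/-- the cut-off in the slope is smooth in the window -/
theorem loc {X : Type} [NormedAddCommGroup X] [NormedSpace ℝ X] {W : Set X} (oW : IsOpen W)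
    {s : X → ℝ} (hs : ContDiff ℝ 1 s) {B : ℝ} {χ χ' : ℝ → ℝ} (H : Chi B χ χ') {x : X}
    (hx : x ∉ W → s x = -(19 / 20) ∨ ∀ᶠ y in 𝓝 x, y ∉ W) :
    ContDiffAt ℝ 1 (W.indicator fun y => χ (s y)) x ∧
    ContinuousAt (W.indicator fun y => χ' (s y)) x ∧
    fderiv ℝ (W.indicator fun y => χ (s y)) x =
      W.indicator (fun y => χ' (s y)) x • fderiv ℝ s x := by
  by_cases hW : x ∈ W
  · have c1 : ContDiff ℝ 1 χ := contDiff_one_iff_deriv.2 ⟨fun t => (H.dv t).differentiableAt, by
      rw [show deriv χ = χ' from funext fun t => (H.dv t).deriv]; exact H.ct⟩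
    have ev : ∀ f : X → ℝ, W.indicator f =ᶠ[𝓝 x] f := fun f => by
      filter_upwards [oW.mem_nhds hW] with y hy using indicator_of_mem hy f
    refine ⟨(c1.comp hs).contDiffAt.congr_of_eventuallyEq (ev _),
      (H.ct.comp hs.continuous).continuousAt.congr (ev _).symm, ?_⟩
    rw [(ev _).fderiv_eq, indicator_of_mem hW]
    exact ((H.dv (s x)).comp_hasFDerivAt x (hs.differentiable one_ne_zero x).hasFDerivAt).fderiv
  · have ev : ∀ f : ℝ → ℝ, (∀ t, t < -(9 / 10) → f t = 0) →
        (W.indicator fun y => f (s y)) =ᶠ[𝓝 x] fun _ => 0 := fun f hf => by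
      rcases hx hW with h1 | h1
      · filter_upwards [hs.continuous.continuousAt.eventually_lt continuous_const.continuousAt
          (show s x < -(9 / 10) by rw [h1]; norm_num)] with y hy
        exact indicator_apply_eq_zero.2 fun _ => hf _ hy
      · filter_upwards [h1] with y hy using indicator_of_notMem hy _
    have e1 := ev χ fun t ht => H.lo t ht.le
    have e2 := ev χ' fun t ht => (H.dv t).unique ((hasDerivAt_const t (0 : ℝ)).congr_of_eventuallyEq
      (by filter_upwards [gt_mem_nhds ht] with t' ht' using H.lo t' ht'.le))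
    refine ⟨contDiffAt_const.congr_of_eventuallyEq e1, continuousAt_const.congr e2.symm, ?_⟩
    rw [e1.fderiv_eq, indicator_of_notMem hW]
    simp

end St1

open St1 in
theorem st1 : rST1 := by
  intro divt reg m C B
  refine ⟨0, le_rfl, fun ε δ r T u z e L h χ χ' H Hc Ψ HΨ => ?_⟩
  have fr := H.gr.fr
  have ch : Continuous h := H.gr.sm.continuous
  have T0 : 0 < T := zero_lt_one.trans_le H.T1
  obtain ⟨tC, tD⟩ := divt _ C u e H.ok
  obtain ⟨-, oW, bd⟩ := reg m C ε δ r T (-(19 / 20)) u z e L h H le_rfl (by norm_num)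
  have sp : ContDiff ℝ ∞ (pp u) := smooth_gradient H.ok.smp
  have ss : ContDiff ℝ 1 (pe u e) := (sp.of_le (by simp)).inner ℝ contDiff_const
  have cS : Continuous (SS u) := sp.continuous_fderiv (by simp)
  have sκ := cut_sm (z := z) (e := e) (L := L) H.gr.sm T
  have cκ := sκ.continuous
  have cκ' := (smooth_gradient sκ).continuous
  have cΨ := HΨ.c1.continuous
  have cΨ' : Continuous (gradient Ψ) :=
    (contDiff_gradient (k := 0) (by simpa using HΨ.c1)).continuous
  have cT := tC.continuous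
  have sY : ContDiff ℝ 1 fun x => adj L (x - z) := (adj L).contDiff.comp (by fun_prop)
  have lc := fun x hx => loc oW ss Hc (bd x hx)
  unfold Jc F1 F2
  set W := Wr u z e L r h T (-(19 / 20))
  set κ := cut z e L h T
  set a := W.indicator fun y => χ (pe u e y) with ha
  set a' := W.indicator fun y => χ' (pe u e y) with ha'
  have i1 : W.indicator (fun x => (κ x * χ (pe u e x)) • adj L (Te u e x)) =
      fun x => (κ x * a x) • adj L (Te u e x) := by
    funext x; by_cases hx : x ∈ W <;> simp [ha, hx]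
  have i2 : W.indicator (fun x => χ (pe u e x) * ⟪gradient κ x, Te u e x⟫) =
      fun x => a x * ⟪gradient κ x, Te u e x⟫ := by
    funext x; by_cases hx : x ∈ W <;> simp [ha, hx]
  have i3 : W.indicator (fun x => κ x * χ' (pe u e x) * ⟪SS u x e, Te u e x⟫) =
      fun x => κ x * a' x * ⟪SS u x e, Te u e x⟫ := by
    funext x; by_cases hx : x ∈ W <;> simp [ha', hx]
  rw [i1, i2, i3]
  set K := fr.sh z ch '' (tsupport Ψ ×ˢ closedBall (0 : ℝ) (3 / 4 * T)) with hK
  have cK : IsCompact K :=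
    (HΨ.cs.isCompact.prod (isCompact_closedBall _ _)).image (fr.sh z ch).continuous
  have mK : ∀ x, x ∈ K ↔ adj L (x - z) ∈ tsupport Ψ ∧
      |⟪e, x - z⟫ - h (adj L (x - z))| ≤ 3 / 4 * T := fun x => by
    rw [hK, Homeomorph.image_eq_preimage_symm, mem_preimage, mem_prod, mem_closedBall_zero_iff]
    rfl
  have inK : ∀ x ∈ K, x ∈ Wn z e L r h T := fun x hx =>
    ⟨mem_ball_zero_iff.1 (HΨ.su ((mK x).1 hx).1), ((mK x).1 hx).2.trans_lt (by linarith)⟩
  have g0 : ∀ y ∉ tsupport Ψ, Ψ y = 0 ∧ gradient Ψ y = 0 := fun y hy =>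
    ⟨image_eq_zero_of_notMem_tsupport hy, by
      rw [gradient, image_eq_zero_of_notMem_tsupport fun h => hy (tsupport_fderiv_subset ℝ h),
        map_zero]⟩
  have out : ∀ x ∉ K, (Ψ (adj L (x - z)) = 0 ∧ gradient Ψ (adj L (x - z)) = 0) ∨
      (κ x = 0 ∧ gradient κ x = 0) := fun x hx => by
    rw [mK, not_and_or, not_le] at hx
    exact hx.imp (g0 _) (cut0 ch T0)
  set g1 : E (m + 1) → ℝ := fun x =>
    ⟪gradient Ψ (adj L (x - z)), (κ x * a x) • adj L (Te u e x)⟫ with hg1
  set g2 : E (m + 1) → ℝ := fun x =>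
    Ψ (adj L (x - z)) * (a x * ⟪gradient κ x, Te u e x⟫) with hg2
  set g3 : E (m + 1) → ℝ := fun x =>
    Ψ (adj L (x - z)) * (κ x * a' x * ⟪SS u x e, Te u e x⟫) with hg3
  have z0 : ∀ x ∉ K, g1 x = 0 ∧ g2 x = 0 ∧ g3 x = 0 := fun x hx => by
    rcases out x hx with h1 | h1 <;> simp only [hg1, hg2, hg3, h1.1, h1.2] <;> simp
  have I1 : Integrable g1 := glue cK (fun x hx => (z0 x hx).1) fun x hx => by
    have := (lc x (inK x hx)).1.continuousAt
    rw [hg1]; fun_prop
  have I2 : Integrable g2 := glue cK (fun x hx => (z0 x hx).2.1) fun x hx => by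
    have := (lc x (inK x hx)).1.continuousAt
    rw [hg2]; fun_prop
  have I3 : Integrable g3 := glue cK (fun x hx => (z0 x hx).2.2) fun x hx => by
    have := (lc x (inK x hx)).2.1
    rw [hg3]; fun_prop
  obtain ⟨J1, E1⟩ := fub fr z ch I1 (G := fun y => ⟪gradient Ψ y, ∫ t : ℝ,
      (fun x => (κ x * a x) • adj L (Te u e x)) (pt z e L y (h y + t))⟫) fun y => by
    simp only [hg1, a1 fr]
    by_cases hy : y ∈ tsupport Ψ
    · refine (integral_inner (glue (isCompact_closedBall (0 : ℝ) (3 / 4 * T)) (fun t ht => ?_)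
        fun t ht => ?_) _).symm
      · rw [mem_closedBall_zero_iff, not_le] at ht
        rw [show κ (pt z e L y (h y + t)) = 0 from
          (cut0 ch T0 (by rwa [a1 fr, a2 fr, add_sub_cancel_left])).1, zero_mul, zero_smul]
      · have cγ : Continuous fun t => pt z e L y (h y + t) := by unfold pt; fun_prop
        have := (lc _ (inK (pt z e L y (h y + t)) ((mK _).2 (by
          rw [a1 fr, a2 fr, add_sub_cancel_left]
          exact ⟨hy, mem_closedBall_zero_iff.1 ht⟩)))).1.continuousAt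
        exact ContinuousAt.comp (g := fun x => (κ x * a x) • adj L (Te u e x)) (by fun_prop)
          cγ.continuousAt
    · simp [(g0 y hy).2]
  obtain ⟨J2, E2⟩ := fub fr z ch I2 (G := fun y => Ψ y * ∫ t : ℝ,
      (fun x => a x * ⟪gradient κ x, Te u e x⟫) (pt z e L y (h y + t))) fun y => by
    simp only [hg2, a1 fr, integral_const_mul]
  obtain ⟨J3, E3⟩ := fub fr z ch I3 (G := fun y => Ψ y * ∫ t : ℝ,
      (fun x => κ x * a' x * ⟪SS u x e, Te u e x⟫) (pt z e L y (h y + t))) fun y => by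
    simp only [hg3, a1 fr, integral_const_mul]
  refine ⟨J1, J2, J3, ?_⟩
  rw [E1, E2, E3, ← integral_add I1 I2, ← integral_add (f := fun x => g1 x + g2 x)
    (I1.add I2) I3]
  set φ : E (m + 1) → ℝ := fun x => Ψ (adj L (x - z)) * (κ x * a x) with hφ
  have φ0 : ∀ x ∉ K, φ x = 0 := fun x hx => by
    rcases out x hx with h1 | h1 <;> simp only [hφ, h1.1] <;> simp
  have φ1 : ContDiff ℝ 1 φ := contDiff_iff_contDiffAt.2 fun x => by
    by_cases hx : x ∈ K
    · exact (HΨ.c1.comp sY).contDiffAt.mul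
        ((sκ.of_le (by simp)).contDiffAt.mul (lc x (inK x hx)).1)
    · exact contDiffAt_const.congr_of_eventuallyEq (ev0 cK φ0 hx)
  rw [← integral_dvg_zero (Y := fun x => φ x • Te u e x) (φ1.smul tC)
    (HasCompactSupport.intro cK fun x hx => by rw [φ0 x hx, zero_smul])]
  refine integral_congr_ae (Eventually.of_forall fun x => ?_)
  change g1 x + g2 x + g3 x = _
  rw [dvg_smul (φ1.differentiable one_ne_zero x) (tC.differentiable one_ne_zero x), tD, mul_zero,
    zero_add]
  by_cases hx : x ∈ K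
  · obtain ⟨l1, -, l3⟩ := lc x (inK x hx)
    have d0 : HasFDerivAt (fun x => adj L (x - z)) (adj L) x := by
      simpa only [map_sub] using (adj L).hasFDerivAt.sub_const (adj L z)
    have d1 := (HΨ.c1.differentiable one_ne_zero (adj L (x - z))).hasFDerivAt.comp x d0
    have d2 := d1.mul ((sκ.differentiable (by simp) x).hasFDerivAt.mul
      (l1.differentiableAt one_ne_zero).hasFDerivAt)
    rw [hφ]
    erw [d2.fderiv]
    rw [l3]
    simp only [hg1, hg2, hg3, inner_smul_right, inner_grad, ← H.ok.gp]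
    simp
    ring
  · rw [(ev0 cK φ0 hx).fderiv_eq, (z0 x hx).1, (z0 x hx).2.1, (z0 x hx).2.2]
    simp

end Vale.Agent.P134B
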