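import Vale.Agent.P134B.Spec2

/-!
# P134B: the horizontal flux of a column
-/

open MeasureTheory Metric Filter Topology Set
open scoped ContDiff RealInnerProductSpace
open Vale.Agent.P366.Stmt (E)
open Vale.Agent.P366W (Fr adj dvg trc)

noncomputable section

namespace Vale.Agent.P134B

theorem st2_chi {B : ℝ} {χ χ' : ℝ → ℝ} (h : Chi B χ χ') (s : ℝ) : 0 ≤ χ s ∧ χ s ≤ 1 := by
  have mo : Monotone χ := monotone_of_deriv_nonneg (fun s => (h.dv s).differentiableAt)
    fun s => by rw [(h.dv s).deriv]; exact h.nn s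
  exact ⟨(h.lo _ (min_le_right s _)).symm.trans_le (mo (min_le_left _ _)),
    (mo (le_max_left _ _)).trans_eq (h.hi _ (le_max_right s _))⟩

theorem st2_core {n m : ℕ} {w g : ℝ → ℝ} {P : ℝ → E n} (A : E n →L[ℝ] E m) (hA : ∀ x, ‖A x‖ ≤ ‖x‖)
    {I : Set ℝ} {T a : ℝ} (hI : MeasurableSet I) (hT : I ⊆ Icc (-T) T) (cw : Continuous w)
    (cg : Continuous g) (cP : Continuous P) (hw : ∀ t, |w t| ≤ g t) {p : E n} (p0 : p ≠ 0)
    (p1 : ‖p‖ ≤ 1) (a0 : 0 ≤ a) (a1 : a ≤ 1) :
    ‖(∫ t in I, w t • A (P t)) + a • (-‖p‖⁻¹) • A p‖ ≤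
      |(∫ t in I, w t) - a| + (∫ t in I, g t * ‖P t - p‖) + (1 - ‖p‖) := by
  have io : ∀ {F : Type} [NormedAddCommGroup F] {φ : ℝ → F}, Continuous φ → IntegrableOn φ I :=
    fun h => (h.continuousOn.integrableOn_compact isCompact_Icc).mono_set hT
  have e1 : ∫ t in I, w t • A (P t) = (∫ t in I, w t) • A p + ∫ t in I, w t • A (P t - p) := by
    rw [← integral_smul_const, ← integral_add (io (by fun_prop)) (io (by fun_prop))]
    simp only [map_sub, smul_sub, add_sub_cancel]
  have n0 := norm_pos_iff.2 p0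
  have e2 : (∫ t in I, w t) • A p + (∫ t in I, w t • A (P t - p)) + a • (-‖p‖⁻¹) • A p
      = ((∫ t in I, w t) - a) • A p + (∫ t in I, w t • A (P t - p))
        + (-(a * (1 - ‖p‖) * ‖p‖⁻¹)) • A p := by
    have : -(a * (1 - ‖p‖) * ‖p‖⁻¹) = a + a * -‖p‖⁻¹ := by field_simp; ring
    rw [this, smul_smul, sub_smul, add_smul]
    abel
  rw [e1, e2]
  refine norm_add₃_le.trans (add_le_add (add_le_add ?_ ?_) ?_)
  · rw [norm_smul, Real.norm_eq_abs]
    exact mul_le_of_le_one_right (abs_nonneg _) ((hA p).trans p1)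
  · refine (norm_integral_le_integral_norm _).trans (setIntegral_mono_on (io (by fun_prop))
      (io (by fun_prop)) hI fun t _ => ?_)
    rw [norm_smul, Real.norm_eq_abs]
    exact mul_le_mul (hw t) (hA _) (norm_nonneg _) ((abs_nonneg _).trans (hw t))
  · have h1 := sub_nonneg.2 p1
    rw [norm_smul, norm_neg, Real.norm_of_nonneg (by positivity)]
    refine (mul_le_mul_of_nonneg_left (hA p) (by positivity)).trans ?_
    rw [inv_mul_cancel_right₀ n0.ne']
    exact mul_le_of_le_one_left h1 a1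

theorem st2 : rST2 := by
  intro hLN hGD hCS hCJ m C B
  by_cases hC : 1 ≤ C
  swap
  · exact ⟨0, le_rfl, fun _ _ _ _ _ _ _ _ _ _ _ hL => absurd hL.ok.C1 hC⟩
  obtain ⟨K1, H1⟩ := hCS
  obtain ⟨K2, H2⟩ := hCJ (m + 1) C hC
  refine ⟨|K1| + |K2| + 2, by positivity, fun ε δ r T u z e L h χ χ' hL hχ y hy => ?_⟩
  obtain ⟨ln, hW, hcut, hP⟩ := hLN m C ε δ r T u z e L h hL y hy
  obtain ⟨hm, -, -, -, -, h1⟩ := H1 ε δ T (-(19 / 20)) _ _ _ _ _ _ ln le_rfl (by norm_num)
  have h1 := h1 B χ χ' hχ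
  have h2 := H2 ε δ T _ _ _ _ _ _ _ _ ln hP
  have hN := (hGD m C δ r u z e L h hL.ok hL.gr (by linarith [hL.d1]) y hy).2.1
  have fr := hL.gr.fr
  have ti := hL.gr.ti y hy
  have q0 : qq u (pt z e L y (h y)) ≤ 2 * ε ^ 2 := by
    have a := hL.gd y hy 0 (by rw [abs_zero]; linarith [hL.T1])
    rw [add_zero, EE, ff, hL.gr.ze y hy, div_pow, Real.sq_sqrt zero_le_two] at a
    linarith
  have hJ : Jc u z e L r h T χ y = ∫ t in Iv (fun t => pe u e (pt z e L y (h y + t))) T (-(19 / 20)),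
      (kp (t / T) * χ (pe u e (pt z e L y (h y + t))) * (ff u (pt z e L y (h y + t)) ^ 2 *
        pe u e (pt z e L y (h y + t)))) • adj L (pp u (pt z e L y (h y + t))) := by
    rw [Jc, ← integral_indicator hm]
    refine integral_congr_ae (Eventually.of_forall fun t => ?_)
    by_cases ht : pt z e L y (h y + t) ∈ Wr u z e L r h T (-(19 / 20))
    · simp only [indicator_of_mem ht, indicator_of_mem ((hW _ t).1 ht), hcut, Te, map_smul,
        map_sub, fr.adj_e, smul_zero, sub_zero, smul_smul]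
    · simp only [indicator_of_notMem ht, indicator_of_notMem (mt (hW _ t).2 ht)]
  simp only [add_zero] at h2
  have cP : Continuous fun t => pp u (pt z e L y (h y + t)) :=
    continuous_iff_continuousAt.2 fun t => (hP t).1.continuousAt
  have cs : Continuous fun t => pe u e (pt z e L y (h y + t)) :=
    continuous_iff_continuousAt.2 fun t => (ln.ds t).continuousAt
  have cu : Continuous fun t => u (pt z e L y (h y + t)) :=
    continuous_iff_continuousAt.2 fun t => (ln.du t).continuousAt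
  have cf : Continuous fun t => ff u (pt z e L y (h y + t)) := by
    exact (continuous_const.sub (cu.pow 2)).div_const _
  have cχ : Continuous χ := continuous_iff_continuousAt.2 fun t => (hχ.dv t).continuousAt
  have ck : Continuous fun t : ℝ => kp (t / T) := kp.continuous.comp (by fun_prop)
  have s1 : ∀ t, |pe u e (pt z e L y (h y + t))| ≤ 1 := fun t =>
    abs_le_one_iff_mul_self_le_one.2 (by nlinarith [ln.sq t, ln.q0 t])
  have p1 : ‖pp u (pt z e L y (h y))‖ ≤ 1 := by simpa using (hP 0).2.1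
  have p0 : pp u (pt z e L y (h y)) ≠ 0 := fun h0 => by
    rw [h0, zero_sub, norm_neg, fr.one] at ti
    linarith [hL.d1]
  have s2 : √2 ≤ 3 / 2 := Real.sqrt_le_iff.2 ⟨by norm_num, by norm_num⟩
  rw [hJ, hN]
  refine (st2_core (adj L) fr.norm_adj hm (T := T) (fun t ht => abs_le.1 ht.1.le)
    ((ck.mul (cχ.comp cs)).mul ((cf.pow 2).mul cs)) (cf.pow 2) cP (fun t => ?_) p0 p1
    (by unfold sg; positivity) (by unfold sg; linarith)).trans ?_
  · obtain ⟨c0, c1⟩ := st2_chi hχ (pe u e (pt z e L y (h y + t)))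
    have k0 : 0 ≤ kp (t / T) := kp.nonneg
    have k1 : kp (t / T) ≤ 1 := kp.le_one
    simp only [Pi.mul_apply, Pi.pow_apply, Function.comp_apply]
    rw [abs_mul, abs_mul (ff u _ ^ 2), abs_of_nonneg (mul_nonneg k0 c0), abs_of_nonneg (sq_nonneg _)]
    exact (mul_le_of_le_one_left (by positivity) (mul_le_one₀ k1 c0 c1)).trans
      (mul_le_of_le_one_right (sq_nonneg _) (s1 t))
  · have e0 := hL.e0
    have d0 := hL.d0
    have t1 := hL.T1
    have b0 : ε ^ 2 ≤ ε ^ 2 * T := le_mul_of_one_le_right (sq_nonneg _) t1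
    have b1 : 0 ≤ δ * ε := by positivity
    have b2 := Real.exp_pos (-T)
    have b3 := sq_nonneg ε
    have b4 : 1 - ‖pp u (pt z e L y (h y))‖ ≤ 2 * ε ^ 2 := by
      unfold qq at q0
      nlinarith [norm_nonneg (pp u (pt z e L y (h y)))]
    have b5 : K1 * (ε ^ 2 + Real.exp (-T)) ≤ |K1| * (δ * ε + ε ^ 2 * T + Real.exp (-T)) :=
      mul_le_mul (le_abs_self _) (by linarith) (by positivity) (abs_nonneg _)
    have b6 : K2 * (δ * ε + ε ^ 2 * T) ≤ |K2| * (δ * ε + ε ^ 2 * T + Real.exp (-T)) :=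
      mul_le_mul (le_abs_self _) (by linarith) (by positivity) (abs_nonneg _)
    simp only [Pi.mul_apply, Pi.pow_apply, Function.comp_apply]
    linarith

end Vale.Agent.P134B
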