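import Vale.Agent.P134B.Spec2
import Vale.Agent.P134B.CS

/-!
# P134B, row ST3: the vertical fluxes
-/

open MeasureTheory Metric Filter Topology Set
open scoped ContDiff RealInnerProductSpace
open Vale.Agent.P366.Stmt (E)
open Vale.Agent.P366W (Fr adj smooth_gradient inner_grad norm_gradient)

noncomputable section

namespace Vale.Agent.P134B

namespace St3

variable {n m : ℕ} {B C ε δ T c r : ℝ} {χ χ' ψ s d q f : ℝ → ℝ}

theorem chi0 (h : Chi B χ χ') {a : ℝ} (ha : 9 / 10 < |a|) : χ' a = 0 := by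
  have k : ∀ a, 9 / 10 < a → χ' a = 0 := fun a ha =>
    (h.dv a).unique ((hasDerivAt_const a (1 : ℝ)).congr_of_eventuallyEq
      ((eventually_gt_nhds ha).mono fun b hb => h.hi b hb.le))
  rcases lt_abs.1 ha with ha | ha
  · exact k a ha
  · rw [← h.ev, k _ ha]

theorem kp_bd : ∃ M ≥ (0 : ℝ), ∀ a, |deriv kp a| ≤ M := by
  obtain ⟨M, hM⟩ := kp.hasCompactSupport.deriv.exists_bound_of_continuous
    ((kp.contDiff (n := 1)).continuous_deriv le_rfl)
  exact ⟨M, (norm_nonneg _).trans (hM 0), hM⟩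

theorem kp_zero {a : ℝ} (ha : |a| < 1 / 2) : deriv kp a = 0 := by
  have : (kp : ℝ → ℝ) =ᶠ[𝓝 a] fun _ => 1 :=
    kp.eventuallyEq_one_of_mem_ball (by simpa [kp] using ha)
  rw [this.deriv_eq, deriv_const]

theorem cut_grad {z e : E (m + 1)} {L : E m →ₗᵢ[ℝ] E (m + 1)} {h : E m → ℝ} (fr : Fr e L)
    (hh : ContDiff ℝ ∞ h) (hT : 0 < T) (y : E m) (t : ℝ) (v : E (m + 1)) :
    |⟪gradient (cut z e L h T) (pt z e L y (h y + t)), v⟫| ≤
      |deriv kp (t / T)| / T * ((1 + ‖gradient h y‖) * ‖v‖) := by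
  have a1 : adj L (pt z e L y (h y + t) - z) = y := by
    rw [pt, add_assoc, add_sub_cancel_left, fr.adj_pt]
  have a2 : ⟪e, pt z e L y (h y + t) - z⟫ = h y + t := by
    rw [pt, add_assoc, add_sub_cancel_left, fr.e_pt]
  generalize pt z e L y (h y + t) = x at a1 a2
  have d0 : HasFDerivAt (fun x : E (m + 1) => x - z) (ContinuousLinearMap.id ℝ _) x :=
    (hasFDerivAt_id x).sub_const z
  have d1 := (innerSL ℝ e).hasFDerivAt.comp x d0
  have d2 := (adj L).hasFDerivAt.comp x d0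
  have d3 : HasFDerivAt (fun x => h (adj L (x - z))) _ x :=
    HasFDerivAt.comp x (g := h) (hh.differentiable (by simp) _).hasFDerivAt d2
  have d4 := (d1.sub d3).mul_const T⁻¹
  have d5 : HasFDerivAt (cut z e L h T) _ x :=
    ((kp.contDiff (n := 1)).differentiable (by simp) _).hasDerivAt.comp_hasFDerivAt x d4
  rw [inner_grad, d5.fderiv]
  simp only [innerSL_apply_apply, a1, a2, add_sub_cancel_left, smul_apply, sub_apply,
    ContinuousLinearMap.comp_apply, ContinuousLinearMap.id_apply, smul_eq_mul]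
  rw [abs_mul, abs_mul, abs_of_pos (inv_pos.2 hT), ← mul_assoc, ← div_eq_mul_inv]
  gcongr
  have k1 := abs_real_inner_le_norm e v
  have k2 := abs_real_inner_le_norm (gradient h y) (adj L v)
  have k3 := mul_le_mul_of_nonneg_left (fr.norm_adj v) (norm_nonneg (gradient h y))
  rw [fr.one] at k1
  rw [inner_grad] at k2
  linarith [abs_sub ⟪e, v⟫ (fderiv ℝ h y (adj L v))]

variable {u : E n → ℝ} {e x : E n}

theorem te_le (ok : Ok C u) (he : ‖e‖ = 1) (x : E n) : ‖Te u e x‖ ≤ 2 * ff u x ^ 2 := by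
  have q0 := ok.q0 x
  have q1 : qq u x ≤ 1 := sub_le_self _ (sq_nonneg _)
  have p1 : ‖pp u x‖ ≤ 1 := by
    rw [qq] at q0
    exact (abs_le_of_sq_le_sq' (by linarith) zero_le_one).2
  have s1 : |pe u e x| ≤ 1 := by
    have := abs_real_inner_le_norm (pp u x) e
    rw [he] at this
    rw [pe]; linarith
  rw [Te, norm_smul, Real.norm_of_nonneg (sq_nonneg _), mul_comm]
  gcongr
  refine (norm_sub_le _ _).trans ?_
  rw [norm_smul, norm_smul, he, Real.norm_eq_abs, Real.norm_of_nonneg (by linarith)]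
  nlinarith [mul_le_mul s1 p1 (norm_nonneg _) zero_le_one]

theorem te_c (ok : Ok C u) (e : E n) : Continuous (Te u e) := by
  have c1 := ok.sm.continuous
  have c2 : Continuous (pp u) := (smooth_gradient ok.smp).continuous
  unfold Te ff pe qq
  fun_prop

theorem te_S (ok : Ok C u) (he : ‖e‖ = 1) (zn : Zn δ u e x) (d1 : δ ≤ 1 / 1000) :
    ⟪SS u x e, Te u e x⟫ ≤ -⟪SS u x e, e⟫ * EE u x / 2 + 3 * δ ^ 2 * ff u x ^ 2 := by
  obtain ⟨w, hw⟩ : ∃ w, w = pp u x - pe u e x • e := ⟨_, rfl⟩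
  have ee : ⟪e, e⟫ = (1 : ℝ) := by rw [real_inner_self_eq_norm_sq, he]; norm_num
  have w0 : ⟪w, e⟫ = 0 := by rw [hw, inner_sub_left, inner_smul_left, ee, pe]; simp
  have w1 : ‖w‖ ≤ δ := hw ▸ zn.t0
  have d0 : 0 ≤ δ := (norm_nonneg _).trans w1
  have w2 : |⟪SS u x e, w⟫| ≤ δ ^ 2 := by
    rw [ok.sy]
    have := abs_real_inner_le_norm e (SS u x w)
    rw [he] at this
    nlinarith [zn.t1 w w0]
  have py : pe u e x ^ 2 + qq u x = 1 - ‖w‖ ^ 2 := by
    rw [hw, norm_sub_sq_real, inner_smul_right, norm_smul, he, qq, pe]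
    simp only [Real.norm_eq_abs, mul_one, sq_abs]
    ring
  have q0 := ok.q0 x
  have q1 : qq u x ≤ 1 := sub_le_self _ (sq_nonneg _)
  have s1 : |pe u e x| ≤ 1 := abs_le_one_iff_mul_self_le_one.2 (by nlinarith)
  have hd : |⟪SS u x e, e⟫| ≤ 2 := by
    have k1 : |√2 * u x * qq u x| ≤ 3 / 2 := by
      rw [abs_mul, abs_mul, abs_of_nonneg q0, abs_of_nonneg (Real.sqrt_nonneg 2)]
      have : √2 ≤ 3 / 2 := Real.sqrt_le_iff.2 ⟨by norm_num, by norm_num⟩
      calc _ ≤ 3 / 2 * 1 * (1 : ℝ) := by gcongr; exact (ok.lt x).le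
        _ = _ := by norm_num
    have := abs_le.1 zn.t2
    have := abs_le.1 k1
    rw [abs_le]; constructor <;> linarith
  have e1 : ⟪SS u x e, Te u e x⟫ = -⟪SS u x e, e⟫ * EE u x / 2 +
      (-⟪SS u x e, e⟫ * ‖w‖ ^ 2 + pe u e x * ⟪SS u x e, w⟫) * ff u x ^ 2 := by
    rw [Te, show pp u x = w + pe u e x • e by rw [hw]; abel, EE]
    simp only [inner_smul_right, inner_sub_right, inner_add_right]
    linear_combination ff u x ^ 2 * ⟪SS u x e, e⟫ * py
  rw [e1]
  gcongr
  have k1 : pe u e x * ⟪SS u x e, w⟫ ≤ δ ^ 2 := by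
    have := mul_le_mul s1 w2 (abs_nonneg _) zero_le_one
    rw [← abs_mul] at this
    linarith [le_abs_self (pe u e x * ⟪SS u x e, w⟫)]
  have k2 : ‖w‖ ^ 2 ≤ δ ^ 2 := by gcongr
  nlinarith [abs_le.1 hd, sq_nonneg ‖w‖]

theorem sgn {u : ℝ → ℝ} (col : COL) (h : Ln ε δ T ψ s d q u f) {t : ℝ}
    (ht : t ∈ Iv s T (-(19 / 20))) (t0 : 0 < t) (hs : |s t| ≤ 9 / 10) : d t ≤ 0 := by
  obtain ⟨⟨b, hb⟩, h2, -⟩ := col ε δ T (-(19 / 20)) ψ s d q u f h le_rfl (by norm_num)
  have k := (h2 t ht.1.le (by linarith)).2.2.2 (hb.ps t ht t0)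
  have := mul_nonneg (show 0 ≤ √2 - 25 * δ by linarith [Real.one_lt_sqrt_two, h.d1]) (h.q0 t)
  linarith

/-- the flux through the ridges along a line -/
theorem line {u g w k : ℝ → ℝ} (sym : SYM) (col : COL) (h : Ln ε δ T ψ s d q u f)
    (hχ : Chi B χ χ') (cg : Continuous g) (ck : Continuous k) (k0 : ∀ t, 0 ≤ k t)
    (k1 : ∀ t, k t ≤ 1) (hw : ∀ t, w t = f t ^ 2 * q t)
    (hg : ∀ t, |t| ≤ T → g t ≤ -d t * w t / 2 + 3 * δ ^ 2 * f t ^ 2) :
    ∫ t in Iv s T (-(19 / 20)), k t * χ' (s t) * g t ≤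
      (∫ t in Ioi 0 ∩ Iv s T (-(19 / 20)), χ' (s t) * -d t * w t) / 2 +
      3 * |B| * δ ^ 2 * ∫ t in Iv s T (-(19 / 20)) ∩ {t | s t ≤ 9 / 10}, f t ^ 2 := by
  have c1 := Cs.cs h
  have c2 := Cs.cf h
  have c3 := h.cd
  have c4 := h.cq
  have c5 := hχ.ct
  obtain rfl : w = _ := funext hw
  have m1 : MeasurableSet {t | s t ≤ 9 / 10} := measurableSet_le c1.measurable measurable_const
  have i1 : IntegrableOn (fun t => χ' (s t) * -d t * (f t ^ 2 * q t)) (Iv s T (-(19 / 20))) :=
    Cs.intOn (by fun_prop) subset_rfl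
  have i2 : IntegrableOn (fun t => f t ^ 2) (Iv s T (-(19 / 20))) :=
    Cs.intOn (by fun_prop) subset_rfl
  rw [inter_comm (Ioi 0), ← setIntegral_indicator measurableSet_Ioi, ← setIntegral_indicator m1,
    ← integral_div, ← integral_const_mul,
    ← integral_add ((i1.indicator measurableSet_Ioi).div_const _) ((i2.indicator m1).const_mul _)]
  refine setIntegral_mono_on (Cs.intOn (by fun_prop) subset_rfl)
    (((i1.indicator measurableSet_Ioi).div_const _).add ((i2.indicator m1).const_mul _))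
    Cs.iv_meas fun t ht => ?_
  have x0 := hχ.nn (s t)
  have w0 : 0 ≤ f t ^ 2 * q t := mul_nonneg (sq_nonneg _) (h.q0 t)
  by_cases hs : 9 / 10 < |s t|
  · have : 0 ≤ {t | s t ≤ 9 / 10}.indicator (fun t => f t ^ 2) t :=
      indicator_nonneg (fun _ _ => sq_nonneg _) t
    have e : (Ioi (0 : ℝ)).indicator (fun t => χ' (s t) * -d t * (f t ^ 2 * q t)) t = 0 := by
      simp [indicator, chi0 hχ hs]
    rw [e, chi0 hχ hs]
    simp only [mul_zero, zero_mul, zero_div, zero_add]
    positivity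
  push Not at hs
  rw [indicator_of_mem (show t ∈ {t | s t ≤ 9 / 10} from (abs_le.1 hs).2)]
  have kx := mul_nonneg (k0 t) x0
  have l1 := mul_le_mul_of_nonneg_left (hg t ht.1.le) kx
  have l2 : k t * χ' (s t) * (3 * δ ^ 2 * f t ^ 2) ≤ 1 * |B| * (3 * δ ^ 2 * f t ^ 2) := by
    gcongr
    exacts [k1 t, (hχ.le _).trans (le_abs_self B)]
  have l3 : k t * χ' (s t) * (-d t * (f t ^ 2 * q t)) ≤
      (Ioi (0 : ℝ)).indicator (fun t => χ' (s t) * -d t * (f t ^ 2 * q t)) t := by
    rcases lt_trichotomy t 0 with t0 | rfl | t0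
    · rw [indicator_of_notMem (show t ∉ Ioi 0 from t0.le.not_gt)]
      have := sgn col (sym.2 _ _ _ _ _ _ _ _ _ h) (t := -t) (by rw [← Cs.iv_neg]; simpa using ht)
        (by linarith) (by simpa using hs)
      simp only [neg_neg] at this
      exact mul_nonpos_of_nonneg_of_nonpos kx (mul_nonpos_of_nonpos_of_nonneg this w0)
    · linarith [(abs_le.1 hs).2, h.s0, h.d1]
    · rw [indicator_of_mem (show t ∈ Ioi 0 from t0)]
      have := mul_nonneg x0 (mul_nonneg (neg_nonneg.2 (sgn col h ht t0 hs)) w0)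
      nlinarith [k1 t]
  linarith

end St3

open St3 in
/-- **ST3** -/
theorem st3 : rST3 := by
  intro sym ln gd col ⟨K, cs⟩ m C B
  obtain ⟨M, M0, hM⟩ := kp_bd
  refine ⟨8 * M * K ^ 2 + 3 * |B| * |K|, by positivity,
    fun ε δ r T u z e L h χ χ' H hχ y hy => ?_⟩
  obtain ⟨l, hW, hc, -⟩ := ln m C ε δ r T u z e L h H y hy
  obtain ⟨mI, -, -, s4, s5, -⟩ := cs ε δ T (-(19 / 20)) _ _ _ _ _ _ l le_rfl (by norm_num)
  have ok := H.ok
  have fr := H.gr.fr
  have T0 : 0 < T := by linarith [H.T1]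
  have ind : ∀ (g : E (m + 1) → ℝ) t, (Wr u z e L r h T (-(19 / 20))).indicator g
      (pt z e L y (h y + t)) = (Iv (fun t => pe u e (pt z e L y (h y + t))) T
        (-(19 / 20))).indicator (fun t => g (pt z e L y (h y + t))) t := fun g t => by
    by_cases k : pt z e L y (h y + t) ∈ Wr u z e L r h T (-(19 / 20))
    · rw [indicator_of_mem k, indicator_of_mem ((hW _ _).1 k)]
    · rw [indicator_of_notMem k, indicator_of_notMem (mt (hW _ _).2 k)]
  constructor
  · have g1 := (gd m C δ r u z e L h ok H.gr (by linarith [H.d1]) y hy).2.2.1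
    rw [F1]
    simp only [ind]
    rw [integral_indicator mI]
    have v1 : volume.real (Iv (fun t => pe u e (pt z e L y (h y + t))) T (-(19 / 20))) ≤ 2 * T := by
      have := measureReal_mono (μ := volume) (Cs.iv_sub (T := T) (c := -(19 / 20))
        (s := fun t => pe u e (pt z e L y (h y + t)))) (by simp)
      rw [Real.volume_real_Icc_of_le (by linarith)] at this
      linarith
    have b1 := norm_setIntegral_le_of_norm_le_const (μ := volume)
      (C := 4 * M * K ^ 2 / T * Real.exp (-T)) (f := fun t => χ (pe u e (pt z e L y (h y + t))) *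
        ⟪gradient (cut z e L h T) (pt z e L y (h y + t)), Te u e (pt z e L y (h y + t))⟫)
      ((measure_mono Cs.iv_sub).trans_lt (by simp)) fun t ht => by
        have k1 := cut_grad fr H.gr.sm T0 y t (Te u e (pt z e L y (h y + t))) (z := z)
        have k2 := Cs.chi01 hχ (pe u e (pt z e L y (h y + t)))
        rw [Real.norm_eq_abs, abs_mul, abs_of_nonneg k2.1]
        refine (mul_le_of_le_one_left (abs_nonneg _) k2.2).trans (k1.trans ?_)
        by_cases h2 : |t / T| < 1 / 2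
        · rw [kp_zero h2]
          simp only [abs_zero, zero_div, zero_mul]
          positivity
        rw [abs_div, abs_of_pos T0, div_lt_iff₀ T0, not_lt] at h2
        have k3 : ff u (pt z e L y (h y + t)) ^ 2 ≤ K ^ 2 * Real.exp (-T) :=
          calc _ ≤ (K * Real.exp (-|t|)) ^ 2 := pow_le_pow_left₀ (Cs.f0 l t).le (s5 t ht) 2
            _ = K ^ 2 * Real.exp (-|t| + -|t|) := by rw [Real.exp_add]; ring
            _ ≤ _ := by gcongr; linarith
        calc _ ≤ M / T * (2 * (2 * (K ^ 2 * Real.exp (-T)))) := by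
              gcongr
              exacts [hM _, by linarith [H.d1], (te_le ok fr.one _).trans (by linarith)]
          _ = _ := by ring
    refine (le_abs_self _).trans (b1.trans ?_)
    calc _ ≤ 4 * M * K ^ 2 / T * Real.exp (-T) * (2 * T) := by gcongr
      _ = 8 * M * K ^ 2 * Real.exp (-T) := by field_simp; ring
      _ ≤ _ := by
          gcongr
          linarith [mul_nonneg (mul_nonneg zero_le_three (abs_nonneg B)) (abs_nonneg K)]
  · have cγ : Continuous fun t => pt z e L y (h y + t) := by unfold pt; fun_prop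
    have cS : Continuous (SS u) := (smooth_gradient ok.smp).continuous_fderiv (by simp)
    have key := line sym col l hχ (k := fun t => kp (t / T))
      (g := fun t => ⟪SS u (pt z e L y (h y + t)) e, Te u e (pt z e L y (h y + t))⟫)
      (w := fun t => EE u (pt z e L y (h y + t)))
      (((cS.comp cγ).clm_apply continuous_const).inner ((te_c ok e).comp cγ))
      (kp.continuous.comp (continuous_id.div_const T)) (fun _ => kp.nonneg) (fun _ => kp.le_one)
      (fun _ => rfl) fun t ht => te_S ok fr.one (H.zn y hy t ht) H.d1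
    rw [F2, Eup]
    simp only [ind, hc]
    rw [integral_indicator mI, setIntegral_indicator mI]
    refine key.trans (add_le_add le_rfl ?_)
    have d0 := H.d0
    calc _ ≤ 3 * |B| * δ ^ 2 * (|K| * ε ^ 2) := by
          gcongr
          exact s4.trans (by gcongr; exact le_abs_self K)
      _ = 3 * |B| * |K| * (δ * ε ^ 2) * δ := by ring
      _ ≤ 3 * |B| * |K| * (δ * ε ^ 2) * 1 := by gcongr; linarith [H.d1]
      _ ≤ _ := by
          rw [mul_one]
          gcongr
          linarith [mul_nonneg (mul_nonneg (by norm_num : (0 : ℝ) ≤ 8) M0) (sq_nonneg K)]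

end Vale.Agent.P134B
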