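import Vale.Agent.P134B.Spec2

/-!
# P134B, row STR: the equation of a sheet
-/

open MeasureTheory Metric Filter Topology Set
open scoped ContDiff RealInnerProductSpace
open Vale.Agent.P366.Stmt (E)
open Vale.Agent.P366W (Fr adj dvg trc contDiff_gradient smooth_gradient norm_gradient)

noncomputable section

namespace Vale.Agent.P134B

namespace Str

variable {m : ℕ} {Ψ : E m → ℝ}

theorem grad_zero {y : E m} (hy : y ∉ tsupport Ψ) : gradient Ψ y = 0 := by
  rw [← norm_eq_zero, norm_gradient, norm_eq_zero]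
  exact image_eq_zero_of_notMem_tsupport fun h => hy (tsupport_fderiv_subset ℝ h)

theorem hcs_of {F : Type} [Zero F] (hc : HasCompactSupport Ψ) {g : E m → F}
    (h : ∀ y, Ψ y = 0 → gradient Ψ y = 0 → g y = 0) : HasCompactSupport g :=
  hc.mono' fun y hy => by
    by_contra k
    exact hy (h y (image_eq_zero_of_notMem_tsupport k) (grad_zero k))

theorem cont_Nn : Continuous (Nn : E m → E m) :=
  (Continuous.inv₀ (f := fun a : E m => √(1 + ‖a‖ ^ 2)) (by fun_prop)
    fun _ => by positivity).smul continuous_id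

end Str

theorem str : rSTR := by
  intro s1 s2 s3 m C B
  obtain ⟨K1, -, s1⟩ := s1 m C B
  obtain ⟨K2, k2, s2⟩ := s2 m C B
  obtain ⟨K3, k3, s3⟩ := s3 m C B
  refine ⟨K2 + K3, add_nonneg k2 k3, fun ε δ r T u z e L h χ χ' hl hχ Ψ F hΨ h0 cF hF => ?_⟩
  obtain ⟨i1, i2, i3, id⟩ := s1 ε δ r T u z e L h χ χ' hl hχ Ψ hΨ
  have b2 := s2 ε δ r T u z e L h χ χ' hl hχ
  have b3 := s3 ε δ r T u z e L h χ χ' hl hχ
  have cΨ := hΨ.c1.continuous
  have cg : Continuous (gradient Ψ) :=
    (contDiff_gradient (k := 0) (by simpa using hΨ.c1)).continuous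
  have j1 : Integrable fun y => sg * ⟪gradient Ψ y, Nn (gradient h y)⟫ :=
    ((cg.inner (Str.cont_Nn.comp (smooth_gradient hl.gr.sm).continuous)).integrable_of_hasCompactSupport
      (Str.hcs_of hΨ.cs fun y _ k => by simp [k])).const_mul _
  have j2 : Integrable fun y => Ψ y * F y / 2 :=
    ((cΨ.mul cF).integrable_of_hasCompactSupport hΨ.cs.mul_right).div_const _
  have j3 : Integrable fun y => (K2 + K3) * (δ * ε + ε ^ 2 * T + Real.exp (-T)) * ‖gradient Ψ y‖ :=
    (cg.norm.integrable_of_hasCompactSupport (Str.hcs_of hΨ.cs fun y _ k => by simp [k])).const_mul _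
  have j4 : Integrable fun y => (K2 + K3) * (δ * ε ^ 2 + Real.exp (-T)) * Ψ y :=
    (cΨ.integrable_of_hasCompactSupport hΨ.cs).const_mul _
  have e0 := hl.e0
  have d0 := hl.d0
  have T0 : 0 ≤ T := zero_le_one.trans hl.T1
  have key := integral_mono (((j1.add i1).add i2).add i3) ((j2.add j3).add j4) fun y => by
    simp only [Pi.add_apply]
    by_cases hy : y ∈ tsupport Ψ
    · have a2 := b2 y (hΨ.su hy)
      obtain ⟨a3, a4⟩ := b3 y (hΨ.su hy)
      have a5 := (real_inner_le_norm (gradient Ψ y) _).trans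
        (mul_le_mul_of_nonneg_left a2 (norm_nonneg _))
      rw [inner_add_right, inner_smul_right] at a5
      have a6 := mul_le_mul_of_nonneg_left a3 (h0 y)
      have a7 := mul_le_mul_of_nonneg_left a4 (h0 y)
      have a8 : Ψ y * Eup u z e L r h T χ' y ≤ Ψ y * F y := by
        by_cases k : Ψ y = 0
        · simp [k]
        · exact mul_le_mul_of_nonneg_left (hF y k) (h0 y)
      have a9 : 0 ≤ K3 * (δ * ε + ε ^ 2 * T + Real.exp (-T)) * ‖gradient Ψ y‖ := by positivity
      have a10 : 0 ≤ K2 * (δ * ε ^ 2 + Real.exp (-T)) * Ψ y := mul_nonneg (by positivity) (h0 y)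
      linarith
    · simp [Str.grad_zero hy, image_eq_zero_of_notMem_tsupport hy]
  rw [integral_add' ((j1.add i1).add i2) i3, integral_add' (j1.add i1) i2, integral_add' j1 i1,
    integral_add' (j2.add j3) j4, integral_add' j2 j3, integral_const_mul, integral_const_mul,
    integral_const_mul, integral_div] at key
  linarith

end Vale.Agent.P134B
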