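import Vale.Agent.P134B.Spec

/-!
# P134B, row SYM: the symmetry `u ↦ -u`
-/

open MeasureTheory Metric Filter Topology Set
open scoped ContDiff RealInnerProductSpace
open Vale.Agent.P366.Stmt (E)
open Vale.Agent.P366W (Fr adj dvg trc)

noncomputable section

namespace Vale.Agent.P134B

namespace Sy

variable {n : ℕ} (u : E n → ℝ)

theorem grad_neg : gradient (-u) = -gradient u := funext fun x => by
  simp [gradient, fderiv_neg]

theorem trc_neg (A : E n →L[ℝ] E n) : trc (-A) = -trc A := by simp [trc]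

theorem lap_neg (x : E n) : lap (-u) x = -lap u x := by
  simp only [lap, grad_neg, P366W.dvg_eq, fderiv_neg, trc_neg]

theorem ps_neg : ps (-u) = -ps u := funext fun x => by
  simp only [ps, Pi.neg_apply, sub_neg_eq_add, ← sub_eq_add_neg]
  ring

theorem ff_neg : ff (-u) = ff u := funext fun x => by simp [ff]
theorem pp_neg : pp (-u) = -pp u := funext fun x => by simp only [pp, ps_neg, grad_neg, Pi.neg_apply]
theorem SS_neg : SS (-u) = -SS u := funext fun x => by
  simp only [SS, pp_neg, fderiv_neg, Pi.neg_apply]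
theorem qq_neg : qq (-u) = qq u := funext fun x => by simp only [qq, pp_neg, Pi.neg_apply, norm_neg]
theorem EE_neg : EE (-u) = EE u := funext fun x => by simp only [EE, ff_neg, qq_neg]
theorem PP_neg : PP (-u) = PP u := funext fun x => by simp only [PP, ff_neg, qq_neg]
theorem pe_neg (e : E n) : pe (-u) e = -pe u e := funext fun x => by
  simp only [pe, pp_neg, Pi.neg_apply, inner_neg_left]

variable {u}

theorem ok {C : ℝ} (h : Ok C u) : Ok C (-u) where
  C1 := h.C1
  sm := h.sm.neg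
  lt x := by simpa using h.lt x
  eq x := by rw [lap_neg, h.eq, Pi.neg_apply]; ring
  smp := ps_neg u ▸ h.smp.neg
  th x := by rw [ps_neg, Pi.neg_apply, Pi.neg_apply, neg_div, Real.tanh_neg, ← h.th]
  flo x := by simpa only [ps_neg, ff_neg, Pi.neg_apply, abs_neg] using h.flo x
  fhi x := by simpa only [ps_neg, ff_neg, Pi.neg_apply, abs_neg] using h.fhi x
  gu x := by simp [grad_neg, ff_neg, pp_neg, h.gu]
  gf x := by simp [ff_neg, pp_neg, h.gf]
  tr x := by simp [SS_neg, qq_neg, trc_neg, h.tr]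
  sy x v w := by simp [SS_neg, h.sy]
  q0 x := qq_neg u ▸ h.q0 x
  gq x := by simp [SS_neg, qq_neg, pp_neg, h.gq]
  gp e x := by simp [SS_neg, pe_neg, grad_neg, h.gp]
  jac e x := by
    have := h.jac e x
    simp only [Lf, pe_neg, lap_neg, grad_neg, pp_neg, PP_neg, Pi.neg_apply, inner_neg_left,
      inner_neg_right] at this ⊢
    linarith
  lE x := by simpa [EE_neg, pp_neg, ff_neg, SS_neg, trc_neg, hs] using h.lE x
  S0 x := by simpa [SS_neg, qq_neg] using h.S0 x
  S1 x := by
    rw [SS_neg, qq_neg, fderiv_neg]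
    exact (norm_neg (fderiv ℝ (SS u) x)).trans_le (h.S1 x)
  S2 x := by simpa [SS_neg, qq_neg, pp_neg, fderiv_neg] using h.S2 x
  q1 x := qq_neg u ▸ h.q1 x
  q2 x := qq_neg u ▸ h.q2 x
  dec x r hr hy := ff_neg u ▸ h.dec x r hr fun y hy' => by simpa using hy y hy'

theorem ln {ε δ T : ℝ} {ψ s d q u f : ℝ → ℝ} (h : Ln ε δ T ψ s d q u f) :
    Ln ε δ T (fun t => -ψ (-t)) (fun t => s (-t)) (fun t => -d (-t)) (fun t => q (-t))
      (fun t => -u (-t)) fun t => f (-t) where
  e0 := h.e0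
  e1 := h.e1
  d0 := h.d0
  d1 := h.d1
  T1 := h.T1
  dψ t := ((h.dψ (-t)).comp t (hasDerivAt_neg' t)).fun_neg.congr_deriv (by simp)
  ds t := ((h.ds (-t)).comp t (hasDerivAt_neg' t)).congr_deriv (by simp)
  du t := ((h.du (-t)).comp t (hasDerivAt_neg' t)).fun_neg.congr_deriv (by simp)
  cd := (h.cd.comp continuous_neg).neg
  cq := h.cq.comp continuous_neg
  ψ0 := by simp [h.ψ0]
  s0 := by simpa using h.s0
  th t := by rw [neg_div, Real.tanh_neg, ← h.th]
  fe t := by simpa using h.fe (-t)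
  flo t := by simpa only [abs_neg] using h.flo (-t)
  fhi t := by simpa only [abs_neg] using h.fhi (-t)
  q0 t := h.q0 _
  sq t := h.sq _
  t0 t ht := h.t0 _ (by rwa [abs_neg])
  t2 t ht := by
    rw [← abs_neg]
    exact le_of_eq_of_le (congrArg _ (by ring)) (h.t2 (-t) (by rwa [abs_neg]))
  t3 t ht := by simpa only [abs_neg] using h.t3 (-t) (by rwa [abs_neg])
  gd t ht := h.gd _ (by rwa [abs_neg])

end Sy

open Sy in
theorem sym : SYM := by
  refine ⟨fun n u => ⟨⟨ps_neg u, ff_neg u, pp_neg u, SS_neg u, qq_neg u, EE_neg u⟩, fun _ => ok,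
    fun h φ h1 h2 => by simpa using h φ h1 h2, fun δ e x h => ⟨⟨?_, fun τ hτ => ?_, ?_, ?_⟩,
    ⟨?_, fun τ hτ => h.t1 τ (by simpa using hτ), by simpa using h.t2, h.t3⟩⟩⟩,
    fun _ _ _ _ _ _ _ _ _ => ln⟩
  · rw [pp_neg, pe_neg, Pi.neg_apply, Pi.neg_apply, neg_smul, ← neg_sub', norm_neg]
    exact h.t0
  · simpa [SS_neg] using h.t1 τ hτ
  · rw [← abs_neg]
    refine le_of_eq_of_le (congrArg _ ?_) h.t2
    simp [SS_neg, qq_neg, add_comm]
  · simpa [qq_neg] using h.t3
  · simpa [pe] using h.t0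

end Vale.Agent.P134B
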