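import Vale.Agent.P134B.Spec2

/-!
# P134B: a pair of layers solves the system
-/

open MeasureTheory Metric Filter Topology Set
open scoped ContDiff RealInnerProductSpace
open Vale.Agent.P366.Stmt (E)
open Vale.Agent.P366W (Fr adj dvg trc contDiff_gradient smooth_gradient)

noncomputable section

namespace Vale.Agent.P134B

variable {m : ℕ}

theorem sys_neg (h : E m → ℝ) (y : E m) : gradient (fun y => -h y) y = -gradient h y := by
  simp [gradient, fderiv_fun_neg]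

theorem sys_sub {f g : E m → ℝ} (hf : ContDiff ℝ ∞ f) (hg : ContDiff ℝ ∞ g) (y : E m) :
    gradient (fun y => f y - g y) y = gradient f y - gradient g y := by
  simp [gradient, fderiv_fun_sub (hf.differentiable (by simp) y) (hg.differentiable (by simp) y)]

theorem sys_Nn_neg (a : E m) : Nn (-a) = -Nn a := by simp [Nn]

theorem sys_cont : Continuous (Nn : E m → E m) :=
  (Continuous.inv₀ (by fun_prop) fun a => (Real.sqrt_pos.2 (by positivity)).ne').smul continuous_id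

theorem sys_int {U : Set (E m)} {Ψ : E m → ℝ} (hΨ : Tf U Ψ) {A : E m → E m} (hA : Continuous A) :
    Integrable fun y => ⟪gradient Ψ y, A y⟫ := by
  have c : Continuous (gradient Ψ) := (contDiff_gradient (k := 0) (by simpa using hΨ.c1)).continuous
  refine (c.inner (𝕜 := ℝ) hA).integrable_of_hasCompactSupport ((hΨ.cs.fderiv ℝ).mono ?_)
  intro y hy h0
  exact hy (by simp [gradient, h0])

theorem sys_exp {ε s : ℝ} (h0 : 0 < ε) (hs : 3 * lg ε ≤ s) : Real.exp (-s) ≤ ε ^ 3 := by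
  have : ε ^ 3 = Real.exp (-(3 * lg ε)) := by
    rw [lg, mul_neg, neg_neg, show (3 : ℝ) = (3 : ℕ) by norm_num, Real.exp_nat_mul, Real.exp_log h0]
  rw [this]
  exact Real.exp_le_exp.2 (neg_le_neg hs)

theorem sys_lg {ε : ℝ} (h0 : 0 < ε) : ε * lg ε ≤ 2 * √ε := by
  have s0 := Real.sqrt_pos.2 h0
  have h1 := Real.log_le_sub_one_of_pos (inv_pos.2 s0)
  rw [Real.log_inv, Real.log_sqrt h0.le] at h1
  have h2 : ε * (√ε)⁻¹ = √ε := by
    rw [← div_eq_mul_inv, Real.div_sqrt]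
  have h3 := mul_le_mul_of_nonneg_left h1 h0.le
  rw [lg]
  nlinarith

theorem sys_num {K1 K2 κ δ' ε δ τ : ℝ} (k1 : 0 ≤ K1) (k2 : 0 ≤ K2) (κ0 : 0 < κ)
    (κ1 : 4 * (K1 + K2 + 1) * κ = δ') (e0 : 0 < ε) (e1 : ε ≤ 1) (e2 : ε ≤ κ / 2)
    (e3 : √ε ≤ κ / 128) (d0 : 0 < δ) (d1 : δ ≤ κ) (d2 : δ ≤ 1 / 1000) (τ1 : τ ≤ κ) :
    2 * (K1 * (δ * ε + ε ^ 2 * (32 * lg ε) + Real.exp (-(32 * lg ε)))) ≤ δ' * ε ∧
    2 * (K1 * (δ * ε ^ 2 + Real.exp (-(32 * lg ε)))) ≤ δ' * ε ^ 2 ∧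
    K2 * (ε ^ 2 + Real.exp (-(32 * lg ε / 4))) ≤ δ' ∧
    K2 * (τ * ε ^ 2 + Real.exp (-(32 * lg ε / 4))) ≤ δ' * ε ^ 2 ∧
    1 - δ' ≤ 1 - 2 * (2 * δ) ^ 2 := by
  have l0 : 0 ≤ lg ε := neg_nonneg.2 (Real.log_nonpos e0.le e1)
  have x1 := sys_exp (s := 32 * lg ε) e0 (by linarith)
  have x2 := sys_exp (s := 32 * lg ε / 4) e0 (by linarith)
  have x3 := mul_le_mul_of_nonneg_left (sys_lg e0) e0.le
  have x3' := mul_le_mul_of_nonneg_left e3 e0.le
  have x4 := mul_le_mul_of_nonneg_left e2 (sq_nonneg ε)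
  have x5 : ε ^ 2 ≤ ε := by nlinarith
  have x7 := mul_le_mul_of_nonneg_left x5 κ0.le
  have x8 := mul_le_mul_of_nonneg_left e1 κ0.le
  have y1 := mul_le_mul_of_nonneg_right d1 e0.le
  have y2 := mul_le_mul_of_nonneg_right d1 (sq_nonneg ε)
  have y3 := mul_le_mul_of_nonneg_right τ1 (sq_nonneg ε)
  have p1 := mul_pos κ0 e0
  have p2 := mul_pos κ0 (pow_pos e0 2)
  generalize Real.exp (-(32 * lg ε)) = a at *
  generalize Real.exp (-(32 * lg ε / 4)) = b at *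
  subst κ1
  refine ⟨?_, ?_, ?_, ?_, ?_⟩
  · have := mul_le_mul_of_nonneg_left (show δ * ε + ε ^ 2 * (32 * lg ε) + a ≤ 2 * (κ * ε) by
      linarith) k1
    linarith [mul_nonneg k2 p1.le]
  · have := mul_le_mul_of_nonneg_left (show δ * ε ^ 2 + a ≤ 2 * (κ * ε ^ 2) by linarith) k1
    linarith [mul_nonneg k2 p2.le]
  · have := mul_le_mul_of_nonneg_left (show ε ^ 2 + b ≤ 2 * κ by linarith) k2
    linarith [mul_nonneg k1 κ0.le, mul_nonneg k2 κ0.le]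
  · have := mul_le_mul_of_nonneg_left (show τ * ε ^ 2 + b ≤ 2 * (κ * ε ^ 2) by linarith) k2
    linarith [mul_nonneg k1 p2.le, mul_nonneg k2 p2.le]
  · linarith [mul_nonneg k1 κ0.le, mul_nonneg k2 κ0.le, mul_le_mul_of_nonneg_left d2 d0.le]

theorem sys : rSYS := by
  intro hPRF hGD hN hSTR hEG hGA m C δ' hδ'
  obtain ⟨B, hB⟩ := hPRF
  obtain ⟨K1, k1, H1⟩ := hSTR m C B
  obtain ⟨K2, k2, H2⟩ := hGA m C B
  obtain ⟨K3, -, H3⟩ := hEG m C B
  obtain ⟨κ, hκ⟩ : ∃ κ, κ = δ' / (4 * (K1 + K2 + 1)) := ⟨_, rfl⟩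
  have κ0 : 0 < κ := by rw [hκ]; positivity
  have κ1 : 4 * (K1 + K2 + 1) * κ = δ' := by rw [hκ]; field_simp
  obtain ⟨β, Λ, χ, χ', hP⟩ := hB (min (1 / 100) κ) (by positivity) (min_le_left _ _)
  refine ⟨min (1 / 1000) κ, by positivity, min_le_left _ _, min ((κ / 128) ^ 2) (κ / 2),
    by positivity, fun ε r u z e L h₀ h₁ hε hS hp => ?_⟩
  have τ0 : 0 ≤ min (1 / 100) κ := by positivity
  have τ1 : min (1 / 100) κ ≤ κ := min_le_right _ _
  have d1 : min (1 / 1000) κ ≤ κ := min_le_right _ _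
  generalize min (1 / 100) κ = τ at *
  generalize min (1 / 1000) κ = δ at *
  have e0 := hp.l0.e0
  have e1 := hp.l0.e1
  have d0 := hp.l0.d0
  have d2 := hp.l0.d1
  have e2 : ε ≤ κ / 2 := hε.trans (min_le_right _ _)
  have e3 : √ε ≤ κ / 128 := Real.sqrt_le_iff.2 ⟨by positivity, hε.trans (min_le_left _ _)⟩
  obtain ⟨b1, b2, b3, b4, b5⟩ := sys_num k1 k2 κ0 κ1 e0 e1 e2 e3 d0 d1 d2 τ1
  have eT : 32 * lg ε / 8 = 4 * lg ε := by ring
  obtain ⟨cE, hE⟩ := H3 ε δ r _ τ u z e L h₀ h₁ β Λ χ χ' hp τ0 hP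
  have hG := H2 ε δ r _ τ u z e L h₀ h₁ β Λ χ χ' hp τ0 hP hS
  have S0 := H1 ε δ r _ u z e L h₀ χ χ' hp.l0 hP.ch
  have S1 := H1 ε δ r _ u z (-e) L _ χ χ' hp.l1 hP.ch
  rw [eT] at hE hG
  have s0 := hp.l0.gr.sm
  have s1 : ContDiff ℝ ∞ h₁ := by simpa using hp.l1.gr.sm.neg
  have c0 : Continuous fun y => Nn (gradient h₀ y) := sys_cont.comp (smooth_gradient s0).continuous
  have c1 : Continuous fun y => Nn (gradient h₁ y) := sys_cont.comp (smooth_gradient s1).continuous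
  refine ⟨Eg u z e L h₀ h₁ χ', fun y => Nn (gradient h₁ y) - Nn (gradient h₀ y),
    ⟨(s1.sub s0).of_le (by simp), cE, c1.sub c0, fun y hy => ?_, fun Ψ hΨ Ψ0 => ?_,
      fun η hη => ?_⟩, fun y hy hl => ⟨(hE y hy hl).2.2.2.1, (hE y hy hl).2.2.1⟩⟩
  · have g0 := (hGD m C δ r u z e L h₀ hp.l0.ok hp.l0.gr (by linarith) y hy.1).2.2.1
    have g1 := (hGD m C δ r u z (-e) L _ hp.l1.ok hp.l1.gr (by linarith) y hy.1).2.2.1
    rw [sys_neg, norm_neg] at g1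
    obtain ⟨n1, n2⟩ := hN m _ _ _ g1 g0
    rw [sys_sub s1 s0]
    refine ⟨le_trans (mul_le_mul_of_nonneg_right b5 (sq_nonneg _)) n1, n2,
      (norm_sub_le _ _).trans (by linarith), le_trans (by positivity) (hE y hy.1 hy.2.le).2.2.2.1⟩
  · have tf : Tf (ball 0 r) Ψ := ⟨hΨ.c1, hΨ.cs, fun y hy => (hΨ.su hy).1⟩
    have hy : ∀ y, Ψ y ≠ 0 → y ∈ ball (0 : E m) r ∧ h₁ y - h₀ y < 4 * lg ε := fun y h =>
      hΨ.su (subset_tsupport _ h)
    have a0 := S0 Ψ _ tf Ψ0 cE fun y h => (hE y (hy y h).1 (hy y h).2.le).1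
    have a1 := S1 Ψ _ tf Ψ0 cE fun y h => (hE y (hy y h).1 (hy y h).2.le).2.1
    simp only [sys_neg, sys_Nn_neg, inner_neg_right, integral_neg] at a1
    simp only [inner_sub_right]
    rw [integral_sub (sys_int hΨ c1) (sys_int hΨ c0)]
    have i1 : 0 ≤ ∫ y, ‖gradient Ψ y‖ := integral_nonneg fun _ => norm_nonneg _
    have i2 : 0 ≤ ∫ y, Ψ y := integral_nonneg Ψ0
    linarith [mul_le_mul_of_nonneg_right b1 i1, mul_le_mul_of_nonneg_right b2 i2]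
  · have a0 := hG η hη
    have i1 : 0 ≤ ∫ y, ‖gradient η y‖ ^ 2 := integral_nonneg fun _ => sq_nonneg _
    have i2 : 0 ≤ ∫ y, η y ^ 2 := integral_nonneg fun _ => sq_nonneg _
    linarith [mul_le_mul_of_nonneg_right b3 i1, mul_le_mul_of_nonneg_right b4 i2]

end Vale.Agent.P134B
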