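import Vale.Agent.P134B.Defs
import Vale.Agent.P134Y.Defs

/-!
# P134B: the rows of the blow-up
-/

open MeasureTheory Metric Filter Topology Set
open scoped ContDiff RealInnerProductSpace
open Vale.Agent.P366.Stmt (E)
open Vale.Agent.P366W (Fr adj dvg trc)

noncomputable section

namespace Vale.Agent.P134B

variable {n m : ℕ}

/-! ## The pointwise facts -/

/-- from coordinates to the Euclidean space -/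
def up (v : (Fin n → ℝ) → ℝ) (x : E n) : ℝ := v x.ofLp

structure Id0 (u : E n → ℝ) : Prop where
  sm : ContDiff ℝ ∞ u
  lt : ∀ x, |u x| < 1
  eq : ∀ x, lap u x = u x ^ 3 - u x
  q0 : ∀ x, 0 ≤ qq u x

structure Id1 (u : E n → ℝ) : Prop where
  smp : ContDiff ℝ ∞ (ps u)
  th : ∀ x, u x = Real.tanh (ps u x / √2)
  flo : ∀ x, Real.exp (-(√2 * |ps u x|)) / √2 ≤ ff u x
  fhi : ∀ x, ff u x ≤ 2 * √2 * Real.exp (-(√2 * |ps u x|))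
  gu : ∀ x, gradient u x = ff u x • pp u x
  gf : ∀ x, gradient (ff u) x = (-(√2 * u x * ff u x)) • pp u x
  tr : ∀ x, trc (SS u x) = -(√2 * u x * qq u x)
  sy : ∀ x v w, ⟪SS u x v, w⟫ = ⟪v, SS u x w⟫
  gq : ∀ x, gradient (qq u) x = (-2 : ℝ) • SS u x (pp u x)
  gp : ∀ e x, gradient (pe u e) x = SS u x e

structure Id2 (u : E n → ℝ) : Prop where
  jac : ∀ e x, Lf u (pe u e) x = -(PP u x * pe u e x)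
  lE : ∀ x, lap (EE u) x + 2 * √2 * u x * ⟪pp u x, gradient (EE u) x⟫ =
    2 * ff u x ^ 2 * (trc (SS u x) ^ 2 - hs (SS u x))

/-- a bound which is uniform in the solution -/
def Unif (P : ∀ n, ℝ → (E n → ℝ) → Prop) : Prop := ∀ n, ∃ C, ∀ v : (Fin n → ℝ) → ℝ,
  P134Y.St v → Id0 (up v) → Id1 (up v) → Id2 (up v) → ∀ C' ≥ C, P n C' (up v)

def B0 (n : ℕ) (C : ℝ) (u : E n → ℝ) : Prop := ∀ x, ‖SS u x‖ ≤ C * √(qq u x)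
def B1 (n : ℕ) (C : ℝ) (u : E n → ℝ) : Prop := ∀ x, ‖fderiv ℝ (SS u) x‖ ≤ C * √(qq u x)
def B2 (n : ℕ) (C : ℝ) (u : E n → ℝ) : Prop := ∀ x, ‖fderiv ℝ (SS u) x (pp u x)‖ ≤ C * qq u x
def Q1 (n : ℕ) (C : ℝ) (u : E n → ℝ) : Prop := ∀ x, ‖gradient (qq u) x‖ ≤ C * qq u x
def Q2 (n : ℕ) (C : ℝ) (u : E n → ℝ) : Prop :=
  ∀ x, ‖fderiv ℝ (gradient (qq u)) x‖ ≤ C * qq u x
def DC (n : ℕ) (C : ℝ) (u : E n → ℝ) : Prop :=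
  ∀ x r, 0 ≤ r → (∀ y ∈ ball x r, u y ≠ 0) → ff u x ≤ C * Real.exp (-r)

def KA : Prop := ∀ (n : ℕ) (v : (Fin n → ℝ) → ℝ), P134Y.St v →
  Id0 (up v) ∧ Stab (up v) ∧ ∀ x, EE (up v) x = P134.defi v x.ofLp
def KI1 : Prop := ∀ (n : ℕ) (u : E n → ℝ), Id0 u → Id1 u
def KI2 : Prop := ∀ (n : ℕ) (u : E n → ℝ), Id0 u → Id1 u → Id2 u
def KQ1 : Prop := Unif Q1 ∧ Unif DC
def KB0 : Prop := Unif B0
def KQ2 : Prop := Unif Q1 → Unif B0 → Unif Q2 ∧ Unif B2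
def KB1 : Prop := Unif Q1 → Unif B0 → Unif B1

/-- **K** -/
def KK : Prop := ∀ n, ∃ C, ∀ v : (Fin n → ℝ) → ℝ, P134Y.St v →
  Ok C (up v) ∧ Stab (up v) ∧ ∀ x, EE (up v) x = P134.defi v x.ofLp

theorem kk_of (a : KA) (i1 : KI1) (i2 : KI2) (q1 : KQ1) (b0 : KB0) (q2 : KQ2) (b1 : KB1) :
    KK := fun n => by
  obtain ⟨c1, h1⟩ := q1.1 n
  obtain ⟨c2, h2⟩ := q1.2 n
  obtain ⟨c3, h3⟩ := b0 n
  obtain ⟨c4, h4⟩ := (q2 q1.1 b0).1 n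
  obtain ⟨c5, h5⟩ := (q2 q1.1 b0).2 n
  obtain ⟨c6, h6⟩ := b1 q1.1 b0 n
  refine ⟨max (max (max 1 c1) (max c2 c3)) (max (max c4 c5) c6), fun v hv => ?_⟩
  obtain ⟨j0, st, he⟩ := a n v hv
  have j1 := i1 n _ j0
  have j2 := i2 n _ j0 j1
  exact ⟨⟨by simp, j0.sm, j0.lt, j0.eq, j1.smp, j1.th, j1.flo, j1.fhi, j1.gu, j1.gf, j1.tr, j1.sy,
    j0.q0, j1.gq, j1.gp, j2.jac, j2.lE, h3 v hv j0 j1 j2 _ (by simp), h6 v hv j0 j1 j2 _ (by simp),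
    h5 v hv j0 j1 j2 _ (by simp), h1 v hv j0 j1 j2 _ (by simp), h4 v hv j0 j1 j2 _ (by simp),
    h2 v hv j0 j1 j2 _ (by simp)⟩, st, he⟩

/-- **SYM**: the symmetry `u ↦ -u` -/
def SYM : Prop := (∀ (n : ℕ) (u : E n → ℝ), (ps (-u) = -ps u ∧ ff (-u) = ff u ∧ pp (-u) = -pp u ∧
    SS (-u) = -SS u ∧ qq (-u) = qq u ∧ EE (-u) = EE u) ∧ (∀ C, Ok C u → Ok C (-u)) ∧
    (Stab u → Stab (-u)) ∧ ∀ δ e x, Zn δ u e x → Zn δ (-u) e x ∧ Zn δ u (-e) x) ∧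
  ∀ (ε δ T : ℝ) (ψ s d q u f : ℝ → ℝ), Ln ε δ T ψ s d q u f →
    Ln ε δ T (fun t => -ψ (-t)) (fun t => s (-t)) (fun t => -d (-t)) (fun t => q (-t))
      (fun t => -u (-t)) fun t => f (-t)

/-! ## The tilt -/

/-- **SEG**: along a segment on which the phase stays bounded -/
def SEG : Prop := ∀ (n : ℕ) (C A : ℝ), ∃ K ≥ (1 : ℝ), ∀ (u : E n → ℝ) (ε : ℝ) (x v : E n) (s : ℝ),
  Ok C u → 0 < ε → ‖v‖ ≤ 1 → 0 ≤ s → (∀ t ∈ Icc 0 s, EE u (x + t • v) ≤ ε ^ 2) →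
  |ps u x| + |pe u v x| * s + K * ε * s ^ 2 ≤ A →
  ∀ t ∈ Icc 0 s, ‖pp u (x + t • v) - pp u x‖ ≤ K * ε * t ∧ qq u (x + t • v) ≤ K * ε ^ 2

/-- **FOOT**: a zero near a point of bounded phase -/
def FOOT : Prop := ∀ (n : ℕ) (C A : ℝ), ∃ K, ∃ ε₀ > (0 : ℝ), ∀ (u : E n → ℝ) (ε : ℝ) (x : E n),
  Ok C u → 0 < ε → ε ≤ ε₀ → Gd u ε x (2 * A + 1) → |ps u x| ≤ A →
  ∃ z, u z = 0 ∧ ‖z - x‖ ≤ 2 * A ∧ ‖pp u x - pp u z‖ ≤ K * ε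

/-- **PAR**: close sheets are parallel -/
def PAR : Prop := ∀ (n : ℕ) (C : ℝ), ∃ K, ∃ ε₀ > (0 : ℝ), ∀ (u : E n → ℝ) (ε ρ : ℝ) (z z' τ : E n),
  Ok C u → 0 < ε → ε ≤ ε₀ → Gd u ε z (1 / ε) → u z = 0 → u z' = 0 → 1 ≤ ρ → ρ ^ 4 * ε ≤ 1 →
  ‖z' - z‖ ≤ ρ → ⟪τ, pp u z⟫ = 0 → ‖τ‖ ≤ 1 → |pe u τ z'| ≤ K * ρ * √ε

/-- the weight of the barriers -/
def ch (l : ℝ) (x₀ x : E n) : ℝ := ∑ i, Real.cosh (l * (x i - x₀ i))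

/-- **BAR**: the barrier for the tilt -/
def BAR : Prop := ∀ (n : ℕ) (γ : ℝ), 0 < γ → γ ≤ 1 → ∃ l > (0 : ℝ), ∃ A, ∀ (C : ℝ) (u : E n → ℝ)
  (x₀ x : E n), Ok C u → A ≤ |ps u x| →
  ContDiff ℝ 2 (fun y => ff u y ^ (-γ) * ch l x₀ y) ∧
  Lf u (fun y => ff u y ^ (-γ) * ch l x₀ y) x + PP u x * (ff u x ^ (-γ) * ch l x₀ x) ≤
    -(γ / 2) * (ff u x ^ (-γ) * ch l x₀ x)

/-- **MAX**: the derivatives at a local maximum -/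
def MAX : Prop := ∀ (n : ℕ) (φ : E n → ℝ) (x : E n), ContDiffAt ℝ 2 φ x → IsLocalMax φ x →
  gradient φ x = 0 ∧ lap φ x ≤ 0

/-- **TL0**: the tilt up to logarithmic height -/
def TL0 : Prop := ∀ (n : ℕ) (C M : ℝ), ∃ ε₀ > (0 : ℝ), ∀ (u : E n → ℝ) (ε : ℝ) (z τ : E n),
  Ok C u → 0 < ε → ε ≤ ε₀ → Gd u ε z (1 / ε) → u z = 0 → ⟪τ, pp u z⟫ = 0 → ‖τ‖ ≤ 1 →
  ∀ x ∈ ball z (M * lg ε), |pe u τ x| ≤ √(√ε)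

/-- **TL**: the solution is one-dimensional up to logarithmic height -/
def TL : Prop := ∀ (m : ℕ) (C M δ : ℝ), 0 < δ → ∃ ε₀ > (0 : ℝ), ∀ (u : E (m + 1) → ℝ) (ε : ℝ)
  (z : E (m + 1)), Ok C u → 0 < ε → ε ≤ ε₀ → Gd u ε z (1 / ε) → u z = 0 →
  ∀ x ∈ ball z (M * lg ε), Zn (δ / lg ε) u (‖pp u z‖⁻¹ • pp u z) x

/-- **ZT**: a change of the direction -/
def ZT : Prop := ∀ (n : ℕ) (C δ θ : ℝ) (u : E n → ℝ) (e e' x : E n), Ok C u → ‖e‖ = 1 → ‖e'‖ = 1 →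
  ‖e' - e‖ ≤ θ → 0 ≤ δ → Zn δ u e x → Zn (δ + 3 * C * θ) u e' x

def rFOOT : Prop := SEG → FOOT
def rPAR : Prop := SEG → PAR
def rTL0 : Prop := FOOT → PAR → BAR → MAX → TL0
def rTL : Prop := TL0 → TL

/-! ## Graphs -/

/-- **GR**: sheets are graphs -/
def GR : Prop := ∀ (m : ℕ) (C : ℝ), ∃ ε₀ > (0 : ℝ), ∀ (u : E (m + 1) → ℝ) (ε a r θ l : ℝ)
  (z e : E (m + 1)) (L : E m →ₗᵢ[ℝ] E (m + 1)), Ok C u → Fr e L → 0 < ε → ε ≤ ε₀ → 0 < r → 0 ≤ l →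
  Gd u ε z (|a| + 3 * r + 3) → Fl u l z (|a| + 3 * r + 3) → u (z + a • e) = 0 →
  ‖pp u (z + a • e) - e‖ ≤ θ → θ + 2 * l * r ≤ 1 / 10 →
  ∃ h, h 0 = a ∧ Gr u z e L r h (θ + 2 * l * r)

/-- **GD**: the derivatives of a graph -/
def GD : Prop := ∀ (m : ℕ) (C θ r : ℝ) (u : E (m + 1) → ℝ) (z e : E (m + 1))
  (L : E m →ₗᵢ[ℝ] E (m + 1)) (h : E m → ℝ), Ok C u → Gr u z e L r h θ → θ ≤ 1 / 10 →
  ∀ y ∈ ball (0 : E m) r,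
    gradient h y = (-(pe u e (pt z e L y (h y)))⁻¹) • adj L (pp u (pt z e L y (h y))) ∧
    Nn (gradient h y) = (-‖pp u (pt z e L y (h y))‖⁻¹) • adj L (pp u (pt z e L y (h y))) ∧
    ‖gradient h y‖ ≤ 2 * θ ∧
    ‖fderiv ℝ (gradient h) y‖ ≤ 2 * ‖SS u (pt z e L y (h y))‖ ∧
    |mc h y| ≤ C * qq u (pt z e L y (h y))

/-- **NC**: sheets do not cross -/
def NC : Prop := ∀ (m : ℕ) (C : ℝ) (u : E (m + 1) → ℝ) (z e : E (m + 1))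
  (L : E m →ₗᵢ[ℝ] E (m + 1)) (U : Set (E m)) (g₁ g₂ : E m → ℝ), Ok C u → IsPreconnected U →
  ContinuousOn g₁ U → ContinuousOn g₂ U →
  (∀ y ∈ U, u (pt z e L y (g₁ y)) = 0 ∧ u (pt z e L y (g₂ y)) = 0 ∧
    pe u e (pt z e L y (g₁ y)) ≠ 0) →
  ∀ y₀ ∈ U, g₁ y₀ < g₂ y₀ → ∀ y ∈ U, g₁ y < g₂ y

/-- **LAY**: a graph in the good region is a layer -/
def LAY : Prop := ∀ (m : ℕ) (C M δ : ℝ), 0 < δ → δ ≤ 1 / 1000 → ∃ θ > (0 : ℝ), ∃ ε₀ > (0 : ℝ),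
  ∀ (u : E (m + 1) → ℝ) (ε r : ℝ) (z e : E (m + 1)) (L : E m →ₗᵢ[ℝ] E (m + 1)) (h : E m → ℝ),
  Ok C u → 0 < ε → ε ≤ ε₀ → 1 ≤ M → Gr u z e L r h θ → Gd u ε z (|h 0| + 2 * r + 1 / ε) →
  Lay C ε δ u z e L r h (M * lg ε)

def rLAY : Prop := TL → ZT → GD → LAY

/-! ## Vertical lines -/

/-- **LN**: the restriction to a vertical line -/
def LN : Prop := ∀ (m : ℕ) (C ε δ r T : ℝ) (u : E (m + 1) → ℝ) (z e : E (m + 1))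
  (L : E m →ₗᵢ[ℝ] E (m + 1)) (h : E m → ℝ), Lay C ε δ u z e L r h T → ∀ y ∈ ball (0 : E m) r,
  Ln ε δ T (fun t => ps u (pt z e L y (h y + t))) (fun t => pe u e (pt z e L y (h y + t)))
    (fun t => ⟪SS u (pt z e L y (h y + t)) e, e⟫) (fun t => qq u (pt z e L y (h y + t)))
    (fun t => u (pt z e L y (h y + t))) (fun t => ff u (pt z e L y (h y + t))) ∧
  (∀ c t, pt z e L y (h y + t) ∈ Wr u z e L r h T c ↔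
    t ∈ Iv (fun t => pe u e (pt z e L y (h y + t))) T c) ∧
  (∀ T' t, cut z e L h T' (pt z e L y (h y + t)) = kp (t / T')) ∧
  ∀ t, HasDerivAt (fun t => pp u (pt z e L y (h y + t))) (SS u (pt z e L y (h y + t)) e) t ∧
    ‖pp u (pt z e L y (h y + t))‖ ≤ 1 ∧ (|t| ≤ T → 0 ≤ pe u e (pt z e L y (h y + t)) →
      ‖SS u (pt z e L y (h y + t)) e‖ ≤ 2 * C * qq u (pt z e L y (h y + t)) +
        2 * C * δ * √(qq u (pt z e L y (h y + t))))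

/-- the structure of a column above the sheet: the phase rises up to the height `b` -/
structure Cl (ε T c b : ℝ) (ψ s q u f : ℝ → ℝ) : Prop where
  b0 : 0 < b
  bT : b ≤ T
  lo : ∀ t ∈ Ico 0 b, t ∈ Iv s T c ∧ 9 / 10 < s t
  hi : ∀ t ∈ Iv s T c, b ≤ t → s t ≤ 9 / 10 ∧ t ≤ b + 40 ∧ f t ^ 2 ≤ 20 * ε ^ 2
  tp : b = T ∨ f b ^ 2 ≤ 20 * ε ^ 2
  ps : ∀ t ∈ Iv s T c, 0 < t → 0 < u t
  dc : ∀ t ∈ Iv s T c, 0 ≤ t → f t ≤ Real.exp 120 * Real.exp (-t)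

/-- **COL**: the structure of a column -/
def COL : Prop := ∀ (ε δ T c : ℝ) (ψ s d q u f : ℝ → ℝ), Ln ε δ T ψ s d q u f →
  -(19 / 20) ≤ c → c ≤ 1 / 2 →
  (∃ b, Cl ε T c b ψ s q u f) ∧
  (∀ t, |t| ≤ T → |s t| ≤ 19 / 20 → 1 / 20 ≤ q t ∧ f t ^ 2 ≤ 20 * ε ^ 2 ∧ 1 - δ ≤ |u t| ∧
    (0 < u t → (√2 - 25 * δ) * q t ≤ -d t)) ∧
  (∀ t, 0 ≤ t → t < T → (∀ t' ∈ Ioc 0 t, u t' ≠ 0) → c < s t → t ∈ Iv s T c) ∧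
  (∀ t, 0 ≤ t → t < T → t ∉ Iv s T c → s t = c ∨ ∃ t' ∈ Icc 0 t, s t' < c) ∧
  ∀ t, |t| ≤ T → u t = 0 → 99 / 100 ≤ |s t|

/-- **REG**: the boundary of the region of a layer -/
def REG : Prop := ∀ (m : ℕ) (C ε δ r T c : ℝ) (u : E (m + 1) → ℝ) (z e : E (m + 1))
  (L : E m →ₗᵢ[ℝ] E (m + 1)) (h : E m → ℝ), Lay C ε δ u z e L r h T → -(19 / 20) ≤ c → c ≤ 1 / 2 →
  IsOpen (Wn z e L r h T) ∧ IsOpen (Wr u z e L r h T c) ∧ ∀ x ∈ Wn z e L r h T,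
    x ∉ Wr u z e L r h T c → pe u e x = c ∨ ∀ᶠ y in 𝓝 x, y ∉ Wr u z e L r h T c

/-- **CS**: integrals over a column -/
def CS : Prop := ∃ K, ∀ (ε δ T c : ℝ) (ψ s d q u f : ℝ → ℝ), Ln ε δ T ψ s d q u f →
  -(19 / 20) ≤ c → c ≤ 1 / 2 → MeasurableSet (Iv s T c) ∧
  ∫ t in Iv s T c, f t ^ 2 * max (s t) 0 ≤ sg + K * ε ^ 2 ∧ ∫ t in Iv s T c, f t ≤ K ∧
  (∫ t in Iv s T c ∩ {t | s t ≤ 9 / 10}, f t ^ 2) ≤ K * ε ^ 2 ∧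
  (∀ t ∈ Iv s T c, f t ≤ K * Real.exp (-|t|)) ∧
  ∀ B χ χ', Chi B χ χ' →
    |(∫ t in Iv s T (-(19 / 20)), kp (t / T) * χ (s t) * (f t ^ 2 * s t)) - sg| ≤
      K * (ε ^ 2 + Real.exp (-T))

/-- **CJ**: the variation of the gradient over a column -/
def CJ : Prop := ∀ (n : ℕ) (C : ℝ), 1 ≤ C → ∃ K, ∀ (ε δ T : ℝ) (ψ s d q u f : ℝ → ℝ) (P P' : ℝ → E n),
  Ln ε δ T ψ s d q u f → (∀ t, HasDerivAt P (P' t) t ∧ ‖P t‖ ≤ 1 ∧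
    (|t| ≤ T → 0 ≤ s t → ‖P' t‖ ≤ 2 * C * q t + 2 * C * δ * √(q t))) →
  (∫ t in Iv s T (-(19 / 20)), f t ^ 2 * ‖P t - P 0‖) ≤ K * (δ * ε + ε ^ 2 * T)

def rREG : Prop := SYM → LN → COL → REG
def rCS : Prop := SYM → COL → CS
def rCJ : Prop := SYM → COL → CJ

end Vale.Agent.P134B
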