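import Vale.Agent.P134B.Spec
import Vale.Agent.P366D.Harn

/-!
# P134B: the solution is one-dimensional up to logarithmic height
-/

open MeasureTheory Metric Filter Topology Set
open scoped ContDiff RealInnerProductSpace
open Vale.Agent.P366.Stmt (E pd)
open Vale.Agent.P366W

noncomputable section

namespace Vale.Agent.P134B

namespace TLa

variable {n : ℕ} {C : ℝ} {u : E n → ℝ}

/-- the unit matrix -/
def one (n : ℕ) : E n → Fin n → Fin n → ℝ := fun _ i j => if i = j then 1 else 0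

theorem gp_one (x : E n) : P366D.Gp 1 (one n) x where
  sy i j := by simp [one, eq_comm]
  lo ξ := by simp [one, P366Z.Grad.qf, sq]
  hi i j := by unfold one; split_ifs <;> simp
  df i j := by unfold one; simp

theorem Lu_one {φ : E n → ℝ} (h : ContDiff ℝ ∞ φ) (x : E n) : P366D.Lu (one n) φ x = lap φ x := by
  have d1 : Differentiable ℝ φ := h.differentiable (by simp)
  have d2 : Differentiable ℝ (gradient φ) := (smooth_gradient h).differentiable (by simp)
  have e1 : ∀ i, pd i φ = fun y => EuclideanSpace.proj (𝕜 := ℝ) i (gradient φ y) := fun i => by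
    funext y
    rw [P366Z.pd_eq (d1 y), ← inner_grad, EuclideanSpace.inner_single_right]
    simp
  simp only [P366D.Lu, P366Z.Grad.pr, one, ite_mul, one_mul, zero_mul, Finset.sum_ite_eq,
    Finset.mem_univ, if_true, lap, dvg]
  refine Finset.sum_congr rfl fun i _ => ?_
  have k := P366Z.pd_of_hasFDerivAt
    ((EuclideanSpace.proj i : E n →L[ℝ] ℝ).hasFDerivAt.comp x (d2 x).hasFDerivAt) i
  exact (congrArg (fun g => pd i g x) (e1 i)).trans k

theorem pp_le (h : Ok C u) (x : E n) : ‖pp u x‖ ≤ 1 := by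
  have := h.q0 x
  unfold qq at this
  nlinarith [norm_nonneg (pp u x)]

theorem PP_le (h : Ok C u) (x : E n) : |PP u x| ≤ 1 := by
  have a := h.q0 x
  have b : qq u x ≤ 1 := by unfold qq; nlinarith [norm_nonneg (pp u x)]
  have c : u x ^ 2 ≤ 1 := by have := h.lt x; rw [← sq_abs]; nlinarith [abs_nonneg (u x)]
  have e : PP u x = (1 - u x ^ 2) * qq u x := by
    unfold PP ff
    field_simp
  rw [e, abs_of_nonneg (mul_nonneg (by linarith) a)]
  nlinarith [sq_nonneg (u x)]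

theorem sm_pe (h : Ok C u) (τ : E n) : ContDiff ℝ ∞ (pe u τ) :=
  (smooth_gradient h.smp).inner ℝ contDiff_const

/-- the interior estimate for the gradient of the tilt -/
theorem ge (hn : 1 ≤ n) : ∃ K ≥ (0 : ℝ), ∀ (C : ℝ) (u : E n → ℝ) (τ x : E n) (η : ℝ), Ok C u →
    0 ≤ η → (∀ y ∈ closedBall x 1, |pe u τ y| ≤ η) → ‖SS u x τ‖ ≤ K * η := by
  set R : ℝ := 1 / (2 * (3 * n ^ 2 + 6)) with hR
  have R0 : 0 < R := by positivity
  have R1 : R ≤ 1 := by
    rw [hR, div_le_one (by positivity)]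
    nlinarith [sq_nonneg (n : ℝ)]
  refine ⟨16 * (2 * n + 1) / R + 4 * R, by positivity, fun C u τ x η h η0 hb => ?_⟩
  have k := P366D.est_loc (a := one n) (u := pe u τ) (x₀ := x) (Λ := 1) (β := 3) (R := R) (M := η)
    (S := η) hn le_rfl (by norm_num) R0 η0 (fun y _ => gp_one y) (by rw [hR]; field_simp; linarith)
    fun y hy => ?_
  · rw [← h.gp, norm_gradient]
    refine k.trans (le_of_eq ?_)
    ring
  have hy' := hb y (closedBall_subset_closedBall R1 hy)
  refine ⟨((sm_pe h τ).of_le (by norm_cast)).contDiffAt, hy', ?_⟩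
  have j := h.jac τ y
  unfold Lf at j
  rw [Lu_one (sm_pe h τ), ← norm_gradient, show lap (pe u τ) y =
    2 * √2 * u y * ⟪pp u y, gradient (pe u τ) y⟫ - PP u y * pe u τ y by linarith]
  have a1 : |PP u y * pe u τ y| ≤ η := by
    rw [abs_mul]
    nlinarith [PP_le h y, abs_nonneg (pe u τ y), abs_nonneg (PP u y)]
  have a2 : |⟪pp u y, gradient (pe u τ) y⟫| ≤ ‖gradient (pe u τ) y‖ :=
    (abs_real_inner_le_norm _ _).trans (mul_le_of_le_one_left (norm_nonneg _) (pp_le h y))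
  have s2 : √2 ≤ 3 / 2 := Real.sqrt_le_iff.2 ⟨by norm_num, by norm_num⟩
  have a3 : |2 * √2 * u y| ≤ 3 := by
    rw [abs_mul, abs_of_nonneg (by positivity : (0 : ℝ) ≤ 2 * √2)]
    nlinarith [h.lt y, abs_nonneg (u y), Real.sqrt_nonneg 2]
  have a4 : |2 * √2 * u y * ⟪pp u y, gradient (pe u τ) y⟫| ≤ 3 * ‖gradient (pe u τ) y‖ := by
    rw [abs_mul]
    exact mul_le_mul a3 a2 (abs_nonneg _) (by norm_num)
  linarith [abs_sub (2 * √2 * u y * ⟪pp u y, gradient (pe u τ) y⟫) (PP u y * pe u τ y)]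

theorem lg_le {ε s : ℝ} (s0 : 0 < s) (e : ε = s ^ 8) : lg ε * s ≤ 8 := by
  have := Real.log_le_sub_one_of_pos (inv_pos.2 s0)
  rw [Real.log_inv] at this
  have k : lg ε = 8 * -Real.log s := by rw [lg, e, Real.log_pow]; push_cast; ring
  have k2 : s⁻¹ * s = 1 := inv_mul_cancel₀ s0.ne'
  rw [k]
  nlinarith

theorem lg_ge {ε : ℝ} (e0 : 0 < ε) (e1 : ε ≤ 1 / 3) : 1 ≤ lg ε := by
  have : Real.exp 1 ≤ ε⁻¹ := by
    rw [le_inv_comm₀ (Real.exp_pos 1) e0]
    refine e1.trans ?_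
    rw [one_div]
    exact inv_anti₀ (Real.exp_pos 1) (by linarith [Real.exp_one_lt_d9])
  rw [lg, ← Real.log_inv]
  exact (Real.le_log_iff_exp_le (inv_pos.2 e0)).2 this

theorem perp {e : E n} (he : ‖e‖ = 1) (v : E n) :
    ⟪v - ⟪v, e⟫ • e, e⟫ = 0 ∧ ‖v - ⟪v, e⟫ • e‖ ≤ ‖v‖ := by
  have a : ⟪e, e⟫ = (1 : ℝ) := by rw [real_inner_self_eq_norm_sq, he]; norm_num
  refine ⟨by rw [inner_sub_left, real_inner_smul_left, a]; ring, ?_⟩
  refine abs_le_of_sq_le_sq' ?_ (norm_nonneg _) |>.2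
  rw [norm_sub_sq_real, real_inner_smul_right, norm_smul, he, Real.norm_eq_abs, mul_one, sq_abs]
  nlinarith [sq_nonneg ⟪v, e⟫]

/-- from the bound for the tilt to the four inequalities -/
theorem zn (h : Ok C u) {e x : E n} {K η ε d : ℝ} (he : ‖e‖ = 1) (K0 : 0 ≤ K) (η0 : 0 < η)
    (η1 : η ≤ 1) (hε : ε = η ^ 4) (hd : (n * K + K + 2) * η ≤ d) (hE : EE u x ≤ ε ^ 2)
    (h0 : ∀ τ, ⟪τ, e⟫ = 0 → |pe u τ x| ≤ η * ‖τ‖)
    (h1 : ∀ τ, ⟪τ, e⟫ = 0 → ‖SS u x τ‖ ≤ K * (η * ‖τ‖)) : Zn d u e x := by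
  have n0 : (0 : ℝ) ≤ n * K * η := by positivity
  have n1 : 0 ≤ K * η := by positivity
  refine ⟨?_, fun τ hτ => (h1 τ hτ).trans ?_, ?_, ?_⟩
  · obtain ⟨a, -⟩ := perp he (pp u x)
    have b := h0 _ a
    change ‖pp u x - ⟪pp u x, e⟫ • e‖ ≤ d
    set w := pp u x - ⟪pp u x, e⟫ • e with hw
    have c : pe u w x = ‖w‖ ^ 2 := by
      rw [← real_inner_self_eq_norm_sq]
      conv_rhs => rw [hw, inner_sub_left, real_inner_smul_left, ← hw, real_inner_comm w e, a]
      unfold pe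
      ring
    rw [c, abs_of_nonneg (sq_nonneg _)] at b
    have : ‖w‖ ≤ η := by
      by_contra k
      nlinarith [not_le.1 k]
    linarith
  · nlinarith [norm_nonneg τ]
  · have a : ‖SS u x - (innerSL ℝ e).smulRight (SS u x e)‖ ≤ K * η := by
      refine ContinuousLinearMap.opNorm_le_bound _ n1 fun v => ?_
      obtain ⟨a, b⟩ := perp he v
      have c := h1 _ a
      rw [map_sub, map_smul] at c
      have : K * (η * ‖v - ⟪v, e⟫ • e‖) ≤ K * η * ‖v‖ := by
        rw [← mul_assoc]; exact mul_le_mul_of_nonneg_left b n1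
      simpa [real_inner_comm] using c.trans this
    have b := abs_trc_le (SS u x - (innerSL ℝ e).smulRight (SS u x e))
    rw [trc_sub, trc_smulRight, h.tr, abs_sub_comm] at b
    have c := mul_le_mul_of_nonneg_left a (Nat.cast_nonneg (α := ℝ) n)
    rw [real_inner_comm]
    simp only [innerSL_apply_apply, sub_neg_eq_add] at b
    linarith
  · rw [or_iff_not_imp_right]
    intro k
    have k1 : |u x| < 1 - d := not_le.1 k
    have d2 : 2 * η ≤ d := by linarith
    have q0 := h.q0 x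
    have f1 : d ≤ 1 - u x ^ 2 := by
      rw [← sq_abs]
      nlinarith [abs_nonneg (u x)]
    have f2 : ff u x ^ 2 = (1 - u x ^ 2) ^ 2 / 2 := by
      rw [ff, div_pow, Real.sq_sqrt (by norm_num)]
    have f3 : (2 * η) ^ 2 ≤ (1 - u x ^ 2) ^ 2 := pow_le_pow_left₀ (by positivity) (d2.trans f1) 2
    rw [EE, f2, hε] at hE
    have f4 : η ^ 2 * (2 * qq u x) ≤ η ^ 2 * η ^ 6 := by nlinarith
    have f5 := le_of_mul_le_mul_left f4 (by positivity)
    have f6 : η ^ 6 ≤ η := pow_le_of_le_one η0.le η1 (by norm_num)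
    linarith

end TLa

open TLa in
theorem tl : rTL := fun H m C M δ δ0 => by
  obtain ⟨K, K0, hK⟩ := ge (n := m + 1) (by omega)
  obtain ⟨ε₁, e1, h1⟩ := H (m + 1) C (M + 1)
  set A : ℝ := ((m + 1 : ℕ) : ℝ) * K + K + 2 with hA
  have A0 : 0 < A := by positivity
  set s₀ : ℝ := min (δ / (8 * A)) (1 / (8 * (|M| + 1))) with hs
  have s0 : 0 < s₀ := by positivity
  refine ⟨min ε₁ (s₀ ^ 8), by positivity, fun u ε z h ε0 hε hG hz x hx => ?_⟩
  obtain ⟨s, sp, se⟩ : ∃ s > (0 : ℝ), ε = s ^ 8 :=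
    ⟨ε ^ ((8 : ℕ)⁻¹ : ℝ), by positivity, (Real.rpow_inv_natCast_pow ε0.le (by norm_num)).symm⟩
  have ss : s ≤ s₀ := le_of_pow_le_pow_left₀ (n := 8) (by norm_num) s0.le
    (se ▸ hε.trans (min_le_right _ _))
  have s1 : s * (8 * A) ≤ δ := (le_div_iff₀ (by positivity)).1 (ss.trans (min_le_left _ _))
  have s2 : s * (8 * (|M| + 1)) ≤ 1 := (le_div_iff₀ (by positivity)).1 (ss.trans (min_le_right _ _))
  have s3 : s ≤ 1 / 8 := by nlinarith [abs_nonneg M]
  have s4 : ε ≤ s := se ▸ pow_le_of_le_one sp.le (by linarith) (by norm_num)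
  have s5 : ε ≤ s ^ 2 := se ▸ pow_le_pow_of_le_one sp.le (by linarith) (by norm_num)
  have l1 := lg_ge ε0 (by linarith)
  have l2 := lg_le sp se
  have η : √(√ε) = s ^ 2 := by
    rw [se, show s ^ 8 = (s ^ 4) ^ 2 by ring, Real.sqrt_sq (by positivity),
      show s ^ 4 = (s ^ 2) ^ 2 by ring, Real.sqrt_sq (by positivity)]
  have p0 : pp u z ≠ 0 := fun k => by
    have := hG z (mem_ball_self (by positivity))
    rw [EE, ff, qq, k, hz, div_pow, Real.sq_sqrt (by norm_num)] at this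
    norm_num at this
    nlinarith
  have pn : ‖pp u z‖ ≠ 0 := norm_ne_zero_iff.2 p0
  have he : ‖‖pp u z‖⁻¹ • pp u z‖ = 1 := by
    rw [norm_smul, norm_inv, norm_norm, inv_mul_cancel₀ pn]
  have k0 : ∀ τ, ⟪τ, ‖pp u z‖⁻¹ • pp u z⟫ = 0 → ∀ y ∈ closedBall x 1,
      |pe u τ y| ≤ s ^ 2 * ‖τ‖ := fun τ hτ y hy => by
    rw [real_inner_smul_right, mul_eq_zero, or_iff_right (inv_ne_zero pn)] at hτ
    by_cases t0 : τ = 0
    · simp [t0, pe]
    have tn : 0 < ‖τ‖ := norm_pos_iff.2 t0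
    have := h1 u ε z (‖τ‖⁻¹ • τ) h ε0 (hε.trans (min_le_left _ _)) hG hz
      (by rw [real_inner_smul_left, hτ, mul_zero])
      (by rw [norm_smul, norm_inv, norm_norm, inv_mul_cancel₀ tn.ne']) y (by
        rw [mem_ball] at hx ⊢
        linarith [dist_triangle y x z, mem_closedBall.1 hy])
    rw [η, pe, real_inner_smul_right, abs_mul, abs_of_pos (inv_pos.2 tn), inv_mul_le_iff₀ tn,
      mul_comm] at this
    exact this
  refine zn h he K0 (η := s ^ 2) (ε := ε) (by positivity) (by nlinarith) (by rw [se]; ring) ?_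
    (hG x (ball_subset_ball ?_ hx)) (fun τ hτ => k0 τ hτ x (mem_closedBall_self zero_le_one))
    fun τ hτ => hK C u τ x _ h (by positivity) (k0 τ hτ)
  · rw [le_div_iff₀ (by linarith), ← hA]
    have : A * s * (lg ε * s) ≤ A * s * 8 := mul_le_mul_of_nonneg_left l2 (by positivity)
    nlinarith
  · rw [le_div_iff₀ ε0]
    have a2 : M * lg ε * ε ≤ |M| * (lg ε * s) * s := by
      have : lg ε * ε ≤ lg ε * s ^ 2 := mul_le_mul_of_nonneg_left s5 (by linarith)
      have b : 0 ≤ lg ε * ε := by positivity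
      nlinarith [le_abs_self M, abs_nonneg M]
    have a3 : |M| * (lg ε * s) * s ≤ |M| * 8 * s := by gcongr
    nlinarith

end Vale.Agent.P134B
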