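import Vale.Agent.P134B.Spec

/-!
# P134B, row TL0: the tilt up to logarithmic height (helper1)
-/

set_option linter.all false

open Metric Filter Topology Set
open scoped ContDiff RealInnerProductSpace
open Vale.Agent.P366.Stmt (E)
open Vale.Agent.P366W

noncomputable section

namespace Vale.Agent.P134B

namespace Tl0

variable {n : ℕ} {C : ℝ} {u : E n → ℝ}

theorem p1 (h : Ok C u) (x : E n) : ‖pp u x‖ ≤ 1 :=
  (sq_le_one_iff₀ (norm_nonneg _)).1 (sub_nonneg.1 (h.q0 x))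

theorem lip (h : Ok C u) (x y : E n) : |ps u x - ps u y| ≤ ‖x - y‖ := by
  simpa using convex_univ.norm_image_sub_le_of_norm_fderiv_le (𝕜 := ℝ) (f := ps u) (C := 1)
    (fun z _ => (h.smp.differentiable (by simp)) z)
    (fun z _ => (norm_gradient _ z).symm.trans_le (p1 h z)) (mem_univ y) (mem_univ x)

theorem f0 (h : Ok C u) (x : E n) : 0 < ff u x := lt_of_lt_of_le (by positivity) (h.flo x)

theorem f1 (x : E n) : ff u x ≤ 1 :=
  (div_le_one (by positivity)).2 (by linarith [Real.one_lt_sqrt_two, sq_nonneg (u x)])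

theorem lf_sub {φ ψ : E n → ℝ} (hφ : ContDiff ℝ 2 φ) (hψ : ContDiff ℝ 2 ψ) (θ : ℝ) (x : E n) :
    Lf u (fun y => φ y - θ * ψ y) x = Lf u φ x - θ * Lf u ψ x := by
  have e : gradient (fun y => φ y - θ * ψ y) = fun y => gradient φ y - θ • gradient ψ y := by
    funext y
    refine ext_inner_right ℝ fun v => ?_
    rw [inner_sub_left, real_inner_smul_left, inner_grad, inner_grad, inner_grad,
      fderiv_fun_sub (hφ.differentiable two_ne_zero y)
        ((hψ.differentiable two_ne_zero y).const_mul θ),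
      fderiv_const_mul (hψ.differentiable two_ne_zero y)]
    rfl
  have d : ∀ {f : E n → ℝ}, ContDiff ℝ 2 f → DifferentiableAt ℝ (gradient f) x := fun hf =>
    (contDiff_gradient (k := 1) hf).differentiable one_ne_zero x
  simp only [Lf, lap, e]
  rw [dvg_sub (d hφ) ((d hψ).fun_const_smul θ), dvg_smul (differentiableAt_const θ) (d hψ),
    inner_sub_right, real_inner_smul_right]
  simp only [fderiv_fun_const, Pi.zero_apply, ContinuousLinearMap.zero_apply]
  ring

theorem ch1 (hn : 0 < n) (l : ℝ) (x y : E n) : 1 ≤ ch l x y :=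
  (Real.one_le_cosh _).trans (Finset.single_le_sum (f := fun i => Real.cosh (l * (y i - x i)))
    (fun _ _ => (Real.cosh_pos _).le) (Finset.mem_univ ⟨0, hn⟩))

theorem ch2 {l s : ℝ} (hl : 0 < l) (hs : 0 < s) {x y : E n} (h : ‖y - x‖ = (n + 1) / l * s) :
    Real.exp s / 2 ≤ ch l x y := by
  obtain ⟨i, hi⟩ : ∃ i, s / l ≤ |y i - x i| := by
    by_contra! a
    have := EuclideanSpace.real_norm_sq_eq (y - x)
    have b : ∑ i, (y - x) i ^ 2 ≤ n * (s / l) ^ 2 := by
      simpa using Finset.sum_le_card_nsmul Finset.univ (fun i => (y - x) i ^ 2) _ fun i _ =>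
        sq_le_sq.2 ((a i).le.trans (le_abs_self _))
    rw [← this, h, show (n + 1) / l * s = (n + 1) * (s / l) by ring, mul_pow] at b
    have : 0 < (s / l) ^ 2 := by positivity
    nlinarith [n.cast_nonneg (α := ℝ), sq_nonneg (n : ℝ)]
  refine le_trans ?_ (Finset.single_le_sum (f := fun i => Real.cosh (l * (y i - x i)))
    (fun _ _ => (Real.cosh_pos _).le) (Finset.mem_univ i))
  rw [← Real.cosh_abs, Real.cosh_eq, abs_mul, abs_of_pos hl]
  have := Real.exp_le_exp.2 ((div_le_iff₀' hl).1 hi)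
  linarith [Real.exp_pos (-(l * |y i - x i|))]

/-- the maximum principle for the quotient by the barrier -/
theorem quo (mx : MAX) (h : Ok C u) (hn : 0 < n) {γ l A ρ d : ℝ} (hγ : 0 < γ) (hρ : 0 ≤ ρ)
    (hd : 0 ≤ d) (τ x : E n) (bar : ∀ y, A ≤ |ps u y| →
      ContDiff ℝ 2 (fun y => ff u y ^ (-γ) * ch l x y) ∧
      Lf u (fun y => ff u y ^ (-γ) * ch l x y) y + PP u y * (ff u y ^ (-γ) * ch l x y) ≤
        -(γ / 2) * (ff u y ^ (-γ) * ch l x y))
    (sph : ∀ y, ‖y - x‖ = ρ → pe u τ y ≤ d * ch l x y)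
    (low : ∀ y, ‖y - x‖ ≤ ρ → |ps u y| ≤ A → pe u τ y ≤ d) :
    pe u τ x ≤ d * (ff u x ^ (-γ) * n) := by
  set B : E n → ℝ := fun y => ff u y ^ (-γ) * ch l x y with hB
  have F1 : ∀ y, 1 ≤ ff u y ^ (-γ) := fun y =>
    Real.one_le_rpow_of_pos_of_le_one_of_nonpos (f0 h y) (f1 y) (neg_nonpos.2 hγ.le)
  have B1 : ∀ y, ch l x y ≤ B y := fun y =>
    le_mul_of_one_le_left (zero_le_one.trans (ch1 hn l x y)) (F1 y)
  have B0 : ∀ y, 0 < B y := fun y => one_pos.trans_le ((ch1 hn l x y).trans (B1 y))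
  have ξ2 : ContDiff ℝ 2 (pe u τ) :=
    ((smooth_gradient h.smp).of_le (by norm_cast)).inner ℝ contDiff_const
  have cu := h.sm.continuous
  have cB : Continuous B := (Continuous.rpow_const (by unfold ff; fun_prop)
    fun y => .inl (f0 h y).ne').mul (by unfold ch; fun_prop)
  obtain ⟨y, y1, y2⟩ := (isCompact_closedBall x ρ).exists_isMaxOn ⟨x, mem_closedBall_self hρ⟩
    (ξ2.continuous.div cB fun y => (B0 y).ne').continuousOn
  have key : pe u τ y / B y ≤ d := by
    rw [mem_closedBall, dist_eq_norm] at y1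
    rcases y1.eq_or_lt with e | e
    · exact (div_le_iff₀ (B0 y)).2 ((sph y e).trans (mul_le_mul_of_nonneg_left (B1 y) hd))
    rcases le_total |ps u y| A with a | a
    · exact (div_le_iff₀ (B0 y)).2 ((low y y1 a).trans
        (le_mul_of_one_le_right hd ((ch1 hn l x y).trans (B1 y))))
    refine le_trans (not_lt.1 fun t0 => ?_) hd
    obtain ⟨b1, b2⟩ := bar y a
    have e0 : pe u τ y = pe u τ y / B y * B y := (div_mul_cancel₀ _ (B0 y).ne').symm
    obtain ⟨m1, m2⟩ := mx n (fun w => pe u τ w - pe u τ y / B y * B w) y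
      (ξ2.sub (contDiff_const.mul b1)).contDiffAt (by
        filter_upwards [closedBall_mem_nhds_of_mem (show y ∈ ball x ρ by rwa [mem_ball, dist_eq_norm])]
          with w hw
        rw [← e0, sub_self, sub_nonpos]
        exact (div_le_iff₀ (B0 w)).1 (y2 hw))
    have := lf_sub (u := u) ξ2 b1 (pe u τ y / B y) y
    rw [h.jac, Lf, m1, inner_zero_right] at this
    have b3 := mul_le_mul_of_nonneg_left b2 t0.le
    have b4 := mul_pos t0 (mul_pos hγ (B0 y))
    have b5 : PP u y * pe u τ y = PP u y * (pe u τ y / B y * B y) := congrArg _ e0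
    simp only [hB] at *
    linarith
  have := (div_le_iff₀ (B0 x)).1 ((y2 (mem_closedBall_self hρ)).trans key)
  simpa [hB, ch] using this

theorem small {a b κ : ℝ} (a0 : 0 < a) (b1 : 1 ≤ b) (κ1 : 1 ≤ κ) : ∃ ε₀ > (0 : ℝ), ∀ ε, 0 < ε →
    ε ≤ ε₀ → ∃ t, 1 ≤ t ∧ 0 < lg ε ∧ t = Real.exp (lg ε / 8) ∧ ε = (t⁻¹ ^ 4) ^ 2 ∧
      Real.exp (lg ε) = (t ^ 4) ^ 2 ∧ κ * (a * lg ε + b) ≤ t := by
  refine ⟨Real.exp (-(1 + 128 * (κ * (a + b)))), by positivity, fun ε e0 he => ?_⟩
  obtain ⟨s, rfl⟩ : ∃ s, ε = Real.exp (-s) := ⟨-Real.log ε, by rw [neg_neg, Real.exp_log e0]⟩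
  have s0 : 1 + 128 * (κ * (a + b)) ≤ s := neg_le_neg_iff.1 (Real.exp_le_exp.1 he)
  have kab : 0 < κ * (a + b) := by positivity
  have s1 : 1 ≤ s := by linarith
  have e : Real.exp s = (Real.exp (s / 8) ^ 4) ^ 2 := by
    rw [← pow_mul, ← Real.exp_nat_mul]
    congr 1
    push_cast
    ring
  rw [lg, Real.log_exp, neg_neg]
  refine ⟨_, Real.one_le_exp (by positivity), by positivity, rfl, by
    rw [Real.exp_neg, e, inv_pow, inv_pow], e, ?_⟩
  have := Real.quadratic_le_exp_of_nonneg (x := s / 8) (by positivity)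
  have : κ * (a * s + b) ≤ κ * (a + b) * s := by
    rw [mul_assoc]
    exact mul_le_mul_of_nonneg_left (by nlinarith) (by linarith)
  nlinarith

theorem fb (h : Ok C u) {x : E n} {M s : ℝ} (hM : 1 ≤ M) (hs : 0 < s) (k : |ps u x| ≤ M * s) :
    ff u x ^ (-(1 / (16 * M))) ≤ 2 * Real.exp (s / 8) := by
  have s2 : √2 ≤ 2 := Real.sqrt_le_iff.2 ⟨zero_le_two, by norm_num⟩
  refine (Real.rpow_le_rpow_of_nonpos (by positivity) (h.flo x)
    (neg_nonpos.2 (by positivity))).trans ?_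
  rw [Real.div_rpow (by positivity) (by positivity), ← Real.exp_mul, Real.rpow_neg (by positivity),
    div_inv_eq_mul, mul_comm]
  refine mul_le_mul (((Real.rpow_le_rpow_of_exponent_le Real.one_lt_sqrt_two.le ((div_le_one
    (by positivity)).2 (by linarith))).trans_eq (Real.rpow_one _)).trans s2)
    (Real.exp_le_exp.2 ?_) (by positivity) zero_le_two
  calc _ = √2 * |ps u x| * (1 / (16 * M)) := by ring
    _ ≤ 2 * (M * s) * (1 / (16 * M)) := by gcongr
    _ = _ := by field_simp; norm_num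

end Tl0

open Tl0 in
theorem tl0 : rTL0 := fun foot par bar mx n C M => by
  rcases n.eq_zero_or_pos with rfl | hn
  · exact ⟨1, one_pos, fun u ε z τ _ _ _ _ _ _ _ x _ => by simp [pe, Subsingleton.elim τ 0]⟩
  have M1 : 1 ≤ |M| + 1 := le_add_of_nonneg_left (abs_nonneg M)
  obtain ⟨l, hl, A, hA⟩ := bar n (1 / (16 * (|M| + 1))) (by positivity)
    ((div_le_one (by positivity)).2 (by linarith))
  obtain ⟨K₁, ε₁, e1, h₁⟩ := foot n C |A|
  obtain ⟨K₂, ε₂, e2, h₂⟩ := par n C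
  have b1 : 1 ≤ 2 * |A| + 1 := le_add_of_nonneg_left (by positivity)
  have κ1 : 1 ≤ 1 + 2 * n * (|K₂| + |K₁| + 2) := le_add_of_nonneg_right (by positivity)
  obtain ⟨ε₃, e3, h₃⟩ := small (a := |M| + 1 + (n + 1) / l) (by positivity) b1 κ1
  refine ⟨min (min ε₁ ε₂) ε₃, by positivity, fun u ε z τ h e0 he gd uz tz t1 x hx => ?_⟩
  simp only [le_min_iff] at he
  obtain ⟨t, t1', s0, ht, e8, e9, r2⟩ := h₃ ε e0 he.2
  rw [mem_ball, dist_eq_norm] at hx
  generalize lg ε = s at *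
  obtain ⟨ρ, hρ⟩ : ∃ ρ, ρ = (|M| + 1 + (n + 1) / l) * s + (2 * |A| + 1) := ⟨_, rfl⟩
  rw [← hρ] at r2
  have t0 : 0 < t := one_pos.trans_le t1'
  have e4 : √ε = (t⁻¹ ^ 2) ^ 2 := by rw [e8, Real.sqrt_sq (by positivity)]; ring
  have r1 : 1 ≤ ρ := hρ ▸ b1.trans (le_add_of_nonneg_left (by positivity))
  have r0 : 0 ≤ ρ := zero_le_one.trans r1
  have r4 : ρ ^ 4 * ε ≤ 1 := by
    rw [e8, ← pow_mul, inv_pow, ← div_eq_mul_inv, div_le_one (by positivity)]
    exact (pow_le_pow_left₀ r0 ((le_mul_of_one_le_left r0 κ1).trans r2) 4).trans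
      (pow_le_pow_right₀ t1' (by norm_num))
  have r5 : ρ ≤ 1 / ε := (le_div_iff₀ e0).2 ((mul_le_mul_of_nonneg_right
    (le_self_pow₀ r1 four_ne_zero) e0.le).trans r4)
  have x1 : ‖x - z‖ ≤ (|M| + 1) * s := hx.le.trans
    (mul_le_mul_of_nonneg_right ((le_abs_self M).trans (lt_add_one _).le) s0.le)
  have key : ∀ τ, ⟪τ, pp u z⟫ = 0 → ‖τ‖ ≤ 1 → pe u τ x ≤ t⁻¹ ^ 2 := fun τ tz t1 => by
    have pt : ∀ v, ⟪v, τ⟫ ≤ ‖v‖ := fun v =>
      (real_inner_le_norm v τ).trans (mul_le_of_le_one_right (norm_nonneg v) t1)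
    refine (quo mx h hn (l := l) (A := |A|) (ρ := (n + 1) / l * s)
      (d := (|K₂| + |K₁| + 2) * (ρ * (t⁻¹ ^ 2) ^ 2)) (by positivity) (by positivity) (by positivity)
      τ x (fun y hy => hA C u x y h ((le_abs_self A).trans hy)) (fun y hy => ?_)
      fun y hy k => ?_).trans ?_
    · have := ch2 hl s0 hy
      calc _ ≤ 1 := (pt _).trans (p1 h y)
        _ ≤ t ^ 4 := one_le_pow₀ t1'
        _ = 2 * (1 * (t⁻¹ ^ 2) ^ 2) * (Real.exp s / 2) := by rw [e9]; field_simp
        _ ≤ _ := by gcongr; linarith [abs_nonneg K₁, abs_nonneg K₂]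
    · have y1 : ‖y - z‖ + (2 * |A| + 1) ≤ ρ := by
        rw [hρ, add_mul]
        linarith [norm_sub_le_norm_sub_add_norm_sub y x z]
      obtain ⟨w, w1, w2, w3⟩ := h₁ u _ y h e0 he.1.1 (fun w hw => gd w (ball_subset_ball'
        (by rw [dist_eq_norm]; linarith) hw)) k
      have := h₂ u _ _ z w τ h e0 he.1.2 gd uz w1 r1 r4
        ((norm_sub_le_norm_sub_add_norm_sub w y z).trans (by linarith)) tz t1
      have k1 : pe u τ y ≤ pe u τ w + ‖pp u y - pp u w‖ := by
        have := pt (pp u y - pp u w)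
        rw [inner_sub_left] at this
        simp only [pe]
        linarith
      have k2 : ε ≤ ρ * (t⁻¹ ^ 2) ^ 2 := by
        rw [← e4]
        exact ((Real.le_sqrt e0.le e0.le).2 (pow_le_of_le_one e0.le ((le_mul_of_one_le_left e0.le
          (one_le_pow₀ r1)).trans r4) two_ne_zero)).trans
          (le_mul_of_one_le_left (Real.sqrt_nonneg _) r1)
      have k3 : 0 ≤ ρ * (t⁻¹ ^ 2) ^ 2 := by positivity
      rw [e4, mul_assoc] at this
      have := mul_le_mul_of_nonneg_right (le_abs_self K₂) k3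
      have := mul_le_mul (le_abs_self K₁) k2 e0.le (abs_nonneg _)
      linarith [le_abs_self (pe u τ w)]
    · have k1 := (lip h x z).trans x1
      rw [show ps u z = 0 by simp [ps, uz], sub_zero] at k1
      have k2 := fb h M1 s0 k1
      rw [← ht] at k2
      calc _ ≤ (|K₂| + |K₁| + 2) * (ρ * (t⁻¹ ^ 2) ^ 2) * (2 * t * n) := by gcongr
        _ = 2 * n * (|K₂| + |K₁| + 2) * ρ * (t * (t⁻¹ ^ 2) ^ 2) := by ring
        _ ≤ t * (t * (t⁻¹ ^ 2) ^ 2) := mul_le_mul_of_nonneg_right (le_trans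
          (mul_le_mul_of_nonneg_right (le_add_of_nonneg_left zero_le_one) r0) r2) (by positivity)
        _ = _ := by field_simp
  rw [e4, Real.sqrt_sq (by positivity), abs_le]
  have := key (-τ) (by rw [inner_neg_left, tz, neg_zero]) (by rwa [norm_neg])
  rw [pe, inner_neg_right] at this
  exact ⟨neg_le.1 this, key τ tz t1⟩

end Vale.Agent.P134B
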