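import Vale.Agent.P134B.Spec2

/-!
# P134B, row TODA: flat layers do not interact
-/

open MeasureTheory Metric Filter Topology Set
open scoped ContDiff RealInnerProductSpace
open Vale.Agent.P366.Stmt (E)
open Vale.Agent.P366W (Fr adj dvg trc)

noncomputable section

namespace Vale.Agent.P134B

namespace Toda

variable {m : ℕ}

theorem grad_neg (h : E m → ℝ) : gradient (fun y => -h y) = fun y => -gradient h y :=
  funext fun y => by simp [gradient, fderiv_fun_neg]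

theorem mc_neg (h : E m → ℝ) (y : E m) : mc (fun y => -h y) y = -mc h y := by
  simp only [mc, lap, P366W.dvg_eq, grad_neg, fderiv_fun_neg, trc, norm_neg]
  simp only [neg_apply, PiLp.neg_apply, Finset.sum_neg_distrib, map_neg, neg_neg, inner_neg_right]
  ring

/-- the bounds for one sheet -/
theorem sheet (gd : GD) {C ε δ r T : ℝ} {u : E (m + 1) → ℝ} {z e : E (m + 1)}
    {L : E m →ₗᵢ[ℝ] E (m + 1)} {h : E m → ℝ} (l : Lay C ε δ u z e L r h T) {y : E m}
    (hy : y ∈ ball (0 : E m) r) : ‖gradient h y‖ ≤ 1 ∧ ‖fderiv ℝ (gradient h) y‖ ≤ 4 * C * ε ∧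
      |mc h y| ≤ 4 * C * ε ^ 2 := by
  obtain ⟨-, -, a, b, c⟩ := gd m C δ r u z e L h l.ok l.gr (by linarith [l.d1]) y hy
  have C1 := l.ok.C1
  have e0 := l.e0
  have q : qq u (pt z e L y (h y)) ≤ (2 * ε) ^ 2 := by
    have := l.gd y hy 0 (by rw [abs_zero]; linarith [l.T1])
    rw [add_zero, EE, ff, l.gr.ze y hy, div_pow, Real.sq_sqrt zero_le_two] at this
    nlinarith [sq_nonneg ε]
  refine ⟨by linarith [l.d1], b.trans ?_, c.trans (by nlinarith)⟩
  have := (l.ok.S0 _).trans (mul_le_mul_of_nonneg_left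
    ((Real.sqrt_le_left (by positivity)).2 q) (by linarith))
  linarith

theorem gap {ε φ : ℝ} (e0 : 0 < ε) (h : 1 / 40 * Real.exp (-(√2 * φ)) ≤ ε ^ 2) :
    √2 * lg ε - 3 ≤ φ := by
  have s2 : √2 * √2 = 2 := Real.mul_self_sqrt zero_le_two
  have s1 : (7 / 5 : ℝ) ≤ √2 := Real.le_sqrt_of_sq_le (by norm_num)
  have a : (40 : ℝ) ≤ Real.exp 4 := by
    have := pow_le_pow_left₀ (by norm_num) Real.exp_one_gt_d9.le 4
    rw [← Real.exp_nat_mul] at this
    norm_num at this ⊢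
    linarith
  have b : ε ^ 2 = Real.exp (2 * Real.log ε) := by
    rw [mul_comm, Real.exp_mul, Real.exp_log e0, Real.rpow_two]
  have c : Real.exp (-(√2 * φ)) ≤ Real.exp (4 + 2 * Real.log ε) := by
    rw [Real.exp_add, ← b]
    nlinarith [sq_nonneg ε]
  have d := Real.exp_le_exp.1 c
  rw [lg]
  refine le_of_mul_le_mul_left ?_ (show (0 : ℝ) < √2 by linarith)
  rw [mul_sub, ← mul_assoc, s2]
  linarith

end Toda

open Toda

theorem toda : rTODA := by
  intro sym gd base px sys har far m m1 m6 C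
  obtain ⟨η₁, η₁0, K, ε₁, ε₁0, hB⟩ := base m C
  obtain ⟨r₀, r0, r1, K', hH⟩ := har m (max (K + 3) (4 * C)) m1
  obtain ⟨R, R1, δ', δ'0, ε₂, ε₂0, hF⟩ := far m (K' - 3) r₀ m6 r0 r1
  obtain ⟨δ, δ0, δ1, ε₃, ε₃0, hS⟩ := sys m C δ' δ'0
  obtain ⟨η₂, η₂0, ε₄, ε₄0, hP⟩ := px m C K δ R δ0 δ1 R1
  refine ⟨min η₁ η₂, lt_min η₁0 η₂0, 10 * R + 2, by positivity, min (min ε₁ ε₂) (min ε₃ ε₄),
    by positivity, fun u ε x₀ ok st e0 e1 g f => not_le.1 fun big => ?_⟩
  simp only [le_min_iff] at e1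
  have key : ∀ (v : E (m + 1) → ℝ) z t, Ok C v → Stab v → Gd v ε z (10 * R / ε) →
      Fl v (η₂ * ε) z (10 * R / ε) → Nx v z t → t ≤ √2 * lg ε + K → False := by
    intro v z t ok st g f nx ht
    obtain ⟨e, L, h₀, h₁, a0, a1, pr⟩ := hP v ε t z ok e0 e1.2.2 g f nx ht
    obtain ⟨V, A, s1, s2⟩ := hS ε _ v z e L h₀ h₁ e1.2.1 st pr
    have s : ContDiff ℝ ∞ h₁ := by simpa using pr.l1.gr.sm.neg
    have k : 4 * C ≤ max (K + 3) (4 * C) := le_max_right _ _
    have k1 := mul_le_mul_of_nonneg_right k e0.le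
    have k2 := mul_le_mul_of_nonneg_right k (sq_nonneg ε)
    refine hF ε _ V A e0 e1.1.2 s1 (fun y hy a => s2 y hy a.le) fun y hy => ?_
    refine (hH ε (√2 * lg ε - 3) h₀ h₁ e0 pr.l0.gr.sm s (fun y hy => ?_) ?_ y hy).trans_eq (by ring)
    · have hy' := ball_subset_ball (div_le_div_of_nonneg_right R1 e0.le) hy
      obtain ⟨b1, b2, b3⟩ := sheet gd pr.l0 hy'
      obtain ⟨c1, c2, c3⟩ := sheet gd pr.l1 hy'
      rw [mc_neg, abs_neg] at c3
      rw [grad_neg, fderiv_fun_neg, norm_neg] at c2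
      rw [grad_neg, norm_neg] at c1
      refine ⟨b1, c1, b2.trans k1, c2.trans k1, b3.trans k2, c3.trans k2, ?_⟩
      rcases le_total (h₁ y - h₀ y) (4 * lg ε) with a | a
      · exact gap e0 ((s2 y hy' a).1.trans (s2 y hy' a).2)
      · have l0 : 0 ≤ lg ε := neg_nonneg.2 (Real.log_nonpos e0.le pr.l0.e1)
        have s1 : √2 ≤ (2 : ℝ) := (Real.sqrt_le_left zero_le_two).2 (by norm_num)
        nlinarith
    · rw [a0, a1]
      linarith [le_max_left (K + 3) (4 * C)]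
  have i1 : ball x₀ (2 / ε) ⊆ ball x₀ ((10 * R + 2) / ε) :=
    ball_subset_ball (div_le_div_of_nonneg_right (by linarith) e0.le)
  obtain ⟨z, t, hz, ht, nx⟩ := hB u ε x₀ ok e0 e1.1.1 (fun x hx => g x (i1 hx)) (fun x hx a =>
    (f x (i1 hx) a).trans (mul_le_mul_of_nonneg_right (min_le_left _ _) e0.le)) big
  have i2 : ball z (10 * R / ε) ⊆ ball x₀ ((10 * R + 2) / ε) := ball_subset_ball' (by
    rw [dist_eq_norm, add_div]
    exact add_le_add_right (hz.trans (div_le_div_of_nonneg_right one_le_two e0.le)) _)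
  have g' : Gd u ε z (10 * R / ε) := fun x hx => g x (i2 hx)
  have f' : Fl u (η₂ * ε) z (10 * R / ε) := fun x hx a =>
    (f x (i2 hx) a).trans (mul_le_mul_of_nonneg_right (min_le_right _ _) e0.le)
  rcases nx with nx | nx
  · exact key u z t ok st g' f' nx ht
  · obtain ⟨⟨-, -, -, b1, -, b2⟩, b3, b4, -⟩ := sym.1 _ u
    exact key (-u) z t (b3 C ok) (b4 st) (fun x hx => b2 ▸ g' x hx) (fun x hx a => by
      rw [b1, Pi.neg_apply, norm_neg]
      exact f' x hx (neg_eq_zero.1 a)) nx ht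

end Vale.Agent.P134B
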