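import Vale.Agent.P134B.Spec

/-!
# P134B: a change of the direction
-/

open Metric Filter Topology Set
open scoped RealInnerProductSpace
open Vale.Agent.P366.Stmt (E)

noncomputable section

namespace Vale.Agent.P134B

theorem zt : ZT := fun n C δ θ u e e' x h he he' hθ hδ hz => by
  have C1 := h.C1
  have θ0 : 0 ≤ θ := (norm_nonneg _).trans hθ
  have hθ' : ‖e - e'‖ ≤ θ := by rwa [norm_sub_rev]
  have q0 := h.q0 x
  have p1 : ‖pp u x‖ ≤ 1 := by
    unfold qq at q0
    nlinarith [norm_nonneg (pp u x)]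
  have q1 : √(qq u x) ≤ 1 := Real.sqrt_le_one.2 (by unfold qq; nlinarith [norm_nonneg (pp u x)])
  have hS : ‖SS u x‖ ≤ C := (h.S0 x).trans (by nlinarith)
  have hS' : ∀ v, ‖SS u x v‖ ≤ C * ‖v‖ := fun v =>
    ((SS u x).le_opNorm v).trans (by gcongr)
  have hC : θ ≤ C * θ := by nlinarith
  refine ⟨?_, fun τ hτ => ?_, ?_, hz.t3.imp (fun a => by linarith) fun a => by linarith⟩
  · have e1 : pp u x - pe u e' x • e' = (pp u x - pe u e x • e) + pe u e x • (e - e') +
        ⟪pp u x, e - e'⟫ • e' := by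
      simp only [pe, inner_sub_right, smul_sub, sub_smul]
      abel
    have a1 : |pe u e x| ≤ 1 := (abs_real_inner_le_norm _ _).trans (by rw [he]; linarith)
    have a2 : |⟪pp u x, e - e'⟫| ≤ 1 * θ := (abs_real_inner_le_norm _ _).trans (by gcongr)
    have a3 : ‖pe u e x • (e - e')‖ ≤ 1 * θ := by
      rw [norm_smul, Real.norm_eq_abs]
      gcongr
    have a4 : ‖⟪pp u x, e - e'⟫ • e'‖ ≤ 1 * θ := by
      rw [norm_smul, Real.norm_eq_abs, he', mul_one]
      exact a2
    rw [e1]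
    linarith [norm_add₃_le (a := pp u x - pe u e x • e) (b := pe u e x • (e - e'))
      (c := ⟪pp u x, e - e'⟫ • e'), hz.t0]
  · have ee : ⟪e, e⟫ = 1 := by
      rw [real_inner_self_eq_norm_sq, he]
      norm_num
    have a1 : ⟪τ - ⟪τ, e⟫ • e, e⟫ = 0 := by
      rw [inner_sub_left, real_inner_smul_left, ee]
      ring
    have a2 : ‖τ - ⟪τ, e⟫ • e‖ ≤ ‖τ‖ := by
      refine (abs_le_of_sq_le_sq' ?_ (norm_nonneg _)).2
      rw [norm_sub_sq_real, real_inner_smul_right, norm_smul, he, Real.norm_eq_abs, mul_one, sq_abs]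
      nlinarith [sq_nonneg ⟪τ, e⟫]
    have a3 : |⟪τ, e⟫| ≤ ‖τ‖ * θ := by
      have : ⟪τ, e⟫ = ⟪τ, e - e'⟫ := by rw [inner_sub_right, hτ, sub_zero]
      rw [this]
      exact (abs_real_inner_le_norm _ _).trans (by gcongr)
    have a4 : ‖SS u x (⟪τ, e⟫ • e)‖ ≤ C * (‖τ‖ * θ) := by
      refine (hS' _).trans ?_
      rw [norm_smul, he, mul_one, Real.norm_eq_abs]
      gcongr
    have a5 := (hz.t1 _ a1).trans (mul_le_mul_of_nonneg_left a2 hδ)
    have e1 : SS u x τ = SS u x (τ - ⟪τ, e⟫ • e) + SS u x (⟪τ, e⟫ • e) := by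
      rw [← map_add, sub_add_cancel]
    have a6 : 0 ≤ C * (‖τ‖ * θ) := by positivity
    rw [e1]
    nlinarith [norm_add_le (SS u x (τ - ⟪τ, e⟫ • e)) (SS u x (⟪τ, e⟫ • e))]
  · have e1 : ⟪SS u x e', e'⟫ = ⟪SS u x e, e⟫ + ⟪SS u x (e' - e), e'⟫ + ⟪SS u x e, e' - e⟫ := by
      simp only [map_sub, inner_sub_left, inner_sub_right]
      ring
    have a1 : |⟪SS u x (e' - e), e'⟫| ≤ C * θ := by
      refine (abs_real_inner_le_norm _ _).trans ?_
      rw [he', mul_one]
      exact (hS' _).trans (by gcongr)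
    have a2 : |⟪SS u x e, e' - e⟫| ≤ C * θ := by
      refine (abs_real_inner_le_norm _ _).trans ?_
      have := hS' e
      rw [he, mul_one] at this
      gcongr
    have a3 := abs_le.1 hz.t2
    have b1 := abs_le.1 a1
    have b2 := abs_le.1 a2
    rw [e1, abs_le]
    constructor <;> linarith

end Vale.Agent.P134B
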