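import Vale.Agent.P134B.BAR
import Vale.Agent.P134B.BASE
import Vale.Agent.P134B.CJ
import Vale.Agent.P134B.COL
import Vale.Agent.P134B.CS
import Vale.Agent.P134B.CV
import Vale.Agent.P134B.DIVT
import Vale.Agent.P134B.EG
import Vale.Agent.P134B.FA
import Vale.Agent.P134B.FAR
import Vale.Agent.P134B.FOOT
import Vale.Agent.P134B.GC1
import Vale.Agent.P134B.GC2
import Vale.Agent.P134B.GD
import Vale.Agent.P134B.GR
import Vale.Agent.P134B.HAR
import Vale.Agent.P134B.JAC
import Vale.Agent.P134B.KA
import Vale.Agent.P134B.KB1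
import Vale.Agent.P134B.KI1
import Vale.Agent.P134B.KI2
import Vale.Agent.P134B.KQ1
import Vale.Agent.P134B.KQ2
import Vale.Agent.P134B.LAY
import Vale.Agent.P134B.LN
import Vale.Agent.P134B.LN0
import Vale.Agent.P134B.LOC
import Vale.Agent.P134B.MAX
import Vale.Agent.P134B.MP1
import Vale.Agent.P134B.MP2
import Vale.Agent.P134B.MPE
import Vale.Agent.P134B.NC
import Vale.Agent.P134B.NEAR
import Vale.Agent.P134B.NMON
import Vale.Agent.P134B.ODE
import Vale.Agent.P134B.ORD
import Vale.Agent.P134B.PAR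
import Vale.Agent.P134B.PICK
import Vale.Agent.P134B.PRF
import Vale.Agent.P134B.PX
import Vale.Agent.P134B.REG
import Vale.Agent.P134B.SEG
import Vale.Agent.P134B.ST1
import Vale.Agent.P134B.ST2
import Vale.Agent.P134B.ST3
import Vale.Agent.P134B.STR
import Vale.Agent.P134B.SYM
import Vale.Agent.P134B.SYS
import Vale.Agent.P134B.TL
import Vale.Agent.P134B.TL0
import Vale.Agent.P134B.TODA
import Vale.Agent.P134B.ZT

/-!
# P134B: flat layers do not interact
-/

namespace Vale.Agent.P134B

theorem kk' : KK := kk_of ka ki1 ki2 kq1 kb0 kq2 kb1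

theorem tl' : TL := tl (tl0 (foot seg) (par seg) bar max')

theorem reg' : REG := reg sym ln col

theorem cs' : CS := cs sym col

theorem eg' : EG := eg sym ln col

theorem str' : STR := str (st1 divt reg') (st2 ln gd cs' (cj sym col)) (st3 sym ln gd col cs')

theorem base' : BASE := base sym tl' (mpe max' mp1 mp2) near ln0 ode

theorem px' : PX := px tl' gr nc (lay tl' zt gd) (ord gr gd nc)

theorem toda_of (g : rGAIN) (m : ℕ) (h1 : 1 ≤ m) (h6 : m ≤ 6) : TODA m :=
  toda sym gd base' px' (sys prf gd nmon str' eg'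
    (g jac gd reg' eg' (loc reg' cv) (gc1 ln col cs' reg' eg') (gc2 ln cs' reg'))) har (far fa)
    m h1 h6

end Vale.Agent.P134B
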